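import Vale.Agent.P134.MathlibUsed
attribute [-instance] ProperSMul.toContinuousSMul IsTopologicalTorsor.toContinuousSMul IdemSemiring.toCanonicallyOrderedAdd IdemSemiring.toMulLeftMono IdemSemiring.toMulRightMono AddQuantale.instAddLeftMono AddQuantale.instAddRightMono Quantale.instMulLeftMono Quantale.instMulRightMono FiniteDimensional.rclike_to_real IsScalarTower.complexToReal FiniteDimensional.complexToReal

set_option linter.all false

section

section

open Module Filter Topology
open scoped InnerProductSpace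

namespace Vale.Agent.P134

variable {E : Type*} [NormedAddCommGroup E] [InnerProductSpace ℝ E]

/-- The linear part of an isometry. -/
noncomputable def lin (g : E ≃ᵢ E) : E ≃ₗᵢ[ℝ] E := g.toRealAffineIsometryEquiv.linearIsometryEquiv

lemma iso_apply (g : E ≃ᵢ E) (x : E) : g x = lin g x + g 0 := by
  have h := g.toRealAffineIsometryEquiv.map_vadd (0 : E) x
  simpa only [lin, vadd_eq_add, add_zero, IsometryEquiv.coeFn_toRealAffineIsometryEquiv] using h

lemma iso_sub (g : E ≃ᵢ E) (x y : E) : g x - g y = lin g (x - y) := by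
  rw [iso_apply g x, iso_apply g y, map_sub]; abel

lemma lin_mul_apply (g h : E ≃ᵢ E) (x : E) : lin (g * h) x = lin g (lin h x) := by
  have h1 : lin (g * h) x = (g * h) x - (g * h) 0 := by
    rw [iso_sub, sub_zero]
  have h2 : lin h x = h x - h 0 := by rw [iso_sub, sub_zero]
  rw [h1, h2, ← iso_sub]
  rfl

lemma lin_mul (g h : E ≃ᵢ E) : lin (g * h) = lin g * lin h := by
  ext x; exact lin_mul_apply g h x

lemma lin_one : lin (1 : E ≃ᵢ E) = 1 := by
  ext x
  have h := iso_sub (1 : E ≃ᵢ E) x 0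
  rw [sub_zero] at h
  rw [← h]; simp only [IsometryEquiv.coe_one, id_eq, sub_zero, LinearIsometryEquiv.coe_one]

/-- The linear part as a homomorphism. -/
noncomputable def linHom : (E ≃ᵢ E) →* (E ≃ₗᵢ[ℝ] E) where
  toFun := lin
  map_one' := lin_one
  map_mul' := lin_mul

lemma lin_inv (g : E ≃ᵢ E) : lin g⁻¹ = (lin g)⁻¹ := map_inv linHom g

/-- The continuous linear map underlying a linear isometry. -/
noncomputable def cl (A : E ≃ₗᵢ[ℝ] E) : E →L[ℝ] E := (A.toContinuousLinearEquiv : E →L[ℝ] E)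

lemma cl_apply (A : E ≃ₗᵢ[ℝ] E) (x : E) : cl A x = A x := rfl

/-- Distance of a linear isometry to the identity. -/
noncomputable def rh (A : E ≃ₗᵢ[ℝ] E) : ℝ := ‖cl A - 1‖

lemma rh_nonneg (A : E ≃ₗᵢ[ℝ] E) : 0 ≤ rh A := norm_nonneg _

lemma rh_apply_le (A : E ≃ₗᵢ[ℝ] E) (x : E) : ‖A x - x‖ ≤ rh A * ‖x‖ := by
  have := (cl A - 1).le_opNorm x
  unfold rh
  simpa only [ge_iff_le, sub_apply, cl_apply, one_apply_eq_self] using this

lemma rh_le {A : E ≃ₗᵢ[ℝ] E} {c : ℝ} (hc : 0 ≤ c) (h : ∀ x, ‖A x - x‖ ≤ c * ‖x‖) : rh A ≤ c := by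
  apply ContinuousLinearMap.opNorm_le_bound _ hc
  intro x
  simpa only [sub_apply, cl_apply, one_apply_eq_self] using h x

lemma rh_le_two (A : E ≃ₗᵢ[ℝ] E) : rh A ≤ 2 := by
  apply rh_le (by norm_num)
  intro x
  calc ‖A x - x‖ ≤ ‖A x‖ + ‖x‖ := norm_sub_le _ _
    _ = 2 * ‖x‖ := by rw [A.norm_map]; ring

lemma eq_one_of_rh {A : E ≃ₗᵢ[ℝ] E} (h : rh A = 0) : A = 1 := by
  ext x
  have := rh_apply_le A x
  rw [h, zero_mul] at this
  have h2 := norm_eq_zero.mp (le_antisymm this (norm_nonneg _))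
  simpa only [LinearIsometryEquiv.coe_one, id_eq] using sub_eq_zero.mp h2

lemma rh_comm_le (A B : E ≃ₗᵢ[ℝ] E) : rh (A * B * A⁻¹ * B⁻¹) ≤ 2 * rh A * rh B := by
  apply rh_le (by have := rh_nonneg A; have := rh_nonneg B; positivity)
  intro x
  set y : E := A⁻¹ (B⁻¹ x) with hy
  have hx : x = B (A y) := by
    rw [hy]
    change x = (B * (A * (A⁻¹ * B⁻¹))) x
    simp only [mul_inv_cancel_left, mul_inv_cancel, LinearIsometryEquiv.coe_one, id_eq]
  have e1 : (A * B * A⁻¹ * B⁻¹) x = A (B y) := rfl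
  have hn : ‖y‖ = ‖x‖ := by
    rw [hx, B.norm_map, A.norm_map]
  have e2 : (A * B * A⁻¹ * B⁻¹) x - x
      = (A (B y - y) - (B y - y)) - (B (A y - y) - (A y - y)) := by
    rw [e1]
    conv_lhs => rw [hx]
    rw [map_sub, map_sub]; abel
  rw [e2]
  calc ‖(A (B y - y) - (B y - y)) - (B (A y - y) - (A y - y))‖
      ≤ ‖A (B y - y) - (B y - y)‖ + ‖B (A y - y) - (A y - y)‖ := norm_sub_le _ _
    _ ≤ rh A * (rh B * ‖y‖) + rh B * (rh A * ‖y‖) := by
        apply add_le_add
        · exact (rh_apply_le A _).trans (mul_le_mul_of_nonneg_left (rh_apply_le B y) (rh_nonneg A))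
        · exact (rh_apply_le B _).trans (mul_le_mul_of_nonneg_left (rh_apply_le A y) (rh_nonneg B))
    _ = 2 * rh A * rh B * ‖x‖ := by rw [hn]; ring

/-- No small subgroups. -/
lemma eq_one_of_powers {N : E ≃ₗᵢ[ℝ] E} {c : ℝ} (hc : c < 1) (h : ∀ j : ℕ, rh (N ^ j) ≤ c) :
    N = 1 := by
  ext z
  set x : E := N z - z with hx
  have hpow : ∀ m : ℕ, ∑ j ∈ Finset.range m, (N ^ j) x = (N ^ m) z - z := by
    intro m
    induction m with
    | zero => simp only [Finset.range_zero, Finset.sum_empty, pow_zero, LinearIsometryEquiv.coe_one, id_eq, sub_self]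
    | succ m ih =>
      rw [Finset.sum_range_succ, ih, hx, map_sub, pow_succ]
      have : (N ^ m * N) z = (N ^ m) (N z) := rfl
      rw [this]; abel
  have hineq : ∀ m : ℕ, m * ‖x‖ ≤ m * (c * ‖x‖) + 2 * ‖z‖ := by
    intro m
    have e1 : (m : ℝ) • x = (∑ j ∈ Finset.range m, (x - (N ^ j) x)) + ((N ^ m) z - z) := by
      rw [← hpow m, Finset.sum_sub_distrib, Finset.sum_const, Finset.card_range, sub_add_cancel,
        Nat.cast_smul_eq_nsmul]
    have e2 : ‖(m : ℝ) • x‖ = m * ‖x‖ := by
      rw [norm_smul]; simp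
    rw [← e2, e1]
    refine (norm_add_le _ _).trans ?_
    apply add_le_add
    · refine (norm_sum_le _ _).trans ?_
      calc ∑ j ∈ Finset.range m, ‖x - (N ^ j) x‖ ≤ ∑ _j ∈ Finset.range m, c * ‖x‖ := by
            apply Finset.sum_le_sum
            intro j _
            rw [norm_sub_rev]
            exact (rh_apply_le _ _).trans (mul_le_mul_of_nonneg_right (h j) (norm_nonneg _))
        _ = m * (c * ‖x‖) := by rw [Finset.sum_const, Finset.card_range, nsmul_eq_mul]
    · refine (norm_sub_le _ _).trans ?_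
      rw [(N ^ m).norm_map]; linarith only []
  have hx0 : ‖x‖ = 0 := by
    by_contra hne
    have hpos : 0 < ‖x‖ := lt_of_le_of_ne (norm_nonneg _) (Ne.symm hne)
    have hd : 0 < (1 - c) * ‖x‖ := mul_pos (by linarith only [hc]) hpos
    obtain ⟨m, hm⟩ := exists_nat_gt (2 * ‖z‖ / ((1 - c) * ‖x‖))
    rw [div_lt_iff₀ hd] at hm
    have := hineq m
    (clear * - E z m c x hm this; linarith)
  have h2 := norm_eq_zero.mp hx0
  simpa only [LinearIsometryEquiv.coe_one, id_eq] using sub_eq_zero.mp h2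

/-- If `A` commutes with the commutator of `A` and `B`, and `B` is close to the identity, then `A`
commutes with `B`. -/
lemma comm_eq_one {A B : E ≃ₗᵢ[ℝ] E} (hB : rh B ≤ 1 / 8)
    (h : A * (A * B * A⁻¹ * B⁻¹) = (A * B * A⁻¹ * B⁻¹) * A) : A * B * A⁻¹ * B⁻¹ = 1 := by
  set N := A * B * A⁻¹ * B⁻¹ with hN
  have hcomm : ∀ j : ℕ, A * N ^ j = N ^ j * A := by
    intro j
    induction j with
    | zero => simp
    | succ j ih => rw [pow_succ, ← mul_assoc, ih, mul_assoc, h, ← mul_assoc]
  have hpow : ∀ j : ℕ, A ^ j * B * (A ^ j)⁻¹ * B⁻¹ = N ^ j := by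
    intro j
    induction j with
    | zero => simp only [pow_zero, one_mul, inv_one, mul_one, mul_inv_cancel]
    | succ j ih =>
      calc A ^ (j + 1) * B * (A ^ (j + 1))⁻¹ * B⁻¹
          = A * (A ^ j * B * (A ^ j)⁻¹ * B⁻¹) * (B * A⁻¹ * B⁻¹) := by
            rw [pow_succ']; group
        _ = A * N ^ j * (B * A⁻¹ * B⁻¹) := by rw [ih]
        _ = N ^ j * A * (B * A⁻¹ * B⁻¹) := by rw [hcomm]
        _ = N ^ j * N := by rw [hN]; group
        _ = N ^ (j + 1) := by rw [pow_succ]
  apply eq_one_of_powers (c := 1 / 2) (by norm_num)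
  intro j
  rw [← hpow j]
  have h1 := rh_comm_le (A ^ j) B
  have h2 := rh_le_two (A ^ j)
  have h3 := rh_nonneg (A ^ j)
  have h4 := rh_nonneg B
  (clear * - E A j B h1 h2 hB h3; nlinarith)

/-- Iterated commutators. -/
def itc (g h : E ≃ᵢ E) : ℕ → (E ≃ᵢ E)
  | 0 => h
  | k + 1 => g * itc g h k * g⁻¹ * (itc g h k)⁻¹

lemma itc_zero (g h : E ≃ᵢ E) : itc g h 0 = h := rfl
lemma itc_succ (g h : E ≃ᵢ E) (k : ℕ) :
    itc g h (k + 1) = g * itc g h k * g⁻¹ * (itc g h k)⁻¹ := rfl

lemma lin_comm (g h : E ≃ᵢ E) : lin (g * h * g⁻¹ * h⁻¹) = lin g * lin h * (lin g)⁻¹ * (lin h)⁻¹ := by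
  rw [lin_mul, lin_mul, lin_mul, lin_inv, lin_inv]

lemma tr_comm_le (g h : E ≃ᵢ E) : ‖(g * h * g⁻¹ * h⁻¹) 0‖
    ≤ rh (lin g) * ‖h 0‖ + rh (lin h) * ‖g 0‖
      + rh (lin (g * h * g⁻¹ * h⁻¹)) * (‖g 0‖ + ‖h 0‖) := by
  set N := g * h * g⁻¹ * h⁻¹ with hN
  have h1 : N (h (g 0)) = g (h 0) := by
    change (N * (h * g)) 0 = (g * h) 0
    congr 1
    rw [hN]; group
  have h2 : N 0 = (g (h 0) - h (g 0)) - (lin N (h (g 0)) - h (g 0)) := by
    have := iso_apply N (h (g 0))
    rw [h1] at this
    rw [this]; abel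
  have h3 : g (h 0) - h (g 0) = (lin g (h 0) - h 0) - (lin h (g 0) - g 0) := by
    rw [iso_apply g (h 0), iso_apply h (g 0)]; abel
  have h4 : ‖h (g 0)‖ ≤ ‖g 0‖ + ‖h 0‖ := by
    rw [iso_apply h (g 0)]
    refine (norm_add_le _ _).trans ?_
    rw [(lin h).norm_map]
  rw [h2, h3]
  refine (norm_sub_le _ _).trans ?_
  apply add_le_add
  · refine (norm_sub_le _ _).trans ?_
    exact add_le_add (rh_apply_le _ _) (rh_apply_le _ _)
  · exact (rh_apply_le _ _).trans (mul_le_mul_of_nonneg_left h4 (rh_nonneg _))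

lemma itc_decay (g h : E ≃ᵢ E) (hg : rh (lin g) ≤ 1 / 8) (hh : rh (lin h) ≤ 1 / 8) (k : ℕ) :
    rh (lin (itc g h k)) ≤ 1 / 8 * (1 / 2) ^ k ∧
    ‖itc g h k 0‖ + 8 * ‖g 0‖ * rh (lin (itc g h k))
      ≤ (1 / 2) ^ k * (‖h 0‖ + ‖g 0‖) := by
  induction k with
  | zero =>
    refine ⟨by simpa only [itc_zero, one_div, pow_zero, mul_one] using hh, ?_⟩
    rw [itc_zero, pow_zero, one_mul]
    have := norm_nonneg (g 0)
    nlinarith only [hh, this]
  | succ k ih =>
    obtain ⟨ih1, ih2⟩ := ih
    have hr := rh_nonneg (lin (itc g h k))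
    have hg0 := rh_nonneg (lin g)
    have h1 : rh (lin (itc g h (k + 1))) ≤ 1 / 4 * rh (lin (itc g h k)) := by
      rw [itc_succ, lin_comm]
      refine (rh_comm_le _ _).trans ?_
      (clear * - E g h k hg hr; nlinarith only [hg, hr])
    have hp : (0:ℝ) < (1 / 2) ^ k := by positivity
    refine ⟨?_, ?_⟩
    · rw [pow_succ]
      (clear * - E g h k ih1 h1 hp; linarith)
    · have h2 := tr_comm_le g (itc g h k)
      rw [← itc_succ] at h2
      have a1 := norm_nonneg (g 0)
      have a2 := norm_nonneg (itc g h k 0)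
      have a3 : rh (lin (itc g h k)) ≤ 1 / 8 := by
        have : ((1:ℝ) / 2) ^ k ≤ 1 := pow_le_one₀ (by norm_num) (by norm_num)
        (clear * - E g h k ih1 this; linarith)
      have a4 := rh_nonneg (lin (itc g h (k + 1)))
      have b1 : rh (lin g) * ‖itc g h k 0‖ ≤ 1 / 8 * ‖itc g h k 0‖ :=
        mul_le_mul_of_nonneg_right hg a2
      have b2 : rh (lin (itc g h (k + 1))) * (‖g 0‖ + ‖itc g h k 0‖)
          ≤ 1 / 4 * rh (lin (itc g h k)) * ‖g 0‖ + 1 / 32 * ‖itc g h k 0‖ := by
        have c1 : rh (lin (itc g h (k + 1))) * ‖g 0‖ ≤ 1 / 4 * rh (lin (itc g h k)) * ‖g 0‖ :=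
          mul_le_mul_of_nonneg_right h1 a1
        have c2 : rh (lin (itc g h (k + 1))) * ‖itc g h k 0‖ ≤ 1 / 32 * ‖itc g h k 0‖ :=
          mul_le_mul_of_nonneg_right (by (clear * - E g h k h1 a3; linarith)) a2
        (clear * - E g h k c1 c2; linarith)
      have b3 : 8 * ‖g 0‖ * rh (lin (itc g h (k + 1))) ≤ 2 * (‖g 0‖ * rh (lin (itc g h k))) := by
        have := mul_le_mul_of_nonneg_left h1 (by positivity : 0 ≤ 8 * ‖g 0‖)
        (clear * - E g h k this; linarith)
      rw [pow_succ]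
      (clear * - E g h k ih2 h2 a2 b1 b2 b3 hr a1; nlinarith)

/-- In a discrete group of isometries, isometries with linear part close to the identity have
commuting linear parts. -/
lemma lin_comm_of_discrete {G : Subgroup (E ≃ᵢ E)} {δ : ℝ} (hδ : 0 < δ)
    (hdisc : ∀ g ∈ G, rh (lin g) < δ → ‖g 0‖ < δ → g = 1) {g h : E ≃ᵢ E} (hgG : g ∈ G)
    (hhG : h ∈ G) (hg : rh (lin g) ≤ 1 / 8) (hh : rh (lin h) ≤ 1 / 8) :
    lin (g * h * g⁻¹ * h⁻¹) = 1 := by
  have hmem : ∀ k, itc g h k ∈ G := by
    intro k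
    induction k with
    | zero => exact hhG
    | succ k ih =>
      rw [itc_succ]
      exact G.mul_mem (G.mul_mem (G.mul_mem hgG ih) (G.inv_mem hgG)) (G.inv_mem ih)
  have hsmall : ∃ k : ℕ, ((1:ℝ) / 2) ^ k * (1 + ‖h 0‖ + ‖g 0‖) < δ := by
    have hpos : 0 < 1 + ‖h 0‖ + ‖g 0‖ := by positivity
    obtain ⟨k, hk⟩ := exists_pow_lt_of_lt_one (show 0 < δ / (1 + ‖h 0‖ + ‖g 0‖) by (clear * - hδ; positivity))
      (show (1:ℝ) / 2 < 1 by norm_num)
    exact ⟨k, by rwa [lt_div_iff₀ hpos] at hk⟩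
  obtain ⟨k, hk⟩ := hsmall
  obtain ⟨d1, d2⟩ := itc_decay g h hg hh k
  have hp : (0:ℝ) < (1 / 2) ^ k := by positivity
  have hk1 : itc g h k = 1 := by
    apply hdisc _ (hmem k)
    · have := norm_nonneg (h 0)
      have := norm_nonneg (g 0)
      (clear G hdisc hgG hhG hg hh hmem d2; nlinarith)
    · have a1 := norm_nonneg (h 0)
      have a2 := norm_nonneg (g 0)
      have a3 : 0 ≤ 8 * ‖g 0‖ * rh (lin (itc g h k)) := by
        have := rh_nonneg (lin (itc g h k)); (clear * - this; positivity)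
      (clear * - E g h k δ hk d2 hp a3; linarith)
  have hdesc : ∀ k : ℕ, lin (itc g h (k + 1)) = 1 → lin (itc g h 1) = 1 := by
    intro k
    induction k with
    | zero => exact id
    | succ k ih =>
      intro h2
      apply ih
      have h3 := (itc_decay g h hg hh k).1
      have h4 : ((1:ℝ) / 2) ^ k ≤ 1 := pow_le_one₀ (by norm_num) (by norm_num)
      have h5 : lin (itc g h (k + 1)) = lin g * lin (itc g h k) * (lin g)⁻¹ * (lin (itc g h k))⁻¹ := by
        rw [itc_succ, lin_comm]
      rw [h5]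
      apply comm_eq_one (by (clear * - E g h k h3 h4; linarith only [h3, h4]))
      rw [← h5]
      have h6 : lin g * lin (itc g h (k + 1)) * (lin g)⁻¹ * (lin (itc g h (k + 1)))⁻¹ = 1 := by
        rw [← lin_comm, ← itc_succ]; exact h2
      calc lin g * lin (itc g h (k + 1))
          = (lin g * lin (itc g h (k + 1)) * (lin g)⁻¹ * (lin (itc g h (k + 1)))⁻¹)
            * (lin (itc g h (k + 1)) * lin g) := by group
        _ = lin (itc g h (k + 1)) * lin g := by rw [h6, one_mul]
  have hfin : lin (itc g h 1) = 1 := by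
    apply hdesc k
    rw [itc_succ, hk1]
    simp [lin_one]
  exact hfin

variable [FiniteDimensional ℝ E]

/-- Pigeonhole: among infinitely many isometries there are infinitely many with close linear
parts. -/
lemma exists_infinite_close {S : Set (E ≃ᵢ E)} (hS : S.Infinite) {ε : ℝ} (hε : 0 < ε) :
    ∃ y : E →L[ℝ] E, {g | g ∈ S ∧ dist (cl (lin g)) y < ε}.Infinite := by
  have hb : TotallyBounded (Metric.closedBall (0 : E →L[ℝ] E) 1) :=
    (isCompact_closedBall (0 : E →L[ℝ] E) 1).totallyBounded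
  obtain ⟨t, -, htf, ht⟩ := Metric.finite_approx_of_totallyBounded hb ε hε
  by_contra hcon
  push Not at hcon
  apply hS
  have hsub : S ⊆ ⋃ y ∈ t, {g | g ∈ S ∧ dist (cl (lin g)) y < ε} := by
    intro g hg
    have h1 : cl (lin g) ∈ Metric.closedBall (0 : E →L[ℝ] E) 1 := by
      rw [mem_closedBall_zero_iff]
      apply ContinuousLinearMap.opNorm_le_bound _ (by norm_num)
      intro x
      rw [cl_apply, (lin g).norm_map, one_mul]
    have h2 := ht h1
    simp only [Set.mem_iUnion, Metric.mem_ball] at h2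
    obtain ⟨y, hy, hd⟩ := h2
    exact Set.mem_iUnion.mpr ⟨y, Set.mem_iUnion.mpr ⟨hy, hg, hd⟩⟩
  exact (htf.biUnion fun y _ => hcon y).subset hsub

lemma rh_lin_inv_mul (g h : E ≃ᵢ E) : rh (lin (h⁻¹ * g)) = ‖cl (lin g) - cl (lin h)‖ := by
  have key : ∀ x, ‖lin (h⁻¹ * g) x - x‖ = ‖(cl (lin g) - cl (lin h)) x‖ := by
    intro x
    have e1 : lin (h⁻¹ * g) x = (lin h)⁻¹ (lin g x) := by
      rw [lin_mul, lin_inv]; rfl
    have e2 : (lin h) ((lin h)⁻¹ (lin g x)) = lin g x := by
      change ((lin h) * (lin h)⁻¹) (lin g x) = _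
      simp only [mul_inv_cancel, LinearIsometryEquiv.coe_one, id_eq]
    rw [e1, ← (lin h).norm_map, map_sub, e2]
    rfl
  apply le_antisymm
  · apply rh_le (norm_nonneg _)
    intro x
    rw [key]
    exact ContinuousLinearMap.le_opNorm _ _
  · apply ContinuousLinearMap.opNorm_le_bound _ (rh_nonneg _)
    intro x
    rw [← key]
    exact rh_apply_le _ _

/-- A finite family of commuting isometries, each with a fixed point, has a common fixed point. -/
lemma common_fixed_finite {S : Set (E ≃ᵢ E)} (hcomm : ∀ g ∈ S, ∀ h ∈ S, g * h = h * g)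
    (hfix : ∀ g ∈ S, ∃ x, g x = x) (F : Finset (E ≃ᵢ E)) (hF : ∀ g ∈ F, g ∈ S) :
    ∃ x, ∀ g ∈ F, g x = x := by
  classical
  induction F using Finset.induction_on with
  | empty => exact ⟨0, by simp only [Finset.notMem_empty, IsEmpty.forall_iff, implies_true]⟩
  | insert g F hg ih =>
    obtain ⟨x0, hx0⟩ := ih fun k hk => hF k (Finset.mem_insert_of_mem hk)
    obtain ⟨z, hz⟩ := hfix g (hF g (Finset.mem_insert_self _ _))
    -- the space of common fixed vectors
    set K : Submodule ℝ E := ⨅ k ∈ F, LinearMap.ker ((lin k).toLinearEquiv.toLinearMap - LinearMap.id)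
      with hK
    have hmemK : ∀ v, v ∈ K ↔ ∀ k ∈ F, lin k v = v := by
      intro v
      rw [hK]
      simp only [Submodule.mem_iInf, LinearMap.mem_ker, LinearMap.sub_apply, LinearMap.id_apply,
        sub_eq_zero]
      rfl
    set y : E := x0 + K.starProjection (z - x0) with hy
    have hyK : y - x0 ∈ K := by
      rw [hy, add_sub_cancel_left]
      exact K.starProjection_apply_mem _
    have hyfix : ∀ k ∈ F, k y = y := by
      intro k hk
      have h1 : k y - k x0 = lin k (y - x0) := iso_sub k y x0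
      rw [hx0 k hk, (hmemK _).mp hyK k hk] at h1
      simpa using h1
    have hgy : ∀ k ∈ F, k (g y) = g y := by
      intro k hk
      have h1 : k * g = g * k := hcomm k (hF k (Finset.mem_insert_of_mem hk)) g
        (hF g (Finset.mem_insert_self _ _))
      have h2 : (k * g) y = (g * k) y := by rw [h1]
      change k (g y) = g (k y) at h2
      rw [h2, hyfix k hk]
    have hw : g y - y ∈ K := by
      rw [hmemK]
      intro k hk
      rw [← iso_sub, hgy k hk, hyfix k hk]
    have horth : ⟪g y - y, z - y⟫_ℝ = 0 := by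
      have h1 : z - y = (z - x0) - K.starProjection (z - x0) := by rw [hy]; abel
      rw [h1]
      exact (Submodule.mem_orthogonal K _).mp (K.sub_starProjection_mem_orthogonal (z - x0)) _ hw
    have hd : ‖z - g y‖ = ‖z - y‖ := by
      have h1 : g z - g y = lin g (z - y) := iso_sub g z y
      rw [hz] at h1
      rw [h1, (lin g).norm_map]
    have h2 : z - g y = (z - y) - (g y - y) := by abel
    have h3 : ‖z - g y‖ ^ 2 = ‖z - y‖ ^ 2 + ‖g y - y‖ ^ 2 := by
      rw [h2, @norm_sub_sq_real, real_inner_comm, horth]; ring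
    rw [hd] at h3
    have h4 : ‖g y - y‖ = 0 := by
      have : ‖g y - y‖ ^ 2 = 0 := by linarith only [h3]
      exact pow_eq_zero_iff (two_ne_zero) |>.mp this
    refine ⟨y, fun k hk => ?_⟩
    rcases Finset.mem_insert.mp hk with rfl | hk'
    · exact sub_eq_zero.mp (norm_eq_zero.mp h4)
    · exact hyfix k hk'

/-- A family of commuting isometries, each with a fixed point, has a common fixed point. -/
lemma common_fixed {S : Set (E ≃ᵢ E)} (hcomm : ∀ g ∈ S, ∀ h ∈ S, g * h = h * g)
    (hfix : ∀ g ∈ S, ∃ x, g x = x) : ∃ x, ∀ g ∈ S, g x = x := by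
  classical
  set K : Finset (E ≃ᵢ E) → Submodule ℝ E := fun F =>
    ⨅ k ∈ F, LinearMap.ker ((lin k).toLinearEquiv.toLinearMap - LinearMap.id) with hK
  have hmemK : ∀ F v, v ∈ K F ↔ ∀ k ∈ F, lin k v = v := by
    intro F v
    rw [hK]
    simp only [Submodule.mem_iInf, LinearMap.mem_ker, LinearMap.sub_apply, LinearMap.id_apply,
      sub_eq_zero]
    rfl
  set P : ℕ → Prop := fun d => ∃ F : Finset (E ≃ᵢ E), (∀ g ∈ F, g ∈ S) ∧ finrank ℝ (K F) = d with hP
  have hex : ∃ d, P d := ⟨finrank ℝ (K ∅), ∅, by simp, rfl⟩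
  obtain ⟨F, hF, hFd⟩ := Nat.find_spec hex
  have hmin : ∀ F' : Finset (E ≃ᵢ E), (∀ g ∈ F', g ∈ S) → finrank ℝ (K F) ≤ finrank ℝ (K F') := by
    intro F' hF'
    rw [hFd]
    exact Nat.find_min' hex ⟨F', hF', rfl⟩
  obtain ⟨x0, hx0⟩ := common_fixed_finite hcomm hfix F hF
  refine ⟨x0, fun g hg => ?_⟩
  have hins : ∀ k ∈ insert g F, k ∈ S := by
    intro k hk
    rcases Finset.mem_insert.mp hk with rfl | hk'
    · exact hg
    · exact hF k hk'
  obtain ⟨y, hy⟩ := common_fixed_finite hcomm hfix (insert g F) hins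
  have hle : K (insert g F) ≤ K F := by
    intro v hv
    rw [hmemK] at hv ⊢
    exact fun k hk => hv k (Finset.mem_insert_of_mem hk)
  have heq : K (insert g F) = K F :=
    Submodule.eq_of_le_of_finrank_le hle (hmin _ hins)
  have hyx : x0 - y ∈ K F := by
    rw [hmemK]
    intro k hk
    rw [← iso_sub, hx0 k hk, hy k (Finset.mem_insert_of_mem hk)]
  rw [← heq, hmemK] at hyx
  have h1 := hyx g (Finset.mem_insert_self _ _)
  rw [← iso_sub, hy g (Finset.mem_insert_self _ _)] at h1
  exact sub_left_injective h1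

/-- An infinite group of isometries of a Euclidean space is either non-discrete or contains an
isometry without fixed points. -/
theorem group_dichotomy (G : Subgroup (E ≃ᵢ E)) (hinf : (G : Set (E ≃ᵢ E)).Infinite) :
    (∀ δ : ℝ, 0 < δ → ∃ g ∈ G, g ≠ 1 ∧ rh (lin g) < δ ∧ ‖g 0‖ < δ) ∨ (∃ g ∈ G, ∀ x, g x ≠ x) := by
  by_contra hcon
  push Not at hcon
  obtain ⟨⟨δ, hδ, hdisc0⟩, hfix0⟩ := hcon
  have hdisc : ∀ g ∈ G, rh (lin g) < δ → ‖g 0‖ < δ → g = 1 := by
    intro g hg h1 h2
    by_contra h3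
    exact absurd (hdisc0 g hg h3 h1) (not_le.mpr h2)
  -- the isometries with small linear part
  set S : Set (E ≃ᵢ E) := {g | g ∈ G ∧ rh (lin g) ≤ 1 / 8} with hS
  have hSinf : S.Infinite := by
    obtain ⟨y, hy⟩ := exists_infinite_close hinf (ε := 1 / 16) (by norm_num)
    obtain ⟨h, hh⟩ := hy.nonempty
    have himg : ((fun g => h⁻¹ * g) '' {g | g ∈ (G : Set (E ≃ᵢ E)) ∧
        dist (cl (lin g)) y < 1 / 16}).Infinite :=
      hy.image (fun a _ b _ hab => mul_left_cancel hab)
    refine himg.mono ?_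
    rintro _ ⟨g, hg, rfl⟩
    refine ⟨G.mul_mem (G.inv_mem hh.1) hg.1, ?_⟩
    change rh (lin (h⁻¹ * g)) ≤ 1 / 8
    rw [rh_lin_inv_mul, ← dist_eq_norm]
    have := dist_triangle_right (cl (lin g)) (cl (lin h)) y
    linarith only [this, hg.2, hh.2]
  have hcommS : ∀ g ∈ S, ∀ h ∈ S, g * h = h * g := by
    intro g hg h hh
    have h1 := lin_comm_of_discrete hδ hdisc hg.1 hh.1 hg.2 hh.2
    obtain ⟨x, hx⟩ := hfix0 (g * h * g⁻¹ * h⁻¹)
      (G.mul_mem (G.mul_mem (G.mul_mem hg.1 hh.1) (G.inv_mem hg.1)) (G.inv_mem hh.1))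
    have h2 : g * h * g⁻¹ * h⁻¹ = 1 := by
      ext y
      have h3 := iso_sub (g * h * g⁻¹ * h⁻¹) y x
      rw [hx, h1] at h3
      have h4 : (g * h * g⁻¹ * h⁻¹) y - x = y - x := h3
      simpa only [IsometryEquiv.coe_mul, Function.comp_apply, IsometryEquiv.coe_one, id_eq, sub_left_inj] using h4
    calc g * h = (g * h * g⁻¹ * h⁻¹) * (h * g) := by group
      _ = h * g := by rw [h2, one_mul]
  obtain ⟨x0, hx0⟩ := common_fixed hcommS fun g hg => hfix0 g hg.1
  obtain ⟨y, hy⟩ := exists_infinite_close hSinf (ε := δ / (2 * (1 + ‖x0‖))) (by (clear * - hδ; positivity))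
  obtain ⟨h, hh⟩ := hy.nonempty
  obtain ⟨g, hg, hgh⟩ := hy.nontrivial.exists_ne h
  have hkG : h⁻¹ * g ∈ G := G.mul_mem (G.inv_mem hh.1.1) hg.1.1
  have hrk : rh (lin (h⁻¹ * g)) * (1 + ‖x0‖) < δ := by
    rw [rh_lin_inv_mul, ← dist_eq_norm]
    have h1 := dist_triangle_right (cl (lin g)) (cl (lin h)) y
    have h2 : dist (cl (lin g)) (cl (lin h)) < δ / (1 + ‖x0‖) := by
      have h3 := hg.2
      have h4 := hh.2
      calc dist (cl (lin g)) (cl (lin h)) < δ / (2 * (1 + ‖x0‖)) + δ / (2 * (1 + ‖x0‖)) := by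
            linarith only [h1, h3, h4]
        _ = δ / (1 + ‖x0‖) := by field_simp; ring
    rwa [lt_div_iff₀ (by positivity)] at h2
  have hkx : (h⁻¹ * g) x0 = x0 := by
    have h1 : g x0 = x0 := hx0 g hg.1
    have h2 : h x0 = x0 := hx0 h hh.1
    have h3 : h⁻¹ x0 = x0 := by
      conv_lhs => rw [← h2]
      change (h⁻¹ * h) x0 = x0
      simp
    change h⁻¹ (g x0) = x0
    rw [h1, h3]
  have hr0 := rh_nonneg (lin (h⁻¹ * g))
  have hk1 : h⁻¹ * g = 1 := by
    apply hdisc _ hkG
    · (clear * - E h g δ x0 hrk hr0; nlinarith only [hrk, hr0, norm_nonneg x0])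
    · have h1 := iso_sub (h⁻¹ * g) x0 0
      rw [hkx, sub_zero] at h1
      have h2 : (h⁻¹ * g) 0 = -(lin (h⁻¹ * g) x0 - x0) := by
        rw [← h1]; abel
      rw [h2, norm_neg]
      calc ‖lin (h⁻¹ * g) x0 - x0‖ ≤ rh (lin (h⁻¹ * g)) * ‖x0‖ := rh_apply_le _ _
        _ < δ := by (clear * - E h g x0 δ hrk hr0; linarith)
  apply hgh
  calc g = h * (h⁻¹ * g) := by group
    _ = h := by rw [hk1, mul_one]

end Vale.Agent.P134
end
end

section

section

open Module Filter Topology
open scoped InnerProductSpace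

namespace Vale.Agent.P134

variable {E : Type*} [NormedAddCommGroup E] [InnerProductSpace ℝ E] [FiniteDimensional ℝ E]

/-- Powers of a linear isometry return close to the identity along a relatively dense set. -/
lemma exists_return (A : E ≃ₗᵢ[ℝ] E) {δ : ℝ} (hδ : 0 < δ) :
    ∃ K : ℕ, ∀ k : ℤ, ∃ k' : ℤ, |k' - k| ≤ K ∧ rh (A ^ k') < δ := by
  classical
  have hb : TotallyBounded (Set.range fun k : ℤ => cl (A ^ k)) := by
    apply (isCompact_closedBall (0 : E →L[ℝ] E) 1).totallyBounded.subset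
    rintro _ ⟨k, rfl⟩
    rw [mem_closedBall_zero_iff]
    apply ContinuousLinearMap.opNorm_le_bound _ (by norm_num)
    intro x
    rw [cl_apply, (A ^ k).norm_map, one_mul]
  obtain ⟨t, hts, htf, ht⟩ := Metric.finite_approx_of_totallyBounded hb δ hδ
  choose! f hf using fun y (hy : y ∈ t) => hts hy
  refine ⟨∑ y ∈ htf.toFinset, (f y).natAbs, fun k => ?_⟩
  have h1 := ht ⟨k, rfl⟩
  simp only [Set.mem_iUnion, Metric.mem_ball] at h1
  obtain ⟨y, hy, hd⟩ := h1
  refine ⟨k - f y, ?_, ?_⟩
  · have h2 : (f y).natAbs ≤ ∑ y ∈ htf.toFinset, (f y).natAbs :=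
      Finset.single_le_sum (f := fun y => (f y).natAbs) (fun _ _ => Nat.zero_le _)
        (htf.mem_toFinset.mpr hy)
    have h3 : |k - f y - k| = ((f y).natAbs : ℤ) := by
      rw [show k - f y - k = - f y by ring, abs_neg, Int.abs_eq_natAbs]
    rw [h3]
    exact_mod_cast h2
  · have hfy : cl (A ^ (f y)) = y := hf y hy
    rw [← hfy, dist_eq_norm] at hd
    refine lt_of_le_of_lt ?_ hd
    apply rh_le (norm_nonneg _)
    intro x
    have e1 : A ^ (k - f y) = (A ^ (f y))⁻¹ * A ^ k := by
      rw [← zpow_neg, ← zpow_add]; congr 1; ring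
    have e2 : (A ^ (f y)) ((A ^ (k - f y)) x - x) = (cl (A ^ k) - cl (A ^ (f y))) x := by
      rw [map_sub, e1]
      change ((A ^ (f y)) * ((A ^ (f y))⁻¹ * A ^ k)) x - _ = _
      rw [mul_inv_cancel_left]
      rfl
    rw [← (A ^ (f y)).norm_map, e2]
    exact ContinuousLinearMap.le_opNorm _ _

/-- A function invariant under a screw motion is uniformly recurrent along its axis. -/
theorem screw_rec {u : E → ℝ} {Lp : ℝ} (hL0 : 0 ≤ Lp) (hL : ∀ x y, |u x - u y| ≤ Lp * ‖x - y‖)
    (A : E ≃ₗᵢ[ℝ] E) {p b : E} (hAb : A b = b) (hinv : ∀ x, u (p + A (x - p) + b) = u x) :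
    ∀ ε : ℝ, 0 < ε → ∀ R : ℝ, ∃ L : ℝ, ∀ v ∈ Submodule.span ℝ {b}, ∃ τ : E,
      ‖τ - v‖ ≤ L ∧ ∀ x, ‖x‖ ≤ R → |u (x + τ) - u x| ≤ ε := by
  have hAbk : ∀ k : ℤ, (A ^ k) b = b := by
    have h1 : ∀ k : ℕ, (A ^ k) b = b := by
      intro k
      induction k with
      | zero => simp only [pow_zero, LinearIsometryEquiv.coe_one, id_eq]
      | succ k ih =>
        rw [pow_succ]
        change (A ^ k) (A b) = b
        rw [hAb, ih]
    intro k
    obtain ⟨m, rfl | rfl⟩ := k.eq_nat_or_neg
    · rw [zpow_natCast]; exact h1 m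
    · rw [zpow_neg, zpow_natCast]
      conv_lhs => rw [← h1 m]
      change ((A ^ m)⁻¹ * (A ^ m)) b = b
      simp
  have hnat : ∀ k : ℕ, ∀ x, u (p + (A ^ k) (x - p) + (k : ℝ) • b) = u x := by
    intro k
    induction k with
    | zero => intro x; simp
    | succ k ih =>
      intro x
      have h1 := hinv (p + (A ^ k) (x - p) + (k : ℝ) • b)
      rw [ih] at h1
      rw [← h1]
      congr 1
      have e1 : p + (A ^ k) (x - p) + (k : ℝ) • b - p = (A ^ k) (x - p) + (k : ℝ) • b := by abel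
      rw [e1, map_add, map_smul, hAb, pow_succ']
      change p + A ((A ^ k) (x - p)) + ((k + 1 : ℕ) : ℝ) • b = _
      push_cast
      rw [add_smul, one_smul]; abel
  have hint : ∀ k : ℤ, ∀ x, u (p + (A ^ k) (x - p) + (k : ℝ) • b) = u x := by
    intro k x
    obtain ⟨m, rfl | rfl⟩ := k.eq_nat_or_neg
    · rw [zpow_natCast]
      exact_mod_cast hnat m x
    · have h1 := hnat m (p + (A ^ (-(m:ℤ))) (x - p) + ((-(m:ℤ) : ℤ) : ℝ) • b)
      rw [← h1]
      congr 1
      have e1 : p + (A ^ (-(m:ℤ))) (x - p) + ((-(m:ℤ) : ℤ) : ℝ) • b - p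
          = (A ^ (-(m:ℤ))) (x - p) + ((-(m:ℤ) : ℤ) : ℝ) • b := by abel
      have e2 : (A ^ m) ((A ^ (-(m:ℤ))) (x - p)) = x - p := by
        change ((A ^ m) * (A ^ (-(m:ℤ)))) (x - p) = x - p
        rw [zpow_neg, zpow_natCast]; simp only [mul_inv_cancel, LinearIsometryEquiv.coe_one, id_eq]
      have e3 : (A ^ m) b = b := by
        have := hAbk m
        rwa [zpow_natCast] at this
      rw [e1, map_add, map_smul, e2, e3]
      push_cast
      rw [neg_smul]; abel
  have htr : ∀ k : ℤ, ∀ x, u (x + (k : ℝ) • b) = u (p + (A ^ (-k)) (x - p)) := by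
    intro k x
    rw [← hint k (p + (A ^ (-k)) (x - p))]
    congr 1
    have e1 : p + (A ^ (-k)) (x - p) - p = (A ^ (-k)) (x - p) := by abel
    have e2 : (A ^ k) ((A ^ (-k)) (x - p)) = x - p := by
      change ((A ^ k) * (A ^ (-k))) (x - p) = x - p
      rw [zpow_neg]; simp only [mul_inv_cancel, LinearIsometryEquiv.coe_one, id_eq]
    rw [e1, e2]; abel
  intro ε hε R
  set D : ℝ := Lp * (|R| + ‖p‖) + 1 with hD
  have hD0 : 0 < D := by (clear * - hL0; positivity)
  obtain ⟨K, hK⟩ := exists_return A (δ := ε / D) (by (clear * - hε hL0; positivity))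
  refine ⟨(K + 1) * ‖b‖, fun v hv => ?_⟩
  obtain ⟨t, rfl⟩ := Submodule.mem_span_singleton.mp hv
  obtain ⟨k', hk'1, hk'2⟩ := hK (-⌊t⌋)
  refine ⟨((-k' : ℤ) : ℝ) • b, ?_, fun x hx => ?_⟩
  · rw [← sub_smul, norm_smul, Real.norm_eq_abs]
    apply mul_le_mul_of_nonneg_right _ (norm_nonneg _)
    have h1 : |((k' : ℤ) : ℝ) + ⌊t⌋| ≤ K := by
      have : |k' - -⌊t⌋| ≤ (K : ℤ) := hk'1
      rw [sub_neg_eq_add] at this
      exact_mod_cast this
    have h2 := Int.floor_le t
    have h3 := Int.lt_floor_add_one t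
    rw [abs_le] at h1 ⊢
    push_cast
    constructor <;> linarith only [h1, h2, h3]
  · rw [htr, neg_neg]
    refine (hL _ _).trans ?_
    have e1 : p + (A ^ k') (x - p) - x = (A ^ k') (x - p) - (x - p) := by abel
    rw [e1]
    have h1 : ‖(A ^ k') (x - p) - (x - p)‖ ≤ ε / D * (|R| + ‖p‖) := by
      refine (rh_apply_le _ _).trans ?_
      apply mul_le_mul hk'2.le _ (norm_nonneg _) (by (clear * - hε hL0; positivity))
      exact (norm_sub_le _ _).trans (add_le_add (hx.trans (le_abs_self _)) le_rfl)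
    calc Lp * ‖(A ^ k') (x - p) - (x - p)‖ ≤ Lp * (ε / D * (|R| + ‖p‖)) :=
          mul_le_mul_of_nonneg_left h1 hL0
      _ = ε * ((Lp * (|R| + ‖p‖)) / D) := by ring
      _ ≤ ε * 1 := by
          apply mul_le_mul_of_nonneg_left _ hε.le
          rw [div_le_one hD0, hD]; linarith only []
      _ = ε := mul_one _

/-- Normal form of an isometry. -/
lemma iso_normal (g : E ≃ᵢ E) : ∃ p b : E, lin g b = b ∧ ∀ x, g x = p + lin g (x - p) + b := by
  set T : E →ₗ[ℝ] E := LinearMap.id - (lin g).toLinearEquiv.toLinearMap with hT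
  have hTa : ∀ x, T x = x - lin g x := fun x => rfl
  set W : Submodule ℝ E := LinearMap.range T with hW
  set c : E := g 0 with hc
  obtain ⟨p, hp⟩ : W.starProjection c ∈ LinearMap.range T := W.starProjection_apply_mem c
  set b : E := c - W.starProjection c with hb
  have horth : ∀ y, ⟪T y, b⟫_ℝ = 0 := fun y =>
    (Submodule.mem_orthogonal W _).mp (W.sub_starProjection_mem_orthogonal c) _
      (LinearMap.mem_range_self T y)
  have h1 : ⟪b, b⟫_ℝ = ⟪lin g b, b⟫_ℝ := by
    have := horth b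
    rw [hTa, inner_sub_left, sub_eq_zero] at this
    exact this
  have hfix : lin g b = b := by
    have h2 : ‖lin g b - b‖ ^ 2 = 0 := by
      rw [@norm_sub_sq_real, ← h1, (lin g).norm_map, real_inner_self_eq_norm_sq]; ring
    exact sub_eq_zero.mp (norm_eq_zero.mp (pow_eq_zero_iff (two_ne_zero) |>.mp h2))
  refine ⟨p, b, hfix, fun x => ?_⟩
  rw [iso_apply g x, map_sub]
  have h3 : c = b + (p - lin g p) := by
    rw [← hTa, hp, hb]; abel
  rw [← hc, h3]; abel

/-- A non-discrete group of symmetries of a differentiable function has an infinitesimal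
generator. -/
theorem exists_generator {u : E → ℝ} (hu : Differentiable ℝ u)
    (h : ∀ δ : ℝ, 0 < δ → ∃ g : E ≃ᵢ E, (∀ x, u (g x) = u x) ∧ g ≠ 1 ∧ rh (lin g) < δ ∧ ‖g 0‖ < δ) :
    ∃ (B : E →L[ℝ] E) (c : E), (B ≠ 0 ∨ c ≠ 0) ∧ (∀ x, ⟪x, B x⟫_ℝ = 0) ∧
      ∀ x, fderiv ℝ u x (B x + c) = 0 := by
  choose g hgu hg1 hgr hgt using fun k : ℕ => h (1 / ((k : ℝ) + 1)) (by positivity)
  set r : ℕ → ℝ := fun k => rh (lin (g k)) + ‖g k 0‖ with hr
  have hrpos : ∀ k, 0 < r k := by
    intro k
    have h1 := rh_nonneg (lin (g k))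
    have h2 := norm_nonneg (g k 0)
    by_contra hcon
    have h3 : rh (lin (g k)) = 0 := by simp only [hr] at hcon; linarith only [h1, h2, hcon]
    have h4 : ‖g k 0‖ = 0 := by simp only [hr] at hcon; linarith only [h2, h1, hcon]
    apply hg1 k
    ext x
    rw [iso_apply, eq_one_of_rh h3, norm_eq_zero.mp h4]
    simp only [LinearIsometryEquiv.coe_one, id_eq, add_zero, IsometryEquiv.coe_one]
  set X : ℕ → (E →L[ℝ] E) × E := fun k =>
    ((r k)⁻¹ • (cl (lin (g k)) - 1), (r k)⁻¹ • (g k 0)) with hX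
  have hXb : ∀ k, X k ∈ Metric.closedBall (0 : (E →L[ℝ] E) × E) 1 := by
    intro k
    rw [mem_closedBall_zero_iff, Prod.norm_def]
    have h1 := rh_nonneg (lin (g k))
    have h2 := norm_nonneg (g k 0)
    apply max_le
    · change ‖(r k)⁻¹ • (cl (lin (g k)) - 1)‖ ≤ 1
      rw [norm_smul, norm_inv, Real.norm_eq_abs, abs_of_pos (hrpos k), inv_mul_le_iff₀ (hrpos k),
        mul_one]
      change rh (lin (g k)) ≤ r k
      simp only [hr]; linarith only [h2]
    · change ‖(r k)⁻¹ • (g k 0)‖ ≤ 1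
      rw [norm_smul, norm_inv, Real.norm_eq_abs, abs_of_pos (hrpos k), inv_mul_le_iff₀ (hrpos k),
        mul_one]
      simp only [hr]; linarith
  have hXsum : ∀ k, ‖(X k).1‖ + ‖(X k).2‖ = 1 := by
    intro k
    change ‖(r k)⁻¹ • (cl (lin (g k)) - 1)‖ + ‖(r k)⁻¹ • (g k 0)‖ = 1
    rw [norm_smul, norm_smul, norm_inv, Real.norm_eq_abs, abs_of_pos (hrpos k), ← mul_add]
    change (r k)⁻¹ * (rh (lin (g k)) + ‖g k 0‖) = 1
    exact inv_mul_cancel₀ (hrpos k).ne'
  obtain ⟨⟨B, c⟩, -, φ, hφ, hlim⟩ :=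
    (isCompact_closedBall (0 : (E →L[ℝ] E) × E) 1).tendsto_subseq hXb
  have hlim1 : Tendsto (fun k => (X (φ k)).1) atTop (𝓝 B) :=
    (continuous_fst.tendsto _).comp hlim
  have hlim2 : Tendsto (fun k => (X (φ k)).2) atTop (𝓝 c) :=
    (continuous_snd.tendsto _).comp hlim
  have hr0 : Tendsto r atTop (𝓝 0) := by
    have h1 : Tendsto (fun k : ℕ => 1 / ((k : ℝ) + 1)) atTop (𝓝 0) :=
      tendsto_one_div_add_atTop_nhds_zero_nat
    have h2 := h1.add h1
    rw [add_zero] at h2
    refine tendsto_of_tendsto_of_tendsto_of_le_of_le tendsto_const_nhds h2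
      (fun k => (hrpos k).le) (fun k => ?_)
    have a1 := hgr k
    have a2 := hgt k
    simp only [hr]; linarith only [a1, a2]
  have hr0φ : Tendsto (fun k => r (φ k)) atTop (𝓝 0) := hr0.comp hφ.tendsto_atTop
  refine ⟨B, c, ?_, ?_, ?_⟩
  · by_contra hcon
    push Not at hcon
    have h1 : Tendsto (fun k => ‖(X (φ k)).1‖ + ‖(X (φ k)).2‖) atTop (𝓝 (‖B‖ + ‖c‖)) :=
      hlim1.norm.add hlim2.norm
    simp_rw [hXsum] at h1
    have h2 := tendsto_nhds_unique h1 tendsto_const_nhds
    rw [hcon.1, hcon.2] at h2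
    simp at h2
  · intro x
    have h1 : Tendsto (fun k => ⟪x, (X (φ k)).1 x⟫_ℝ) atTop (𝓝 ⟪x, B x⟫_ℝ) :=
      tendsto_const_nhds.inner ((ContinuousLinearMap.apply ℝ E x).continuous.tendsto _ |>.comp hlim1)
    have h2 : ∀ k, ⟪x, (X k).1 x⟫_ℝ = -(1 / 2) * (r k * ‖(X k).1 x‖ ^ 2) := by
      intro k
      have e1 : (X k).1 x = (r k)⁻¹ • (lin (g k) x - x) := by
        simp only [hX, smul_apply, sub_apply, cl_apply, one_apply_eq_self]
      have e2 : ⟪x, lin (g k) x - x⟫_ℝ = -(1 / 2) * ‖lin (g k) x - x‖ ^ 2 := by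
        rw [@norm_sub_sq_real, (lin (g k)).norm_map, inner_sub_right, real_inner_self_eq_norm_sq,
          real_inner_comm]
        ring
      rw [e1, inner_smul_right, e2, norm_smul, norm_inv, Real.norm_eq_abs, abs_of_pos (hrpos k)]
      have := (hrpos k).ne'
      (clear * - this; field_simp)
    have h3 : Tendsto (fun k => -(1 / 2) * (r (φ k) * ‖(X (φ k)).1 x‖ ^ 2)) atTop
        (𝓝 (-(1 / 2) * (0 * ‖B x‖ ^ 2))) := by
      apply Tendsto.const_mul
      exact hr0φ.mul
        (((ContinuousLinearMap.apply ℝ E x).continuous.tendsto _ |>.comp hlim1).norm.pow 2)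
    simp_rw [h2] at h1
    have h4 := tendsto_nhds_unique h1 h3
    rw [h4]; ring
  · intro x
    -- `y k = (g k x - x) / r k` converges to `B x + c`
    have hy : ∀ k, (X k).1 x + (X k).2 = (r k)⁻¹ • (g k x - x) := by
      intro k
      have e1 : (X k).1 x = (r k)⁻¹ • (lin (g k) x - x) := by
        simp only [hX, smul_apply, sub_apply, cl_apply, one_apply_eq_self]
      have e2 : (X k).2 = (r k)⁻¹ • (g k 0) := rfl
      rw [e1, e2, ← smul_add, iso_apply (g k) x]
      congr 1; abel
    have hylim : Tendsto (fun k => (r (φ k))⁻¹ • (g (φ k) x - x)) atTop (𝓝 (B x + c)) := by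
      simp_rw [← hy]
      exact ((ContinuousLinearMap.apply ℝ E x).continuous.tendsto _ |>.comp hlim1).add hlim2
    have hsmall : Tendsto (fun k => g (φ k) x - x) atTop (𝓝 0) := by
      have h1 := hr0φ.smul hylim
      rw [zero_smul] at h1
      refine h1.congr fun k => ?_
      rw [smul_smul, mul_inv_cancel₀ (hrpos _).ne', one_smul]
    have hder : HasFDerivWithinAt u (fderiv ℝ u x) Set.univ x :=
      (hu x).hasFDerivAt.hasFDerivWithinAt
    have h2 := hder.lim hsmall (Eventually.of_forall fun _ => Set.mem_univ _) hylim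
    have h3 : (fun k => (r (φ k))⁻¹ • (u (x + (g (φ k) x - x)) - u x)) = fun _ => (0:ℝ) := by
      funext k
      rw [add_sub_cancel, hgu, sub_self, smul_zero]
    rw [h3] at h2
    exact tendsto_nhds_unique h2 tendsto_const_nhds

end Vale.Agent.P134
end
end

section

section

namespace Vale.Agent.P134

/-- Partial derivative in the coordinate direction `i`. -/
noncomputable def pd {n : ℕ} (i : Fin n) (u : (Fin n → ℝ) → ℝ) (x : Fin n → ℝ) : ℝ :=
  fderiv ℝ u x (Pi.single i 1)

/-- Bounded entire classical solution of the Allen-Cahn equation. -/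
structure Sol {n : ℕ} (u : (Fin n → ℝ) → ℝ) : Prop where
  c2 : ContDiff ℝ 2 u
  bd : ∀ x, |u x| ≤ 1
  eq : ∀ x, ∑ i, pd i (pd i u) x = u x ^ 3 - u x

end Vale.Agent.P134
end
end

section

section

open MeasureTheory

namespace Vale.Agent.P134

variable {n : ℕ} {f g : (Fin n → ℝ) → ℝ} {x : Fin n → ℝ} {i j : Fin n}

lemma pd_const (c : ℝ) : pd i (fun _ : Fin n → ℝ => c) x = 0 := by
  simp [pd]

lemma pd_add (hf : DifferentiableAt ℝ f x) (hg : DifferentiableAt ℝ g x) :
    pd i (fun y => f y + g y) x = pd i f x + pd i g x := by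
  unfold pd
  rw [fderiv_fun_add hf hg]; rfl

lemma pd_sub (hf : DifferentiableAt ℝ f x) (hg : DifferentiableAt ℝ g x) :
    pd i (fun y => f y - g y) x = pd i f x - pd i g x := by
  unfold pd
  rw [fderiv_fun_sub hf hg]; rfl

lemma pd_neg : pd i (fun y => - f y) x = - pd i f x := by
  unfold pd
  rw [fderiv_fun_neg]; rfl

lemma pd_mul (hf : DifferentiableAt ℝ f x) (hg : DifferentiableAt ℝ g x) :
    pd i (fun y => f y * g y) x = f x * pd i g x + g x * pd i f x := by
  unfold pd
  rw [fderiv_fun_mul hf hg]; simp only [add_apply, smul_apply, smul_eq_mul]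

lemma pd_sum {ι : Type*} (s : Finset ι) {F : ι → (Fin n → ℝ) → ℝ}
    (hF : ∀ k ∈ s, DifferentiableAt ℝ (F k) x) :
    pd i (fun y => ∑ k ∈ s, F k y) x = ∑ k ∈ s, pd i (F k) x := by
  unfold pd
  rw [fderiv_fun_sum hF]; simp only [sum_apply]

lemma pd_comp {h : ℝ → ℝ} (hh : DifferentiableAt ℝ h (f x)) (hf : DifferentiableAt ℝ f x) :
    pd i (fun y => h (f y)) x = deriv h (f x) * pd i f x := by
  unfold pd
  have := (hh.hasDerivAt.comp_hasFDerivAt x hf.hasFDerivAt).fderiv
  rw [show (fun y => h (f y)) = h ∘ f from rfl, this]; simp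

lemma pd_sq (hf : DifferentiableAt ℝ f x) :
    pd i (fun y => f y ^ 2) x = 2 * f x * pd i f x := by
  have : (fun y => f y ^ 2) = fun y => f y * f y := by ext y; ring
  rw [this, pd_mul hf hf]; ring

lemma pd_coord : pd i (fun y : Fin n → ℝ => y j) x = if j = i then 1 else 0 := by
  unfold pd
  have : (fun y : Fin n → ℝ => y j) = (ContinuousLinearMap.proj (R := ℝ) (φ := fun _ : Fin n => ℝ) j) := by
    ext y; rfl
  rw [this, ContinuousLinearMap.fderiv]
  simp [Pi.single_apply]

lemma pd_div (hf : DifferentiableAt ℝ f x) (hg : DifferentiableAt ℝ g x) (h0 : g x ≠ 0) :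
    pd i (fun y => f y / g y) x = pd i f x / g x - f x * pd i g x / (g x) ^ 2 := by
  have hinv : pd i (fun y => (g y)⁻¹) x = - pd i g x / (g x) ^ 2 := by
    rw [show (fun y => (g y)⁻¹) = fun y => (fun t : ℝ => t⁻¹) (g y) from rfl,
      pd_comp (h := fun t : ℝ => t⁻¹) (differentiableAt_inv h0) hg]
    simp only [deriv_inv, neg_mul]
    ring
  have : (fun y => f y / g y) = fun y => f y * (g y)⁻¹ := by ext y; rw [div_eq_mul_inv]
  have hgi : DifferentiableAt ℝ (fun y => (g y)⁻¹) x := hg.inv h0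
  rw [this, pd_mul hf hgi, hinv]
  field_simp
  ring

lemma contDiff_pd {k : ℕ} (hf : ContDiff ℝ (k + 1) f) : ContDiff ℝ k (pd i f) := by
  unfold pd
  exact (hf.fderiv_right le_rfl).clm_apply contDiff_const

lemma contDiff_pd_one (hf : ContDiff ℝ 2 f) : ContDiff ℝ 1 (pd i f) :=
  contDiff_pd (k := 1) (by exact_mod_cast hf)

lemma continuous_pd (hf : ContDiff ℝ 1 f) : Continuous (pd i f) :=
  (contDiff_pd (k := 0) (i := i) (by simpa using hf)).continuous

lemma pd_comm (hf : ContDiff ℝ 2 f) : pd i (pd j f) x = pd j (pd i f) x := by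
  have hs : IsSymmSndFDerivAt ℝ f x := by
    apply ContDiffAt.isSymmSndFDerivAt hf.contDiffAt
    simp
  have h1 : ∀ (a b : Fin n), pd a (pd b f) x
      = fderiv ℝ (fderiv ℝ f) x (Pi.single a 1) (Pi.single b 1) := by
    intro a b
    have hd : DifferentiableAt ℝ (fderiv ℝ f) x :=
      ((hf.fderiv_right (m := 1) (by norm_num)).differentiable (by norm_num)) x
    unfold pd
    rw [fderiv_clm_apply hd (differentiableAt_const _)]
    simp
  rw [h1, h1]
  exact hs _ _

lemma hasCompactSupport_pd (hf : HasCompactSupport f) : HasCompactSupport (pd i f) := by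
  unfold pd
  exact (hf.fderiv ℝ).comp_left (g := fun L : (Fin n → ℝ) →L[ℝ] ℝ => L (Pi.single i 1)) (by simp)

lemma pd_eq_zero_of_notMem_tsupport (hx : x ∉ tsupport f) : pd i f x = 0 := by
  unfold pd
  have : fderiv ℝ f x = 0 := by
    by_contra h
    exact hx (support_fderiv_subset ℝ (Function.mem_support.mpr h))
  simp [this]

/-- Integration by parts, one of the functions having compact support. -/
lemma integral_mul_pd (hf : ContDiff ℝ 1 f) (hg : ContDiff ℝ 1 g) (hc : HasCompactSupport g) :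
    ∫ x, f x * pd i g x = - ∫ x, pd i f x * g x := by
  have hcf : Continuous f := hf.continuous
  have hcg : Continuous g := hg.continuous
  have h1 : Integrable (fun x => pd i f x * g x) :=
    ((continuous_pd hf).mul hcg).integrable_of_hasCompactSupport (hc.mul_left)
  have h2 : Integrable (fun x => f x * pd i g x) :=
    (hcf.mul (continuous_pd hg)).integrable_of_hasCompactSupport
      ((hasCompactSupport_pd hc).mul_left)
  have h3 : Integrable (fun x => f x * g x) :=
    (hcf.mul hcg).integrable_of_hasCompactSupport (hc.mul_left)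
  exact integral_mul_fderiv_eq_neg_fderiv_mul_of_integrable (μ := volume) h1 h2 h3
    (fun x _ => (hf.differentiable (by norm_num)) x) (fun x _ => (hg.differentiable (by norm_num)) x)

end Vale.Agent.P134
end
end

section

section

open MeasureTheory Filter Topology

namespace Vale.Agent.P134

variable {n : ℕ} {f g u : (Fin n → ℝ) → ℝ} {x : Fin n → ℝ} {i j : Fin n}

lemma hasDerivAt_ln (hf : Differentiable ℝ f) (x : Fin n → ℝ) (i : Fin n) (t : ℝ) :
    HasDerivAt (fun s : ℝ => f (x + s • Pi.single i 1)) (pd i f (x + t • Pi.single i 1)) t := by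
  have h1 : HasDerivAt (fun s : ℝ => x + s • (Pi.single i 1 : Fin n → ℝ)) (Pi.single i 1) t := by
    have := ((hasDerivAt_id t).smul_const (Pi.single i 1 : Fin n → ℝ)).const_add x
    simpa using this
  exact (hf (x + t • Pi.single i 1)).hasFDerivAt.comp_hasDerivAt t h1

lemma abs_sub_le_line (hf : Differentiable ℝ f) {C : ℝ} (hC : ∀ y, |pd i f y| ≤ C)
    (x : Fin n → ℝ) (t : ℝ) : |f (x + t • Pi.single i 1) - f x| ≤ C * |t| := by
  have h := (convex_univ (𝕜 := ℝ) (E := ℝ)).norm_image_sub_le_of_norm_hasDerivWithin_le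
    (f := fun s : ℝ => f (x + s • Pi.single i 1))
    (f' := fun s => pd i f (x + s • Pi.single i 1)) (C := C) (x := 0) (y := t)
    (fun s _ => (hasDerivAt_ln hf x i s).hasDerivWithinAt)
    (fun s _ => by simpa only [Real.norm_eq_abs] using hC _) (Set.mem_univ _) (Set.mem_univ _)
  simpa only [ge_iff_le, zero_smul, add_zero, Real.norm_eq_abs, sub_zero] using h

lemma pd_translate (a : Fin n → ℝ) : pd j (fun y => f (y + a)) x = pd j f (x + a) := by
  unfold pd
  rw [fderiv_comp_add_right]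

lemma pd_translate' (a : Fin n → ℝ) : pd j (fun y => f (y + a)) = fun x => pd j f (x + a) := by
  ext x; exact pd_translate a

lemma Sol.translate (hu : Sol u) (a : Fin n → ℝ) : Sol (fun x => u (x + a)) where
  c2 := hu.c2.comp (contDiff_id.add contDiff_const)
  bd := fun x => hu.bd _
  eq := fun x => by
    simp only [pd_translate', pd_translate]
    exact hu.eq _

lemma pd_cube_sub (hf : DifferentiableAt ℝ f x) :
    pd i (fun y => f y ^ 3 - f y) x = (3 * f x ^ 2 - 1) * pd i f x := by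
  have h3 : pd i (fun y => f y ^ 3) x = 3 * f x ^ 2 * pd i f x := by
    rw [pd_comp (h := fun t : ℝ => t ^ 3) (by fun_prop) hf]
    simp only [differentiableAt_fun_id, deriv_fun_pow, Nat.cast_ofNat, Nat.add_one_sub_one, deriv_id'', mul_one]
  have hd3 : DifferentiableAt ℝ (fun y => f y ^ 3) x := hf.pow 3
  rw [pd_sub hd3 hf, h3]
  ring

/-- Weak form of the equation. -/
theorem weak_eq (hu : Sol u) {ξ : (Fin n → ℝ) → ℝ} (hξ : ContDiff ℝ 1 ξ)
    (hc : HasCompactSupport ξ) :
    ∫ x, ∑ j, pd j u x * pd j ξ x = - ∫ x, (u x ^ 3 - u x) * ξ x := by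
  have hint : ∀ j : Fin n, Integrable (fun x => pd j u x * pd j ξ x) := fun j =>
    ((contDiff_pd_one hu.c2).continuous.mul (continuous_pd hξ)).integrable_of_hasCompactSupport
      ((hasCompactSupport_pd hc).mul_left)
  have hint2 : ∀ j : Fin n, Integrable (fun x => pd j (pd j u) x * ξ x) := fun j =>
    ((continuous_pd (contDiff_pd_one hu.c2)).mul hξ.continuous).integrable_of_hasCompactSupport
      (hc.mul_left)
  rw [integral_finsetSum _ (fun j _ => hint j)]
  have h1 : ∀ j : Fin n, ∫ x, pd j u x * pd j ξ x = - ∫ x, pd j (pd j u) x * ξ x := fun j =>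
    integral_mul_pd (contDiff_pd_one hu.c2) hξ hc
  simp_rw [h1]
  rw [Finset.sum_neg_distrib, ← integral_finsetSum _ (fun j _ => hint2 j)]
  congr 1
  apply integral_congr_ae
  filter_upwards with x
  rw [← Finset.sum_mul, hu.eq]

/-- Weak form of the linearised equation. -/
theorem weak_lin (hu : Sol u) {C : ℝ} (hC1 : ∀ x i, |pd i u x| ≤ C)
    (hC2 : ∀ x i j, |pd i (pd j u) x| ≤ C) (i : Fin n) {ξ : (Fin n → ℝ) → ℝ}
    (hξ : ContDiff ℝ 1 ξ) (hc : HasCompactSupport ξ) :
    ∫ x, ∑ j, pd j (pd i u) x * pd j ξ x = - ∫ x, (3 * u x ^ 2 - 1) * pd i u x * ξ x := by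
  set e : Fin n → ℝ := Pi.single i 1 with he
  let h : ℕ → ℝ := fun m => 1 / ((m : ℝ) + 1)
  have hpos : ∀ m, 0 < h m := fun m => by (clear * -; positivity)
  have hlim : Tendsto h atTop (𝓝 0) := tendsto_one_div_add_atTop_nhds_zero_nat
  have hlim' : Tendsto h atTop (𝓝[≠] 0) :=
    tendsto_nhdsWithin_iff.mpr ⟨hlim, Eventually.of_forall fun m => (hpos m).ne'⟩
  have hdu : Differentiable ℝ u := hu.c2.differentiable (by norm_num)
  have hdpu : ∀ j, Differentiable ℝ (pd j u) := fun j =>
    (contDiff_pd_one hu.c2).differentiable (by norm_num)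
  -- the identity for difference quotients
  have hkey : ∀ m, ∫ x, ∑ j, ((h m)⁻¹ * (pd j u (x + h m • e) - pd j u x)) * pd j ξ x
      = - ∫ x, ((h m)⁻¹ * ((u (x + h m • e) ^ 3 - u (x + h m • e)) - (u x ^ 3 - u x))) * ξ x := by
    intro m
    have e1 := weak_eq (hu.translate (h m • e)) hξ hc
    have e2 := weak_eq hu hξ hc
    simp only [pd_translate] at e1
    have i1 : Integrable (fun x => ∑ j, pd j u (x + h m • e) * pd j ξ x) := by
      apply integrable_finsetSum
      intro j _
      exact (((contDiff_pd_one hu.c2).continuous.comp (by fun_prop)).mul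
        (continuous_pd hξ)).integrable_of_hasCompactSupport ((hasCompactSupport_pd hc).mul_left)
    have i2 : Integrable (fun x => ∑ j, pd j u x * pd j ξ x) := by
      apply integrable_finsetSum
      intro j _
      exact ((contDiff_pd_one hu.c2).continuous.mul
        (continuous_pd hξ)).integrable_of_hasCompactSupport ((hasCompactSupport_pd hc).mul_left)
    have hcu : Continuous u := hu.c2.continuous
    have hcu' : Continuous (fun x => u (x + h m • e)) := hcu.comp (by fun_prop)
    have i3 : Integrable (fun x => (u (x + h m • e) ^ 3 - u (x + h m • e)) * ξ x) :=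
      (((hcu'.pow 3).sub hcu').mul hξ.continuous).integrable_of_hasCompactSupport (hc.mul_left)
    have i4 : Integrable (fun x => (u x ^ 3 - u x) * ξ x) :=
      (((hcu.pow 3).sub hcu).mul hξ.continuous).integrable_of_hasCompactSupport (hc.mul_left)
    have e3 : ∫ x, ∑ j, ((h m)⁻¹ * (pd j u (x + h m • e) - pd j u x)) * pd j ξ x
        = (h m)⁻¹ * ((∫ x, ∑ j, pd j u (x + h m • e) * pd j ξ x)
          - ∫ x, ∑ j, pd j u x * pd j ξ x) := by
      rw [← integral_sub i1 i2, ← integral_const_mul]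
      congr 1; ext x
      rw [← Finset.sum_sub_distrib, Finset.mul_sum]
      apply Finset.sum_congr rfl
      intro j _; ring
    have e4 : ∫ x, ((h m)⁻¹ * ((u (x + h m • e) ^ 3 - u (x + h m • e)) - (u x ^ 3 - u x))) * ξ x
        = (h m)⁻¹ * ((∫ x, (u (x + h m • e) ^ 3 - u (x + h m • e)) * ξ x)
          - ∫ x, (u x ^ 3 - u x) * ξ x) := by
      rw [← integral_sub i3 i4, ← integral_const_mul]
      congr 1; ext x
      ring
    rw [e3, e4, e1, e2]; ring
  -- the limits
  have hd : ∀ (F : (Fin n → ℝ) → ℝ), Differentiable ℝ F → ∀ x,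
      Tendsto (fun m => (h m)⁻¹ * (F (x + h m • e) - F x)) atTop (𝓝 (pd i F x)) := by
    intro F hF x
    have h1 := (hasDerivAt_ln hF x i 0).tendsto_slope_zero
    simp only [zero_add, zero_smul, add_zero, smul_eq_mul] at h1
    exact h1.comp hlim'
  have hb : ∀ (F : (Fin n → ℝ) → ℝ), Differentiable ℝ F → ∀ D : ℝ, (∀ y, |pd i F y| ≤ D) → ∀ m x,
      |(h m)⁻¹ * (F (x + h m • e) - F x)| ≤ D := by
    intro F hF D hD m x
    have h1 := abs_sub_le_line hF hD x (h m)
    rw [abs_mul, abs_inv, abs_of_pos (hpos m)]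
    rw [abs_of_pos (hpos m)] at h1
    rw [inv_mul_le_iff₀ (hpos m)]
    linarith only [h1]
  have hL : Tendsto (fun m => ∫ x, ∑ j, ((h m)⁻¹ * (pd j u (x + h m • e) - pd j u x)) * pd j ξ x)
      atTop (𝓝 (∫ x, ∑ j, pd i (pd j u) x * pd j ξ x)) := by
    apply tendsto_integral_of_dominated_convergence (fun x => ∑ j, C * |pd j ξ x|)
    · intro m
      apply Continuous.aestronglyMeasurable
      apply continuous_finsetSum
      intro j _
      have hcj : Continuous (pd j u) := (contDiff_pd_one hu.c2).continuous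
      exact (continuous_const.mul ((hcj.comp (by fun_prop)).sub hcj)).mul (continuous_pd hξ)
    · apply integrable_finsetSum
      intro j _
      exact (((continuous_pd hξ).integrable_of_hasCompactSupport
        (hasCompactSupport_pd hc)).abs).const_mul C
    · intro m
      filter_upwards with x
      rw [Real.norm_eq_abs]
      refine (Finset.abs_sum_le_sum_abs _ _).trans (Finset.sum_le_sum fun j _ => ?_)
      rw [abs_mul]
      exact mul_le_mul_of_nonneg_right (hb _ (hdpu j) C (fun y => hC2 y i j) m x) (abs_nonneg _)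
    · filter_upwards with x
      apply tendsto_finsetSum
      intro j _
      exact (hd _ (hdpu j) x).mul_const _
  have hFd : Differentiable ℝ (fun x => u x ^ 3 - u x) := (hdu.pow 3).sub hdu
  have hFpd : ∀ x, pd i (fun x => u x ^ 3 - u x) x = (3 * u x ^ 2 - 1) * pd i u x :=
    fun x => pd_cube_sub (hdu x)
  have hR : Tendsto (fun m => ∫ x, ((h m)⁻¹ * ((u (x + h m • e) ^ 3 - u (x + h m • e))
      - (u x ^ 3 - u x))) * ξ x) atTop (𝓝 (∫ x, (3 * u x ^ 2 - 1) * pd i u x * ξ x)) := by
    apply tendsto_integral_of_dominated_convergence (fun x => (2 * C) * |ξ x|)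
    · intro m
      apply Continuous.aestronglyMeasurable
      have hcu : Continuous u := hu.c2.continuous
      have hcu' : Continuous (fun x => u (x + h m • e)) := hcu.comp (by fun_prop)
      exact (continuous_const.mul (((hcu'.pow 3).sub hcu').sub ((hcu.pow 3).sub hcu))).mul
        hξ.continuous
    · exact ((hξ.continuous.integrable_of_hasCompactSupport hc).abs).const_mul _
    · intro m
      filter_upwards with x
      rw [Real.norm_eq_abs, abs_mul]
      refine mul_le_mul_of_nonneg_right (hb _ hFd (2 * C) (fun y => ?_) m x) (abs_nonneg _)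
      rw [hFpd, abs_mul]
      have h1 := hC1 y i
      have h2 := hu.bd y
      have h3 : |3 * u y ^ 2 - 1| ≤ 2 := by
        rw [abs_le] at h2 ⊢
        constructor <;> (clear * - u y h2; nlinarith only [h2])
      have h0 : 0 ≤ |pd i u y| := abs_nonneg _
      nlinarith only [h1, h3, h0]
    · filter_upwards with x
      have := (hd _ hFd x).mul_const (ξ x)
      rw [hFpd] at this
      exact this
  have := tendsto_nhds_unique (hL.congr hkey) hR.neg
  rw [← this]
  congr 1; ext x
  apply Finset.sum_congr rfl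
  intro j _
  rw [pd_comm hu.c2]

end Vale.Agent.P134
end
end

section

section

open MeasureTheory Filter Topology

namespace Vale.Agent.P134

variable {n : ℕ} {f g u V φ ψ η ξ : (Fin n → ℝ) → ℝ} {x : Fin n → ℝ} {i j : Fin n}

/-- Weak solution of `Δ ψ = V ψ`. -/
def WeakLin (V ψ : (Fin n → ℝ) → ℝ) : Prop :=
  ∀ ξ : (Fin n → ℝ) → ℝ, ContDiff ℝ 1 ξ → HasCompactSupport ξ →
    ∫ x, ∑ j, pd j ψ x * pd j ξ x = - ∫ x, V x * ψ x * ξ x

lemma hcs_sq (hf : HasCompactSupport f) : HasCompactSupport (fun x => f x ^ 2) :=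
  hf.comp_left (g := fun t => t ^ 2) (by simp)

lemma integrable_sum_mul {F G : Fin n → (Fin n → ℝ) → ℝ} (hF : ∀ j, Continuous (F j))
    (hG : ∀ j, Continuous (G j)) (hc : ∀ j, HasCompactSupport (G j)) :
    Integrable (fun x => ∑ j, F j x * G j x) := by
  apply integrable_finsetSum
  intro j _
  exact ((hF j).mul (hG j)).integrable_of_hasCompactSupport ((hc j).mul_left)

theorem liouville_identity (hφ : ContDiff ℝ 1 φ) (hψ : ContDiff ℝ 1 ψ) (hφ0 : ∀ x, 0 < φ x)
    (Wφ : WeakLin V φ) (Wψ : WeakLin V ψ) (hη : ContDiff ℝ 1 η) (hc : HasCompactSupport η) :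
    ∫ x, ∑ j, φ x ^ 2 * (pd j (fun y => ψ y * η y / φ y) x) ^ 2
      = ∫ x, ψ x ^ 2 * ∑ j, (pd j η x) ^ 2 := by
  have hne : ∀ x, φ x ≠ 0 := fun x => (hφ0 x).ne'
  set ξ1 : (Fin n → ℝ) → ℝ := fun x => ψ x * η x ^ 2 with hξ1
  set ξ2 : (Fin n → ℝ) → ℝ := fun x => ψ x ^ 2 * η x ^ 2 / φ x with hξ2
  have c1 : ContDiff ℝ 1 ξ1 := hψ.mul (hη.pow 2)
  have c2 : ContDiff ℝ 1 ξ2 := ((hψ.pow 2).mul (hη.pow 2)).div hφ hne
  have s1 : HasCompactSupport ξ1 := by
    have : HasCompactSupport (fun x => η x ^ 2) := hc.comp_left (g := fun t => t ^ 2) (by simp)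
    exact this.mul_left
  have s2 : HasCompactSupport ξ2 := by
    have : HasCompactSupport (fun x => η x ^ 2) := hc.comp_left (g := fun t => t ^ 2) (by simp)
    have h2 : HasCompactSupport (fun x => ψ x ^ 2 * η x ^ 2) := this.mul_left
    exact h2.mul_right (f' := fun x => (φ x)⁻¹)
  have e1 := Wψ ξ1 c1 s1
  have e2 := Wφ ξ2 c2 s2
  have e3 : ∫ x, V x * ψ x * ξ1 x = ∫ x, V x * φ x * ξ2 x := by
    congr 1; ext x
    simp only [hξ1, hξ2]
    (clear * - hne; field_simp [hne x])
  have e4 : ∫ x, ∑ j, pd j ψ x * pd j ξ1 x = ∫ x, ∑ j, pd j φ x * pd j ξ2 x := by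
    rw [e1, e2, e3]
  have i1 : Integrable (fun x => ∑ j, pd j ψ x * pd j ξ1 x) :=
    integrable_sum_mul (fun j => continuous_pd hψ) (fun j => continuous_pd c1)
      (fun j => hasCompactSupport_pd s1)
  have i2 : Integrable (fun x => ∑ j, pd j φ x * pd j ξ2 x) :=
    integrable_sum_mul (fun j => continuous_pd hφ) (fun j => continuous_pd c2)
      (fun j => hasCompactSupport_pd s2)
  have e5 : ∫ x, (∑ j, pd j ψ x * pd j ξ1 x - ∑ j, pd j φ x * pd j ξ2 x) = 0 := by
    rw [integral_sub i1 i2, e4, sub_self]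
  have hσ : ContDiff ℝ 1 (fun y => ψ y * η y / φ y) := (hψ.mul hη).div hφ hne
  have sσ : HasCompactSupport (fun y => ψ y * η y / φ y) := by
    have h2 : HasCompactSupport (fun x => ψ x * η x) := hc.mul_left
    exact h2.mul_right (f' := fun x => (φ x)⁻¹)
  have i3 : Integrable (fun x => ∑ j, φ x ^ 2 * (pd j (fun y => ψ y * η y / φ y) x) ^ 2) := by
    apply integrable_finsetSum
    intro j _
    have hs : HasCompactSupport (fun x => (pd j (fun y => ψ y * η y / φ y) x) ^ 2) :=
      (hasCompactSupport_pd sσ).comp_left (g := fun t => t ^ 2) (by simp)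
    exact ((hφ.continuous.pow 2).mul ((continuous_pd hσ).pow 2)).integrable_of_hasCompactSupport
      hs.mul_left
  have i4 : Integrable (fun x => ψ x ^ 2 * ∑ j, (pd j η x) ^ 2) := by
    have : (fun x => ψ x ^ 2 * ∑ j, (pd j η x) ^ 2) = fun x => ∑ j, ψ x ^ 2 * (pd j η x) ^ 2 := by
      ext x; rw [Finset.mul_sum]
    rw [this]
    apply integrable_finsetSum
    intro j _
    have hs : HasCompactSupport (fun x => (pd j η x) ^ 2) :=
      (hasCompactSupport_pd hc).comp_left (g := fun t => t ^ 2) (by simp)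
    exact ((hψ.continuous.pow 2).mul ((continuous_pd hη).pow 2)).integrable_of_hasCompactSupport
      hs.mul_left
  rw [← sub_eq_zero, ← integral_sub i3 i4, ← e5]
  congr 1; ext x
  rw [Finset.mul_sum, ← Finset.sum_sub_distrib, ← Finset.sum_sub_distrib]
  apply Finset.sum_congr rfl
  intro j _
  have dφ : DifferentiableAt ℝ φ x := hφ.differentiable (by norm_num) x
  have dψ : DifferentiableAt ℝ ψ x := hψ.differentiable (by norm_num) x
  have dη : DifferentiableAt ℝ η x := hη.differentiable (by norm_num) x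
  have dη2 : DifferentiableAt ℝ (fun y => η y ^ 2) x := dη.pow 2
  have dψ2 : DifferentiableAt ℝ (fun y => ψ y ^ 2) x := dψ.pow 2
  have dψη : DifferentiableAt ℝ (fun y => ψ y * η y) x := dψ.mul dη
  have dψη2 : DifferentiableAt ℝ (fun y => ψ y ^ 2 * η y ^ 2) x := dψ2.mul dη2
  have p1 : pd j ξ1 x = ψ x * (2 * η x * pd j η x) + η x ^ 2 * pd j ψ x := by
    rw [hξ1, pd_mul dψ dη2, pd_sq dη]
  have p2 : pd j ξ2 x = (ψ x ^ 2 * (2 * η x * pd j η x) + η x ^ 2 * (2 * ψ x * pd j ψ x)) / φ x
      - ψ x ^ 2 * η x ^ 2 * pd j φ x / φ x ^ 2 := by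
    rw [hξ2, pd_div dψη2 dφ (hne x), pd_mul dψ2 dη2, pd_sq dη, pd_sq dψ]
  have p3 : pd j (fun y => ψ y * η y / φ y) x = (ψ x * pd j η x + η x * pd j ψ x) / φ x
      - ψ x * η x * pd j φ x / φ x ^ 2 := by
    rw [pd_div dψη dφ (hne x), pd_mul dψ dη]
  rw [p1, p2, p3]
  have := hne x
  field_simp
  ring

theorem stability_ineq (hφ : ContDiff ℝ 1 φ) (hφ0 : ∀ x, 0 < φ x) (hV : Continuous V)
    (Wφ : WeakLin V φ) (hξ : ContDiff ℝ 1 ξ) (hc : HasCompactSupport ξ) :
    0 ≤ ∫ x, (∑ j, (pd j ξ x) ^ 2 + V x * ξ x ^ 2) := by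
  have hne : ∀ x, φ x ≠ 0 := fun x => (hφ0 x).ne'
  set ξ2 : (Fin n → ℝ) → ℝ := fun x => ξ x ^ 2 / φ x with hξ2
  have c2 : ContDiff ℝ 1 ξ2 := (hξ.pow 2).div hφ hne
  have sξ : HasCompactSupport (fun x => ξ x ^ 2) := hc.comp_left (g := fun t => t ^ 2) (by simp)
  have s2 : HasCompactSupport ξ2 := sξ.mul_right (f' := fun x => (φ x)⁻¹)
  have e2 := Wφ ξ2 c2 s2
  have e3 : ∫ x, V x * φ x * ξ2 x = ∫ x, V x * ξ x ^ 2 := by
    congr 1; ext x
    simp only [hξ2]
    (clear * - hne; field_simp [hne x])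
  have i2 : Integrable (fun x => ∑ j, pd j φ x * pd j ξ2 x) :=
    integrable_sum_mul (fun j => continuous_pd hφ) (fun j => continuous_pd c2)
      (fun j => hasCompactSupport_pd s2)
  have i5 : Integrable (fun x => V x * ξ x ^ 2) :=
    (hV.mul (hξ.continuous.pow 2)).integrable_of_hasCompactSupport sξ.mul_left
  have i6 : Integrable (fun x => ∑ j, (pd j ξ x) ^ 2) := by
    apply integrable_finsetSum
    intro j _
    have hs : HasCompactSupport (fun x => (pd j ξ x) ^ 2) := hcs_sq (hasCompactSupport_pd hc)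
    exact ((continuous_pd hξ).pow 2).integrable_of_hasCompactSupport hs
  have e7 : ∫ x, V x * ξ x ^ 2 = - ∫ x, ∑ j, pd j φ x * pd j ξ2 x := by
    rw [e2, e3, neg_neg]
  have e8 : ∫ x, (∑ j, (pd j ξ x) ^ 2 + V x * ξ x ^ 2)
      = ∫ x, (∑ j, (pd j ξ x) ^ 2 - ∑ j, pd j φ x * pd j ξ2 x) := by
    have e9 : ∫ x, (∑ j, (pd j ξ x) ^ 2 + V x * ξ x ^ 2)
        = (∫ x, ∑ j, (pd j ξ x) ^ 2) + ∫ x, V x * ξ x ^ 2 := integral_add i6 i5
    have e10 : ∫ x, (∑ j, (pd j ξ x) ^ 2 - ∑ j, pd j φ x * pd j ξ2 x)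
        = (∫ x, ∑ j, (pd j ξ x) ^ 2) - ∫ x, ∑ j, pd j φ x * pd j ξ2 x := integral_sub i6 i2
    rw [e9, e10, e7]; ring
  rw [e8]
  apply integral_nonneg
  intro x
  simp only [Pi.zero_apply]
  rw [← Finset.sum_sub_distrib]
  apply Finset.sum_nonneg
  intro j _
  have dφ : DifferentiableAt ℝ φ x := hφ.differentiable (by norm_num) x
  have dξ : DifferentiableAt ℝ ξ x := hξ.differentiable (by norm_num) x
  have dξ2 : DifferentiableAt ℝ (fun y => ξ y ^ 2) x := dξ.pow 2
  have p2 : pd j ξ2 x = 2 * ξ x * pd j ξ x / φ x - ξ x ^ 2 * pd j φ x / φ x ^ 2 := by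
    rw [hξ2, pd_div dξ2 dφ (hne x), pd_sq dξ]
  rw [p2]
  have h := sq_nonneg (pd j ξ x - ξ x * pd j φ x / φ x)
  have hh : pd j ξ x ^ 2 - pd j φ x * (2 * ξ x * pd j ξ x / φ x - ξ x ^ 2 * pd j φ x / φ x ^ 2)
      = (pd j ξ x - ξ x * pd j φ x / φ x) ^ 2 := by
    have := hne x
    field_simp
    ring
  rw [hh]; exact h

/-- Caccioppoli-type estimate for the quotient of two solutions. -/
theorem liouville_ineq (hφ : ContDiff ℝ 1 φ) (hψ : ContDiff ℝ 1 ψ) (hφ0 : ∀ x, 0 < φ x)
    (Wφ : WeakLin V φ) (Wψ : WeakLin V ψ) (hη : ContDiff ℝ 1 η) (hc : HasCompactSupport η) :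
    ∫ x, (∑ j, φ x ^ 2 * (pd j (fun y => ψ y / φ y) x) ^ 2) * η x ^ 2
      ≤ 4 * ∫ x, ψ x ^ 2 * ∑ j, (pd j η x) ^ 2 := by
  have hne : ∀ x, φ x ≠ 0 := fun x => (hφ0 x).ne'
  have key := liouville_identity hφ hψ hφ0 Wφ Wψ hη hc
  have hσ1 : ContDiff ℝ 1 (fun y => ψ y / φ y) := hψ.div hφ hne
  have hσ : ContDiff ℝ 1 (fun y => ψ y * η y / φ y) := (hψ.mul hη).div hφ hne
  have sσ : HasCompactSupport (fun y => ψ y * η y / φ y) := by
    have h2 : HasCompactSupport (fun x => ψ x * η x) := hc.mul_left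
    exact h2.mul_right (f' := fun x => (φ x)⁻¹)
  have i3 : Integrable (fun x => ∑ j, φ x ^ 2 * (pd j (fun y => ψ y * η y / φ y) x) ^ 2) := by
    apply integrable_finsetSum
    intro j _
    have hs : HasCompactSupport (fun x => (pd j (fun y => ψ y * η y / φ y) x) ^ 2) :=
      (hasCompactSupport_pd sσ).comp_left (g := fun t => t ^ 2) (by simp)
    exact ((hφ.continuous.pow 2).mul ((continuous_pd hσ).pow 2)).integrable_of_hasCompactSupport
      hs.mul_left
  have i4 : Integrable (fun x => ψ x ^ 2 * ∑ j, (pd j η x) ^ 2) := by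
    have : (fun x => ψ x ^ 2 * ∑ j, (pd j η x) ^ 2) = fun x => ∑ j, ψ x ^ 2 * (pd j η x) ^ 2 := by
      ext x; rw [Finset.mul_sum]
    rw [this]
    apply integrable_finsetSum
    intro j _
    have hs : HasCompactSupport (fun x => (pd j η x) ^ 2) :=
      (hasCompactSupport_pd hc).comp_left (g := fun t => t ^ 2) (by simp)
    exact ((hψ.continuous.pow 2).mul ((continuous_pd hη).pow 2)).integrable_of_hasCompactSupport
      hs.mul_left
  have i1 : Integrable (fun x => (∑ j, φ x ^ 2 * (pd j (fun y => ψ y / φ y) x) ^ 2) * η x ^ 2) := by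
    have hs : HasCompactSupport (fun x => η x ^ 2) := hc.comp_left (g := fun t => t ^ 2) (by simp)
    refine Continuous.integrable_of_hasCompactSupport ?_ hs.mul_left
    refine (continuous_finsetSum _ fun j _ => ?_).mul (hη.continuous.pow 2)
    exact (hφ.continuous.pow 2).mul ((continuous_pd hσ1).pow 2)
  have hpt : ∀ x, (∑ j, φ x ^ 2 * (pd j (fun y => ψ y / φ y) x) ^ 2) * η x ^ 2
      ≤ 2 * (∑ j, φ x ^ 2 * (pd j (fun y => ψ y * η y / φ y) x) ^ 2)
        + 2 * (ψ x ^ 2 * ∑ j, (pd j η x) ^ 2) := by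
    intro x
    rw [Finset.sum_mul, Finset.mul_sum, Finset.mul_sum, Finset.mul_sum, ← Finset.sum_add_distrib]
    apply Finset.sum_le_sum
    intro j _
    have dφ : DifferentiableAt ℝ φ x := hφ.differentiable (by norm_num) x
    have dψ : DifferentiableAt ℝ ψ x := hψ.differentiable (by norm_num) x
    have dη : DifferentiableAt ℝ η x := hη.differentiable (by norm_num) x
    have dσ : DifferentiableAt ℝ (fun y => ψ y / φ y) x := hσ1.differentiable (by norm_num) x
    have p3 : pd j (fun y => ψ y * η y / φ y) x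
        = (ψ x / φ x) * pd j η x + η x * pd j (fun y => ψ y / φ y) x := by
      rw [← pd_mul dσ dη]
      congr 1; ext y; ring
    have h4 : ψ x ^ 2 * pd j η x ^ 2 = φ x ^ 2 * ((ψ x / φ x) * pd j η x) ^ 2 := by
      have := hne x
      (clear * - this; field_simp)
    rw [p3, h4]
    set A := φ x
    set B := (ψ x / φ x) * pd j η x
    set D := pd j (fun y => ψ y / φ y) x
    (clear * - A D η x B ψ n j φ; nlinarith only [sq_nonneg (A * (2 * B + η x * D))])
  calc ∫ x, (∑ j, φ x ^ 2 * (pd j (fun y => ψ y / φ y) x) ^ 2) * η x ^ 2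
      ≤ ∫ x, (2 * (∑ j, φ x ^ 2 * (pd j (fun y => ψ y * η y / φ y) x) ^ 2)
        + 2 * (ψ x ^ 2 * ∑ j, (pd j η x) ^ 2)) :=
        integral_mono i1 ((i3.const_mul 2).add (i4.const_mul 2)) hpt
    _ = 4 * ∫ x, ψ x ^ 2 * ∑ j, (pd j η x) ^ 2 := by
        rw [integral_add (i3.const_mul 2) (i4.const_mul 2), integral_const_mul,
          integral_const_mul, key]
        ring

end Vale.Agent.P134
end
end

section

section

open MeasureTheory Filter Topology

namespace Vale.Agent.P134

variable {n : ℕ} {x : Fin n → ℝ} {i j : Fin n}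

/-- A smooth function equal to one on `(-∞,1]` and to zero on `[2,∞)`. -/
noncomputable def th (t : ℝ) : ℝ := Real.smoothTransition (2 - t)

lemma th_contDiff : ContDiff ℝ 1 th :=
  Real.smoothTransition.contDiff.comp (contDiff_const.sub contDiff_id)

lemma th_nonneg (t : ℝ) : 0 ≤ th t := Real.smoothTransition.nonneg _

lemma th_le_one (t : ℝ) : th t ≤ 1 := Real.smoothTransition.le_one _

lemma th_one {t : ℝ} (h : t ≤ 1) : th t = 1 :=
  Real.smoothTransition.one_of_one_le (by linarith)

lemma th_zero {t : ℝ} (h : 2 ≤ t) : th t = 0 :=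
  Real.smoothTransition.zero_of_nonpos (by linarith)

lemma th_deriv_of_lt {t : ℝ} (h : t < 1) : deriv th t = 0 := by
  have : th =ᶠ[𝓝 t] fun _ => 1 := by
    filter_upwards [Iio_mem_nhds h] with s hs using th_one (le_of_lt hs)
  rw [this.deriv_eq]; simp

lemma th_deriv_of_gt {t : ℝ} (h : 2 < t) : deriv th t = 0 := by
  have : th =ᶠ[𝓝 t] fun _ => 0 := by
    filter_upwards [Ioi_mem_nhds h] with s hs using th_zero (le_of_lt hs)
  rw [this.deriv_eq]; simp

lemma exists_th_bound : ∃ C : ℝ, 1 ≤ C ∧ ∀ t, |deriv th t| ≤ C := by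
  have hc : Continuous (deriv th) := th_contDiff.continuous_deriv (by norm_num)
  obtain ⟨C, hC⟩ := (isCompact_Icc (a := (1:ℝ)) (b := 2)).exists_bound_of_continuousOn
    hc.continuousOn
  refine ⟨max C 1, le_max_right _ _, fun t => ?_⟩
  by_cases h1 : t < 1
  · rw [th_deriv_of_lt h1]; simp only [abs_zero, le_sup_iff, zero_le_one, or_true]
  by_cases h2 : 2 < t
  · rw [th_deriv_of_gt h2]; simp only [abs_zero, le_sup_iff, zero_le_one, or_true]
  exact (hC t ⟨not_lt.mp h1, not_lt.mp h2⟩).trans (le_max_left _ _)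

/-- Sum of squares over a block of coordinates. -/
def rho (S : Finset (Fin n)) (x : Fin n → ℝ) : ℝ := ∑ i ∈ S, x i ^ 2

lemma rho_nonneg (S : Finset (Fin n)) (x : Fin n → ℝ) : 0 ≤ rho S x :=
  Finset.sum_nonneg fun _ _ => sq_nonneg _

lemma rho_contDiff (S : Finset (Fin n)) {k : WithTop ℕ∞} : ContDiff ℝ k (rho S) := by
  unfold rho
  fun_prop

lemma sq_le_rho {S : Finset (Fin n)} (hi : i ∈ S) (x : Fin n → ℝ) : x i ^ 2 ≤ rho S x :=
  Finset.single_le_sum (f := fun i => x i ^ 2) (fun _ _ => sq_nonneg _) hi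

lemma pd_rho (S : Finset (Fin n)) : pd i (rho S) x = if i ∈ S then 2 * x i else 0 := by
  unfold rho
  have hd : ∀ k : Fin n, DifferentiableAt ℝ (fun y : Fin n → ℝ => y k) x := fun k => by fun_prop
  have hd2 : ∀ k : Fin n, DifferentiableAt ℝ (fun y : Fin n → ℝ => y k ^ 2) x := fun k => by
    (clear * -; fun_prop)
  rw [pd_sum S (F := fun k y => y k ^ 2) (fun k _ => hd2 k)]
  have : ∀ k ∈ S, pd i (fun y : Fin n → ℝ => y k ^ 2) x = if k = i then 2 * x i else 0 := by
    intro k _
    rw [pd_sq (hd k), pd_coord]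
    split_ifs with h
    · subst h; ring
    · ring
  rw [Finset.sum_congr rfl this, Finset.sum_ite_eq' S i]

/-- One-block cutoff function. -/
noncomputable def cutb (S : Finset (Fin n)) (R : ℝ) (x : Fin n → ℝ) : ℝ := th (rho S x / R ^ 2)

lemma cutb_contDiff (S : Finset (Fin n)) (R : ℝ) : ContDiff ℝ 1 (cutb S R) :=
  th_contDiff.comp ((rho_contDiff S).div_const _)

lemma cutb_nonneg (S : Finset (Fin n)) (R : ℝ) (x) : 0 ≤ cutb S R x := th_nonneg _
lemma cutb_le_one (S : Finset (Fin n)) (R : ℝ) (x) : cutb S R x ≤ 1 := th_le_one _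

lemma pd_cutb (S : Finset (Fin n)) (R : ℝ) :
    pd i (cutb S R) x = deriv th (rho S x / R ^ 2) * ((if i ∈ S then 2 * x i else 0) / R ^ 2) := by
  unfold cutb
  have h1 : DifferentiableAt ℝ (fun y => rho S y / R ^ 2) x :=
    ((rho_contDiff (k := 1) S).div_const _).differentiable (by norm_num) x
  rw [pd_comp (h := th) (th_contDiff.differentiable (by norm_num) _) h1]
  congr 1
  have : (fun y => rho S y / R ^ 2) = fun y => (R ^ 2)⁻¹ * rho S y := by
    ext y; rw [div_eq_inv_mul]
  rw [this, pd_mul (differentiableAt_const _) ((rho_contDiff (k := 1) S).differentiable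
    (by norm_num) x), pd_const, pd_rho, div_eq_inv_mul]
  ring

lemma pd_cutb_bound {C : ℝ} (hC : ∀ t, |deriv th t| ≤ C) (S : Finset (Fin n)) {R : ℝ}
    (hR : 0 < R) : |pd i (cutb S R) x| ≤ 3 * C / R := by
  have hC0 : 0 ≤ C := (abs_nonneg _).trans (hC 0)
  rw [pd_cutb]
  by_cases h : rho S x / R ^ 2 ≤ 2
  · have hR2 : 0 < R ^ 2 := by positivity
    rw [div_le_iff₀ hR2] at h
    rw [abs_mul]
    have h2 : |(if i ∈ S then 2 * x i else 0) / R ^ 2| ≤ 3 / R := by
      split_ifs with hi
      · rw [abs_div, abs_of_pos hR2, div_le_div_iff₀ hR2 hR]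
        have h3 : |x i| ≤ 3 / 2 * R := by
          apply abs_le_of_sq_le_sq _ (by positivity)
          have := sq_le_rho hi x
          (clear * - x i R n S h hR2 this; linarith)
        rw [abs_mul, abs_two]
        (clear * - x i R hR h3; nlinarith only [hR, h3])
      · simp only [zero_div, abs_zero]; positivity
    calc |deriv th (rho S x / R ^ 2)| * |(if i ∈ S then 2 * x i else 0) / R ^ 2|
        ≤ C * (3 / R) := mul_le_mul (hC _) h2 (abs_nonneg _) hC0
      _ = 3 * C / R := by ring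
  · rw [th_deriv_of_gt (not_le.mp h)]
    simp only [zero_mul, abs_zero]; positivity

/-- Three-block cutoff function. -/
noncomputable def cut (S : Finset (Fin n)) (p q : Fin n) (R : ℝ) (x : Fin n → ℝ) : ℝ :=
  cutb S R x * (cutb {p} R x * cutb {q} R x)

variable {S : Finset (Fin n)} {p q : Fin n} {R : ℝ}

lemma cut_contDiff : ContDiff ℝ 1 (cut S p q R) :=
  (cutb_contDiff S R).mul ((cutb_contDiff {p} R).mul (cutb_contDiff {q} R))

lemma cut_nonneg : 0 ≤ cut S p q R x :=
  mul_nonneg (cutb_nonneg _ _ _) (mul_nonneg (cutb_nonneg _ _ _) (cutb_nonneg _ _ _))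

lemma cut_le_one : cut S p q R x ≤ 1 :=
  mul_le_one₀ (cutb_le_one _ _ _) (mul_nonneg (cutb_nonneg _ _ _) (cutb_nonneg _ _ _))
    (mul_le_one₀ (cutb_le_one _ _ _) (cutb_nonneg _ _ _) (cutb_le_one _ _ _))

lemma cut_eq_one (hR : 0 < R) (h1 : rho S x ≤ R ^ 2) (h2 : x p ^ 2 ≤ R ^ 2)
    (h3 : x q ^ 2 ≤ R ^ 2) : cut S p q R x = 1 := by
  have hR2 : 0 < R ^ 2 := by positivity
  unfold cut cutb
  rw [th_one, th_one, th_one]
  · norm_num
  · simpa only [rho, Finset.sum_singleton] using (div_le_one hR2).mpr h3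
  · simpa only [rho, Finset.sum_singleton] using (div_le_one hR2).mpr h2
  · exact (div_le_one hR2).mpr h1

lemma cutb_eq_zero (hR : 0 < R) (h : 2 * R ^ 2 ≤ rho S x) : cutb S R x = 0 := by
  have hR2 : 0 < R ^ 2 := by positivity
  unfold cutb
  exact th_zero ((le_div_iff₀ hR2).mpr h)

/-- The closed box of half-side `r`. -/
def box (n : ℕ) (r : ℝ) : Set (Fin n → ℝ) := Set.Icc (fun _ => -r) (fun _ => r)

lemma mem_box {r : ℝ} : x ∈ box n r ↔ ∀ i, |x i| ≤ r := by
  simp only [box, Set.mem_Icc, Pi.le_def, abs_le]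
  exact ⟨fun h i => ⟨h.1 i, h.2 i⟩, fun h => ⟨fun i => (h i).1, fun i => (h i).2⟩⟩

lemma isCompact_box (r : ℝ) : IsCompact (box n r) := isCompact_Icc

lemma volume_box {r : ℝ} (hr : 0 ≤ r) : (volume (box n r)).toReal = (2 * r) ^ n := by
  unfold box
  rw [Real.volume_Icc_pi_toReal (fun i => by simp only [neg_le_self_iff]; linarith)]
  simp only [sub_neg_eq_add, Finset.prod_const, Finset.card_univ, Fintype.card_fin]
  ring

lemma cut_eq_zero (hS : ∀ i : Fin n, i ∈ S ∨ i = p ∨ i = q) (hR : 0 < R)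
    (hx : x ∉ box n (2 * R)) : cut S p q R x = 0 := by
  rw [mem_box] at hx
  push Not at hx
  obtain ⟨i, hi⟩ := hx
  have h2 : 2 * R ^ 2 ≤ x i ^ 2 := by
    have : (2 * R) ^ 2 < |x i| ^ 2 := by
      apply pow_lt_pow_left₀ hi (by positivity) (by norm_num)
    rw [sq_abs] at this
    (clear * - R x i this; nlinarith)
  unfold cut
  rcases hS i with h | h | h
  · rw [cutb_eq_zero hR (h2.trans (sq_le_rho h x))]; ring
  · subst h
    rw [cutb_eq_zero (S := {i}) hR (by simpa only [rho, Finset.sum_singleton] using h2)]; ring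
  · subst h
    rw [cutb_eq_zero (S := {i}) hR (by simpa only [rho, Finset.sum_singleton] using h2)]; ring

lemma cut_hasCompactSupport (hS : ∀ i : Fin n, i ∈ S ∨ i = p ∨ i = q) (hR : 0 < R) :
    HasCompactSupport (cut S p q R) :=
  HasCompactSupport.intro (isCompact_box (2 * R)) fun _ hx => cut_eq_zero hS hR hx

lemma pd_cut : pd i (cut S p q R) x = pd i (cutb S R) x * (cutb {p} R x * cutb {q} R x)
    + cutb S R x * (pd i (cutb {p} R) x * cutb {q} R x + cutb {p} R x * pd i (cutb {q} R) x) := by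
  have d1 : ∀ T : Finset (Fin n), DifferentiableAt ℝ (cutb T R) x := fun T =>
    (cutb_contDiff T R).differentiable (by norm_num) x
  unfold cut
  have d2 : DifferentiableAt ℝ (fun y => cutb {p} R y * cutb {q} R y) x := (d1 _).mul (d1 _)
  rw [pd_mul (d1 S) d2, pd_mul (d1 _) (d1 _)]
  ring

lemma pd_cut_bound {C : ℝ} (hC : ∀ t, |deriv th t| ≤ C) (hR : 0 < R) :
    |pd i (cut S p q R) x| ≤ 9 * C / R := by
  have hC0 : 0 ≤ C := (abs_nonneg _).trans (hC 0)
  have h0 : 0 ≤ 3 * C / R := by positivity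
  rw [pd_cut]
  have b1 : ∀ T : Finset (Fin n), |pd i (cutb T R) x| ≤ 3 * C / R := fun T =>
    pd_cutb_bound hC T hR
  have b2 : ∀ T : Finset (Fin n), |cutb T R x| ≤ 1 := fun T => by
    rw [abs_of_nonneg (cutb_nonneg _ _ _)]; exact cutb_le_one _ _ _
  have t1 : |pd i (cutb S R) x * (cutb {p} R x * cutb {q} R x)| ≤ 3 * C / R := by
    rw [abs_mul, abs_mul]
    calc |pd i (cutb S R) x| * (|cutb {p} R x| * |cutb {q} R x|) ≤ (3 * C / R) * (1 * 1) := by
          gcongr
          · exact b1 _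
          · exact b2 _
          · exact b2 _
      _ = _ := by ring
  have t2 : |pd i (cutb {p} R) x * cutb {q} R x| ≤ 3 * C / R := by
    rw [abs_mul]
    calc |pd i (cutb {p} R) x| * |cutb {q} R x| ≤ (3 * C / R) * 1 := by
          gcongr
          · exact b1 _
          · exact b2 _
      _ = _ := by ring
  have t3 : |cutb {p} R x * pd i (cutb {q} R) x| ≤ 3 * C / R := by
    rw [abs_mul]
    calc |cutb {p} R x| * |pd i (cutb {q} R) x| ≤ 1 * (3 * C / R) := by
          gcongr
          · exact b2 _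
          · exact b1 _
      _ = _ := by ring
  have t4 : |cutb S R x * (pd i (cutb {p} R) x * cutb {q} R x
      + cutb {p} R x * pd i (cutb {q} R) x)| ≤ 3 * C / R + 3 * C / R := by
    rw [abs_mul]
    calc _ ≤ 1 * (3 * C / R + 3 * C / R) := by
          gcongr
          · exact b2 _
          · exact (abs_add_le _ _).trans (add_le_add t2 t3)
      _ = _ := by ring
  calc _ ≤ 3 * C / R + (3 * C / R + 3 * C / R) := (abs_add_le _ _).trans (add_le_add t1 t4)
    _ = 9 * C / R := by ring

lemma pd_cut_eq_zero (hS : ∀ i : Fin n, i ∈ S ∨ i = p ∨ i = q) (hR : 0 < R)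
    (hx : x ∉ box n (2 * R)) : pd i (cut S p q R) x = 0 := by
  apply pd_eq_zero_of_notMem_tsupport
  intro h
  apply hx
  have : tsupport (cut S p q R) ⊆ box n (2 * R) := by
    apply closure_minimal _ (isCompact_box _).isClosed
    intro y hy
    by_contra hy'
    exact hy (cut_eq_zero hS hR hy')
  exact this h

lemma cut_rot (hp : p ∉ S) (hq : q ∉ S) {j k : Fin n} (hj : j ∈ S) (hk : k ∈ S) :
    x j * pd k (cut S p q R) x = x k * pd j (cut S p q R) x := by
  have hjp : j ∉ ({p} : Finset (Fin n)) := by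
    rw [Finset.mem_singleton]; rintro rfl; exact hp hj
  have hjq : j ∉ ({q} : Finset (Fin n)) := by
    rw [Finset.mem_singleton]; rintro rfl; exact hq hj
  have hkp : k ∉ ({p} : Finset (Fin n)) := by
    rw [Finset.mem_singleton]; rintro rfl; exact hp hk
  have hkq : k ∉ ({q} : Finset (Fin n)) := by
    rw [Finset.mem_singleton]; rintro rfl; exact hq hk
  rw [pd_cut, pd_cut]
  simp only [pd_cutb, if_pos hj, if_pos hk, if_neg hjp, if_neg hjq, if_neg hkp, if_neg hkq]
  ring

end Vale.Agent.P134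
end
end

section

section

open MeasureTheory Filter Topology

namespace Vale.Agent.P134

variable {n : ℕ} {u V φ ψ η ξ : (Fin n → ℝ) → ℝ} {x : Fin n → ℝ} {i j : Fin n}
  {S : Finset (Fin n)} {p q : Fin n}

/-- Infinitesimal rotation invariance in the block `S`. -/
def RotInv (S : Finset (Fin n)) (u : (Fin n → ℝ) → ℝ) : Prop :=
  ∀ j ∈ S, ∀ k ∈ S, ∀ x, x j * pd k u x = x k * pd j u x

lemma lagrange_le (S : Finset (Fin n)) (a b : Fin n → ℝ) :
    ∑ j ∈ S, ∑ k ∈ S, (a j * b k - a k * b j) ^ 2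
      ≤ 2 * ((∑ j ∈ S, a j ^ 2) * (∑ k ∈ S, b k ^ 2)) := by
  have h1 : ∑ j ∈ S, ∑ k ∈ S, (a j * b k - a k * b j) ^ 2
      = 2 * ((∑ j ∈ S, a j ^ 2) * (∑ k ∈ S, b k ^ 2)) - 2 * (∑ j ∈ S, a j * b j) ^ 2 := by
    have e1 : ∑ j ∈ S, ∑ k ∈ S, (a j * b k - a k * b j) ^ 2
        = ∑ j ∈ S, ∑ k ∈ S, (a j ^ 2 * b k ^ 2 + b j ^ 2 * a k ^ 2
          - 2 * ((a j * b j) * (a k * b k))) := by
      apply Finset.sum_congr rfl; intro j _
      apply Finset.sum_congr rfl; intro k _
      ring
    rw [e1]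
    simp only [Finset.sum_sub_distrib, Finset.sum_add_distrib, ← Finset.mul_sum,
      ← Finset.sum_mul]
    ring
  rw [h1]
  nlinarith only []

lemma triple_sum (S : Finset (Fin n)) (a : Fin n → ℝ) :
    ∑ i ∈ S, ∑ j ∈ S, ∑ k ∈ S, ((if i = k then a j else 0) - (if i = j then a k else 0)) ^ 2
      = 2 * ((S.card : ℝ) - 1) * ∑ j ∈ S, a j ^ 2 := by
  have e1 : ∑ i ∈ S, ∑ j ∈ S, ∑ k ∈ S,
      ((if i = k then a j else 0) - (if i = j then a k else 0)) ^ 2
      = ∑ i ∈ S, ∑ j ∈ S, ∑ k ∈ S, ((if i = k then a j ^ 2 else 0) + (if i = j then a k ^ 2 else 0)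
        - 2 * (if i = k then (if i = j then a j * a k else 0) else 0)) := by
    apply Finset.sum_congr rfl; intro i _
    apply Finset.sum_congr rfl; intro j _
    apply Finset.sum_congr rfl; intro k _
    split_ifs <;> ring
  rw [e1]
  have e2 : ∀ i ∈ S, ∑ j ∈ S, ∑ k ∈ S, ((if i = k then a j ^ 2 else 0)
      + (if i = j then a k ^ 2 else 0) - 2 * (if i = k then (if i = j then a j * a k else 0) else 0))
      = ∑ j ∈ S, a j ^ 2 + ∑ j ∈ S, a j ^ 2 - 2 * a i ^ 2 := by
    intro i hi
    have e3 : ∀ j ∈ S, ∑ k ∈ S, ((if i = k then a j ^ 2 else 0)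
        + (if i = j then a k ^ 2 else 0) - 2 * (if i = k then (if i = j then a j * a k else 0) else 0))
        = a j ^ 2 + (if i = j then ∑ k ∈ S, a k ^ 2 else 0) - 2 * (if i = j then a i ^ 2 else 0) := by
      intro j hj
      rw [Finset.sum_sub_distrib, Finset.sum_add_distrib, ← Finset.mul_sum,
        Finset.sum_ite_eq S i, Finset.sum_ite_eq S i, if_pos hi, if_pos hi]
      congr 1
      · congr 1
        split_ifs
        · rfl
        · simp
      · split_ifs with h
        · subst h; ring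
        · rfl
    rw [Finset.sum_congr rfl e3, Finset.sum_sub_distrib, Finset.sum_add_distrib, ← Finset.mul_sum,
      Finset.sum_ite_eq S i, Finset.sum_ite_eq S i, if_pos hi, if_pos hi]
  rw [Finset.sum_congr rfl e2, Finset.sum_sub_distrib, Finset.sum_add_distrib, ← Finset.mul_sum,
    Finset.sum_const, nsmul_eq_mul]
  ring

/-- The pointwise gain coming from rotational symmetry. -/
lemma rot_pointwise (hu : ContDiff ℝ 2 u) (hq : q ∉ S) (hrot : RotInv S u)
    (hpos : ∀ x, 0 < pd q u x) (hη : ContDiff ℝ 1 η) (hηrot : RotInv S η) (x : Fin n → ℝ) :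
    ((S.card : ℝ) - 1) * ((∑ i ∈ S, pd i u x ^ 2) * η x ^ 2)
      ≤ rho S x * ∑ i ∈ S, ∑ j, pd q u x ^ 2 * (pd j (fun y => pd i u y * η y / pd q u y) x) ^ 2 := by
  have hne : pd q u x ≠ 0 := (hpos x).ne'
  have dψ : ∀ i, DifferentiableAt ℝ (pd i u) x := fun i =>
    (contDiff_pd_one hu).differentiable (by norm_num) x
  have dη : DifferentiableAt ℝ η x := hη.differentiable (by norm_num) x
  have dc : ∀ k : Fin n, DifferentiableAt ℝ (fun y : Fin n → ℝ => y k) x := fun k => by fun_prop
  -- differentiated symmetry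
  have hD : ∀ j ∈ S, ∀ k ∈ S, ∀ m : Fin n,
      x j * pd m (pd k u) x + pd k u x * (if j = m then 1 else 0)
        = x k * pd m (pd j u) x + pd j u x * (if k = m then 1 else 0) := by
    intro j hj k hk m
    have h1 : (fun y : Fin n → ℝ => y j * pd k u y) = fun y => y k * pd j u y := by
      ext y; exact hrot j hj k hk y
    have h2 : pd m (fun y : Fin n → ℝ => y j * pd k u y) x
        = pd m (fun y : Fin n → ℝ => y k * pd j u y) x := by rw [h1]
    rw [pd_mul (dc j) (dψ k), pd_mul (dc k) (dψ j), pd_coord, pd_coord] at h2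
    exact h2
  have hXψ : ∀ i ∈ S, ∀ j ∈ S, ∀ k ∈ S,
      x j * pd k (pd i u) x - x k * pd j (pd i u) x
        = (if i = k then pd j u x else 0) - (if i = j then pd k u x else 0) := by
    intro i _ j hj k hk
    have h := hD j hj k hk i
    rw [pd_comm hu (i := k) (j := i), pd_comm hu (i := j) (j := i)]
    have e1 : (if i = k then pd j u x else 0) = pd j u x * (if k = i then 1 else 0) := by
      by_cases h : i = k
      · simp [h]
      · simp [h, Ne.symm h]
    have e2 : (if i = j then pd k u x else 0) = pd k u x * (if j = i then 1 else 0) := by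
      by_cases h : i = j
      · simp [h]
      · simp [h, Ne.symm h]
    rw [e1, e2]
    linarith only [h]
  have hXφ : ∀ j ∈ S, ∀ k ∈ S, x j * pd k (pd q u) x - x k * pd j (pd q u) x = 0 := by
    intro j hj k hk
    have h := hD j hj k hk q
    have hjq : j ≠ q := fun h => hq (h ▸ hj)
    have hkq : k ≠ q := fun h => hq (h ▸ hk)
    rw [if_neg hjq, if_neg hkq] at h
    rw [pd_comm hu (i := k) (j := q), pd_comm hu (i := j) (j := q)]
    linarith
  have hpd : ∀ i j, pd j (fun y => pd i u y * η y / pd q u y) x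
      = (pd i u x * pd j η x + η x * pd j (pd i u) x) / pd q u x
        - pd i u x * η x * pd j (pd q u) x / pd q u x ^ 2 := by
    intro i j
    have d1 : DifferentiableAt ℝ (fun y => pd i u y * η y) x := (dψ i).mul dη
    rw [pd_div d1 (dψ q) hne, pd_mul (dψ i) dη]
  have hXF : ∀ i ∈ S, ∀ j ∈ S, ∀ k ∈ S,
      x j * pd k (fun y => pd i u y * η y / pd q u y) x
        - x k * pd j (fun y => pd i u y * η y / pd q u y) x
        = ((if i = k then pd j u x else 0) - (if i = j then pd k u x else 0)) * (η x / pd q u x) := by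
    intro i hi j hj k hk
    rw [hpd, hpd, ← hXψ i hi j hj k hk]
    have h1 := hXφ j hj k hk
    have h2 := hηrot j hj k hk x
    have h3 : x j * pd k (pd q u) x = x k * pd j (pd q u) x := by linarith
    field_simp
    linear_combination (pd q u x * pd i u x) * h2 - (pd i u x * η x) * h3
  have hsum : ∀ i ∈ S, ∑ j ∈ S, ∑ k ∈ S,
      (((if i = k then pd j u x else 0) - (if i = j then pd k u x else 0))) ^ 2
        * (η x / pd q u x) ^ 2
      ≤ 2 * (rho S x * ∑ k ∈ S, (pd k (fun y => pd i u y * η y / pd q u y) x) ^ 2) := by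
    intro i hi
    have h := lagrange_le S x (fun k => pd k (fun y => pd i u y * η y / pd q u y) x)
    refine le_trans (le_of_eq ?_) h
    apply Finset.sum_congr rfl; intro j hj
    apply Finset.sum_congr rfl; intro k hk
    rw [hXF i hi j hj k hk]; ring
  have htot := Finset.sum_le_sum hsum
  have e1 : ∑ i ∈ S, ∑ j ∈ S, ∑ k ∈ S,
      (((if i = k then pd j u x else 0) - (if i = j then pd k u x else 0))) ^ 2
        * (η x / pd q u x) ^ 2
      = (2 * ((S.card : ℝ) - 1) * ∑ j ∈ S, pd j u x ^ 2) * (η x / pd q u x) ^ 2 := by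
    rw [← triple_sum S (fun j => pd j u x)]
    simp only [Finset.sum_mul]
  rw [e1] at htot
  have hle : ∀ i, ∑ k ∈ S, (pd k (fun y => pd i u y * η y / pd q u y) x) ^ 2
      ≤ ∑ k, (pd k (fun y => pd i u y * η y / pd q u y) x) ^ 2 := fun i =>
    Finset.sum_le_sum_of_subset_of_nonneg (Finset.subset_univ _) fun _ _ _ => sq_nonneg _
  have h3 : ∑ i ∈ S, 2 * (rho S x * ∑ k ∈ S, (pd k (fun y => pd i u y * η y / pd q u y) x) ^ 2)
      ≤ 2 * (rho S x * ∑ i ∈ S, ∑ k, (pd k (fun y => pd i u y * η y / pd q u y) x) ^ 2) := by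
    rw [Finset.mul_sum, Finset.mul_sum]
    apply Finset.sum_le_sum; intro i _
    have := hle i
    have h0 := rho_nonneg S x
    (clear * - n S x i u η q this h0; nlinarith only [this, h0])
  have h4 := htot.trans h3
  have h5 : ∑ i ∈ S, ∑ j, pd q u x ^ 2 * (pd j (fun y => pd i u y * η y / pd q u y) x) ^ 2
      = pd q u x ^ 2 * ∑ i ∈ S, ∑ j, (pd j (fun y => pd i u y * η y / pd q u y) x) ^ 2 := by
    rw [Finset.mul_sum]
    apply Finset.sum_congr rfl; intro i _
    rw [Finset.mul_sum]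
  rw [h5]
  have hφ2 : 0 < pd q u x ^ 2 := by (clear * - hne; positivity)
  have h6 := mul_le_mul_of_nonneg_left h4 hφ2.le
  have h7 : pd q u x ^ 2 * ((2 * ((S.card : ℝ) - 1) * ∑ j ∈ S, pd j u x ^ 2)
      * (η x / pd q u x) ^ 2) = 2 * (((S.card : ℝ) - 1) * ((∑ i ∈ S, pd i u x ^ 2) * η x ^ 2)) := by
    (clear * - hne; field_simp)
  rw [h7] at h6
  (clear * - n S u x η q h6; linarith)

/-- Key inequality: stability gains a Hardy term from rotational symmetry. -/
theorem key_ineq (hu : ContDiff ℝ 2 u) (hV : ∀ i, WeakLin V (pd i u)) (hq : q ∉ S)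
    (hrot : RotInv S u) (hpos : ∀ x, 0 < pd q u x) (hη : ContDiff ℝ 1 η)
    (hc : HasCompactSupport η) (hηrot : RotInv S η) :
    ((S.card : ℝ) - 1) * ∫ x, (∑ i ∈ S, pd i u x ^ 2) * (η x ^ 2 / (1 + rho S x))
      ≤ ∫ x, (∑ i ∈ S, pd i u x ^ 2) * ∑ j, (pd j η x) ^ 2 := by
  have hφ : ContDiff ℝ 1 (pd q u) := contDiff_pd_one hu
  have hne : ∀ x, pd q u x ≠ 0 := fun x => (hpos x).ne'
  have hid : ∀ i, ∫ x, ∑ j, pd q u x ^ 2 * (pd j (fun y => pd i u y * η y / pd q u y) x) ^ 2
      = ∫ x, pd i u x ^ 2 * ∑ j, (pd j η x) ^ 2 := fun i =>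
    liouville_identity hφ (contDiff_pd_one hu) hpos (hV q) (hV i) hη hc
  have i3 : ∀ i, Integrable
      (fun x => ∑ j, pd q u x ^ 2 * (pd j (fun y => pd i u y * η y / pd q u y) x) ^ 2) := by
    intro i
    apply integrable_finsetSum
    intro j _
    have hσ : ContDiff ℝ 1 (fun y => pd i u y * η y / pd q u y) :=
      ((contDiff_pd_one hu).mul hη).div hφ hne
    have sσ : HasCompactSupport (fun y => pd i u y * η y / pd q u y) := by
      have h2 : HasCompactSupport (fun x => pd i u x * η x) := hc.mul_left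
      exact h2.mul_right (f' := fun x => (pd q u x)⁻¹)
    have hs : HasCompactSupport (fun x => (pd j (fun y => pd i u y * η y / pd q u y) x) ^ 2) :=
      hcs_sq (hasCompactSupport_pd sσ)
    exact ((hφ.continuous.pow 2).mul ((continuous_pd hσ).pow 2)).integrable_of_hasCompactSupport
      hs.mul_left
  have i4 : ∀ i, Integrable (fun x => pd i u x ^ 2 * ∑ j, (pd j η x) ^ 2) := by
    intro i
    have : (fun x => pd i u x ^ 2 * ∑ j, (pd j η x) ^ 2)
        = fun x => ∑ j, pd i u x ^ 2 * (pd j η x) ^ 2 := by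
      ext x; rw [Finset.mul_sum]
    rw [this]
    apply integrable_finsetSum
    intro j _
    exact (((contDiff_pd_one hu).continuous.pow 2).mul
      ((continuous_pd hη).pow 2)).integrable_of_hasCompactSupport
      (hcs_sq (hasCompactSupport_pd hc)).mul_left
  have e1 : ∫ x, (∑ i ∈ S, pd i u x ^ 2) * ∑ j, (pd j η x) ^ 2
      = ∑ i ∈ S, ∫ x, pd i u x ^ 2 * ∑ j, (pd j η x) ^ 2 := by
    rw [← integral_finsetSum _ (fun i _ => i4 i)]
    congr 1; ext x; rw [Finset.sum_mul]
  rw [e1, ← Finset.sum_congr rfl (fun i _ => hid i), ← integral_finsetSum _ (fun i _ => i3 i),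
    ← integral_const_mul]
  apply integral_mono_of_nonneg
  · by_cases hcard : 1 ≤ S.card
    · filter_upwards with x
      have h1 : (0:ℝ) ≤ (S.card : ℝ) - 1 := by
        have : (1:ℝ) ≤ S.card := by exact_mod_cast hcard
        linarith only [this]
      have h2 : 0 < 1 + rho S x := by linarith only [rho_nonneg S x]
      have h3 : 0 ≤ ∑ i ∈ S, pd i u x ^ 2 := Finset.sum_nonneg fun _ _ => sq_nonneg _
      simp only [Pi.zero_apply]
      (clear * - h1 h2; positivity)
    · have : S = ∅ := by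
        rw [← Finset.card_eq_zero]; omega
      subst this
      filter_upwards with x
      simp
  · exact integrable_finsetSum _ fun i _ => i3 i
  · filter_upwards with x
    have h := rot_pointwise hu hq hrot hpos hη hηrot x
    have h2 : 0 < 1 + rho S x := by linarith only [rho_nonneg S x]
    have h3 : 0 ≤ ∑ i ∈ S, ∑ j,
        pd q u x ^ 2 * (pd j (fun y => pd i u y * η y / pd q u y) x) ^ 2 :=
      Finset.sum_nonneg fun _ _ => Finset.sum_nonneg fun _ _ => by (clear * -; positivity)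
    have h4 : ((S.card : ℝ) - 1) * ((∑ i ∈ S, pd i u x ^ 2) * (η x ^ 2 / (1 + rho S x)))
        = (((S.card : ℝ) - 1) * ((∑ i ∈ S, pd i u x ^ 2) * η x ^ 2)) / (1 + rho S x) := by
      ring
    rw [h4, div_le_iff₀ h2]
    (clear * - n S u x η q h h3; linarith)

end Vale.Agent.P134
end
end

section

section

open MeasureTheory Filter Topology

namespace Vale.Agent.P134

variable {n : ℕ} {u V φ ψ η ξ : (Fin n → ℝ) → ℝ} {x : Fin n → ℝ} {i j : Fin n}
  {S : Finset (Fin n)} {p q : Fin n}

/-- The weight `(1 + |x_S|^2)^(-α/2)`. -/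
noncomputable def wt (S : Finset (Fin n)) (α : ℝ) (x : Fin n → ℝ) : ℝ :=
  (1 + rho S x) ^ (-(α / 2))

lemma one_add_rho_pos (S : Finset (Fin n)) (x : Fin n → ℝ) : 0 < 1 + rho S x := by
  linarith [rho_nonneg S x]

lemma wt_contDiff (S : Finset (Fin n)) (α : ℝ) : ContDiff ℝ 1 (wt S α) := by
  unfold wt
  exact (contDiff_const.add (rho_contDiff S)).rpow_const_of_ne
    (fun x => (one_add_rho_pos S x).ne')

lemma wt_pos (S : Finset (Fin n)) (α : ℝ) (x) : 0 < wt S α x :=
  Real.rpow_pos_of_pos (one_add_rho_pos S x) _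

lemma pd_wt (S : Finset (Fin n)) (α : ℝ) (x : Fin n → ℝ) (j : Fin n) :
    pd j (wt S α) x = -α * wt S α x / (1 + rho S x) * (if j ∈ S then x j else 0) := by
  have hpos := one_add_rho_pos S x
  have h1 : DifferentiableAt ℝ (fun y => 1 + rho S y) x := by
    have := (rho_contDiff (k := 1) S).differentiable (by norm_num) x
    fun_prop
  unfold wt
  have h2 : DifferentiableAt ℝ (fun t : ℝ => t ^ (-(α / 2))) (1 + rho S x) :=
    (Real.hasDerivAt_rpow_const (Or.inl hpos.ne')).differentiableAt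
  rw [pd_comp (h := fun t : ℝ => t ^ (-(α / 2))) h2 h1,
    (Real.hasDerivAt_rpow_const (Or.inl hpos.ne')).deriv,
    pd_add (differentiableAt_const _) ((rho_contDiff (k := 1) S).differentiable (by norm_num) x),
    pd_const, pd_rho, Real.rpow_sub_one hpos.ne']
  split_ifs
  · field_simp; ring
  · simp only [neg_mul, add_zero, mul_zero]

lemma sum_pd_wt_sq (S : Finset (Fin n)) (α : ℝ) (x : Fin n → ℝ) :
    ∑ j, pd j (wt S α) x ^ 2 ≤ α ^ 2 * (wt S α x ^ 2 / (1 + rho S x)) := by
  have hpos := one_add_rho_pos S x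
  have h1 : ∑ j, pd j (wt S α) x ^ 2 = (-α * wt S α x / (1 + rho S x)) ^ 2 * rho S x := by
    simp_rw [pd_wt, mul_pow]
    rw [← Finset.mul_sum]
    congr 1
    unfold rho
    rw [← Finset.sum_filter_add_sum_filter_not Finset.univ (fun j => j ∈ S)]
    have e1 : ∑ j ∈ Finset.univ.filter (fun j => j ∈ S), (if j ∈ S then x j else 0) ^ 2
        = ∑ i ∈ S, x i ^ 2 := by
      rw [Finset.filter_mem_eq_inter, Finset.univ_inter]
      apply Finset.sum_congr rfl
      intro j hj; rw [if_pos hj]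
    have e2 : ∑ j ∈ Finset.univ.filter (fun j => ¬ j ∈ S), (if j ∈ S then x j else 0) ^ 2 = 0 := by
      apply Finset.sum_eq_zero
      intro j hj
      rw [Finset.mem_filter] at hj
      rw [if_neg hj.2]; norm_num
    rw [e1, e2, add_zero]
  rw [h1]
  have h2 : (-α * wt S α x / (1 + rho S x)) ^ 2 * rho S x
      = α ^ 2 * (wt S α x ^ 2 / (1 + rho S x)) * (rho S x / (1 + rho S x)) := by
    field_simp
  rw [h2]
  have h3 : rho S x / (1 + rho S x) ≤ 1 := by
    rw [div_le_one hpos]; linarith only []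
  have h4 : 0 ≤ α ^ 2 * (wt S α x ^ 2 / (1 + rho S x)) := by (clear * - hpos; positivity)
  nlinarith only [h3, h4]

/-- The test function. -/
noncomputable def tst (S : Finset (Fin n)) (p q : Fin n) (α R : ℝ) (x : Fin n → ℝ) : ℝ :=
  wt S α x * cut S p q R x ^ 3

lemma tst_contDiff {α R : ℝ} : ContDiff ℝ 1 (tst S p q α R) :=
  (wt_contDiff S α).mul (cut_contDiff.pow 3)

lemma tst_hasCompactSupport (hS : ∀ i : Fin n, i ∈ S ∨ i = p ∨ i = q) {α R : ℝ} (hR : 0 < R) :
    HasCompactSupport (tst S p q α R) := by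
  have : HasCompactSupport (fun x => cut S p q R x ^ 3) :=
    (cut_hasCompactSupport hS hR).comp_left (g := fun t => t ^ 3) (by simp)
  exact this.mul_left

lemma pd_tst {α R : ℝ} (j : Fin n) : pd j (tst S p q α R) x
    = wt S α x * (3 * cut S p q R x ^ 2 * pd j (cut S p q R) x)
      + cut S p q R x ^ 3 * pd j (wt S α) x := by
  have d1 : DifferentiableAt ℝ (wt S α) x := (wt_contDiff S α).differentiable (by norm_num) x
  have d2 : DifferentiableAt ℝ (cut S p q R) x := cut_contDiff.differentiable (by norm_num) x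
  have d3 : DifferentiableAt ℝ (fun y => cut S p q R y ^ 3) x := d2.pow 3
  unfold tst
  rw [pd_mul d1 d3, pd_comp (h := fun t : ℝ => t ^ 3) (by fun_prop) d2]
  simp only [differentiableAt_fun_id, deriv_fun_pow, Nat.cast_ofNat, Nat.add_one_sub_one, deriv_id'', mul_one]

lemma tst_rot {α R : ℝ} (hp : p ∉ S) (hq : q ∉ S) : RotInv S (tst S p q α R) := by
  intro j hj k hk x
  have h1 := cut_rot (x := x) (R := R) hp hq hj hk
  rw [pd_tst, pd_tst, pd_wt, pd_wt, if_pos hj, if_pos hk]
  linear_combination (wt S α x * (3 * cut S p q R x ^ 2)) * h1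

lemma tst_pointwise (hS : ∀ i : Fin n, i ∈ S ∨ i = p ∨ i = q) {α κ : ℝ} (hα0 : 0 < α)
    (hα2 : α ≤ 2) (hκ : α ^ 2 < κ) :
    ∃ c : ℝ, 0 < c ∧ ∃ M : ℝ, 0 ≤ M ∧ ∀ R : ℝ, 1 ≤ R → ∀ x,
      ∑ j, pd j (tst S p q α R) x ^ 2
        ≤ (κ - c) * (tst S p q α R x ^ 2 / (1 + rho S x))
          + M * R ^ (-(2 * α + 2)) * (box n (2 * R)).indicator (fun _ => 1) x := by
  obtain ⟨C, hC1, hC⟩ := exists_th_bound
  set c : ℝ := (κ - α ^ 2) / 3 with hc
  have hc0 : 0 < c := by rw [hc]; linarith only [hκ]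
  set δ : ℝ := c / α ^ 2 with hδ
  have hδ0 : 0 < δ := by positivity
  set M0 : ℝ := (1 + 1 / δ) * (9 * (n * (9 * C) ^ 2)) with hM0
  have hM00 : 0 ≤ M0 := by (clear * - hκ hα0 hC1; positivity)
  refine ⟨c, hc0, M0 * (M0 / c) ^ α, by (clear * - hκ hα0 hC1; positivity), ?_⟩
  intro R hR x
  have hR0 : 0 < R := by linarith only [hR]
  have hpos := one_add_rho_pos S x
  set W := wt S α x with hW
  have hW0 : 0 < W := wt_pos S α x
  set χ := cut S p q R x with hχ
  have hχ0 : 0 ≤ χ := cut_nonneg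
  have hχ1 : χ ≤ 1 := cut_le_one
  by_cases hx : x ∈ box n (2 * R)
  · rw [Set.indicator_of_mem hx]
    -- the two pieces
    have e1 : ∀ j, pd j (tst S p q α R) x ^ 2
        ≤ (1 + δ) * (χ ^ 6 * pd j (wt S α) x ^ 2)
          + (1 + 1 / δ) * (9 * (W ^ 2 * χ ^ 4 * pd j (cut S p q R) x ^ 2)) := by
      intro j
      rw [pd_tst]
      set a := χ ^ 3 * pd j (wt S α) x
      set b := W * (3 * χ ^ 2 * pd j (cut S p q R) x)
      have h1 : (b + a) ^ 2 ≤ (1 + δ) * a ^ 2 + (1 + 1 / δ) * b ^ 2 := by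
        have h2 : (1 + δ) * a ^ 2 + (1 + 1 / δ) * b ^ 2 - (b + a) ^ 2 = (δ * a - b) ^ 2 / δ := by
          field_simp; ring
        have h3 : 0 ≤ (δ * a - b) ^ 2 / δ := by (clear * - hκ hα0; positivity)
        (clear * - b a δ κ α χ n j S x W p q R c h2 h3; linarith)
      calc (b + a) ^ 2 ≤ (1 + δ) * a ^ 2 + (1 + 1 / δ) * b ^ 2 := h1
        _ = _ := by simp only [a, b]; ring
    have e2 : ∑ j, pd j (tst S p q α R) x ^ 2
        ≤ (1 + δ) * (χ ^ 6 * ∑ j, pd j (wt S α) x ^ 2)
          + (1 + 1 / δ) * (9 * (W ^ 2 * χ ^ 4 * ∑ j, pd j (cut S p q R) x ^ 2)) := by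
      refine (Finset.sum_le_sum fun j _ => e1 j).trans (le_of_eq ?_)
      rw [Finset.sum_add_distrib]
      simp only [Finset.mul_sum]
    have e3 : ∑ j, pd j (cut S p q R) x ^ 2 ≤ n * (9 * C) ^ 2 / R ^ 2 := by
      have : ∀ j ∈ (Finset.univ : Finset (Fin n)), pd j (cut S p q R) x ^ 2 ≤ (9 * C / R) ^ 2 := by
        intro j _
        apply sq_le_sq'
        · exact (abs_le.mp (pd_cut_bound hC hR0)).1
        · exact (abs_le.mp (pd_cut_bound hC hR0)).2
      refine (Finset.sum_le_sum this).trans (le_of_eq ?_)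
      rw [Finset.sum_const, Finset.card_univ, Fintype.card_fin, nsmul_eq_mul]
      (clear * - hR hC1; field_simp)
    have e4 : (1 + δ) * (χ ^ 6 * ∑ j, pd j (wt S α) x ^ 2)
        ≤ (κ - 2 * c) * (χ ^ 6 * (W ^ 2 / (1 + rho S x))) := by
      have h1 := sum_pd_wt_sq S α x
      have h2 : (1 + δ) * α ^ 2 = κ - 2 * c := by
        rw [hδ]; field_simp; rw [hc]; ring
      have h3 : 0 ≤ χ ^ 6 := by (clear * -; positivity)
      calc (1 + δ) * (χ ^ 6 * ∑ j, pd j (wt S α) x ^ 2)
          ≤ (1 + δ) * (χ ^ 6 * (α ^ 2 * (wt S α x ^ 2 / (1 + rho S x)))) := by (clear * - h1 hκ hα0; gcongr)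
        _ = ((1 + δ) * α ^ 2) * (χ ^ 6 * (W ^ 2 / (1 + rho S x))) := by rw [← hW]; ring
        _ = _ := by rw [h2]
    have e5 : (1 + 1 / δ) * (9 * (W ^ 2 * χ ^ 4 * ∑ j, pd j (cut S p q R) x ^ 2))
        ≤ M0 * (R ^ 2)⁻¹ * (W ^ 2 * χ ^ 4) := by
      calc (1 + 1 / δ) * (9 * (W ^ 2 * χ ^ 4 * ∑ j, pd j (cut S p q R) x ^ 2))
          ≤ (1 + 1 / δ) * (9 * (W ^ 2 * χ ^ 4 * (n * (9 * C) ^ 2 / R ^ 2))) := by (clear * - e3 hW0 hκ hα0; gcongr)
        _ = _ := by rw [hM0]; ring
    -- Young
    have hWA : W ^ 2 = (1 + rho S x) ^ (-α) := by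
      rw [hW]; unfold wt
      rw [← Real.rpow_natCast, ← Real.rpow_mul hpos.le]
      congr 1; push_cast; ring
    have e6 : M0 * (R ^ 2)⁻¹ * (W ^ 2 * χ ^ 4)
        ≤ c * (χ ^ 6 * (W ^ 2 / (1 + rho S x))) + M0 * (M0 / c) ^ α * R ^ (-(2 * α + 2)) := by
      by_cases hcase : M0 * (R ^ 2)⁻¹ ≤ c * (χ ^ 2 / (1 + rho S x))
      · have h1 : M0 * (R ^ 2)⁻¹ * (W ^ 2 * χ ^ 4)
            ≤ c * (χ ^ 2 / (1 + rho S x)) * (W ^ 2 * χ ^ 4) := by (clear * - hcase hW0; gcongr)
        have h2 : 0 ≤ M0 * (M0 / c) ^ α * R ^ (-(2 * α + 2)) := by (clear * - hκ hα0 hC1 hR; positivity)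
        calc M0 * (R ^ 2)⁻¹ * (W ^ 2 * χ ^ 4)
            ≤ c * (χ ^ 2 / (1 + rho S x)) * (W ^ 2 * χ ^ 4) := h1
          _ = c * (χ ^ 6 * (W ^ 2 / (1 + rho S x))) := by ring
          _ ≤ _ := by (clear * - c χ W n S x M0 α R κ C δ h2; linarith)
      · push Not at hcase
        have h0 : 0 ≤ c * (χ ^ 6 * (W ^ 2 / (1 + rho S x))) := by (clear * - hκ hW0 hpos; positivity)
        have h1 : χ ^ 2 / (1 + rho S x) ≤ (M0 / c) * (R ^ 2)⁻¹ := by
          have h5 : c * (χ ^ 2 / (1 + rho S x)) ≤ M0 * (R ^ 2)⁻¹ := hcase.le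
          have h6 : χ ^ 2 / (1 + rho S x) ≤ (M0 * (R ^ 2)⁻¹) / c := by
            rw [le_div_iff₀ hc0]; (clear * - χ n S x c M0 R κ α C δ hcase; linarith)
          calc _ ≤ _ := h6
            _ = _ := by ring
        have h2 : (χ ^ 2 / (1 + rho S x)) ^ α ≤ ((M0 / c) * (R ^ 2)⁻¹) ^ α :=
          Real.rpow_le_rpow (by (clear * - hpos; positivity)) h1 hα0.le
        have h3 : W ^ 2 * χ ^ 4 ≤ (χ ^ 2 / (1 + rho S x)) ^ α := by
          rw [Real.div_rpow (by (clear * -; positivity)) hpos.le, hWA, Real.rpow_neg hpos.le, div_eq_mul_inv,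
            mul_comm ((χ ^ 2) ^ α)]
          apply mul_le_mul_of_nonneg_left _ (by (clear * - hpos; positivity))
          have h7 : (χ ^ 2) ^ (2:ℝ) ≤ (χ ^ 2) ^ α :=
            Real.rpow_le_rpow_of_exponent_ge' (by (clear * -; positivity)) (pow_le_one₀ hχ0 hχ1) hα0.le hα2
          have h8 : (χ ^ 2) ^ (2:ℝ) = χ ^ 4 := by
            rw [show (2:ℝ) = ((2:ℕ):ℝ) by norm_num, Real.rpow_natCast]; ring
          rw [← h8]; exact h7
        have h4 : ((M0 / c) * (R ^ 2)⁻¹) ^ α = (M0 / c) ^ α * R ^ (-(2 * α)) := by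
          rw [Real.mul_rpow (by (clear * - hκ hα0 hC1; positivity)) (by positivity)]
          congr 1
          rw [Real.inv_rpow (by positivity), ← Real.rpow_natCast, ← Real.rpow_mul hR0.le,
            ← Real.rpow_neg hR0.le]
          norm_num
        have h9 : R ^ (-(2 * α + 2)) = R ^ (-(2 * α)) * (R ^ 2)⁻¹ := by
          rw [show -(2 * α + 2) = -(2 * α) + (-2) by ring, Real.rpow_add hR0]
          congr 1
          rw [Real.rpow_neg hR0.le]; norm_num
        calc M0 * (R ^ 2)⁻¹ * (W ^ 2 * χ ^ 4)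
            ≤ M0 * (R ^ 2)⁻¹ * ((M0 / c) ^ α * R ^ (-(2 * α))) := by
              rw [← h4]
              have : 0 ≤ M0 * (R ^ 2)⁻¹ := by (clear * - hκ hα0 hC1 hR; positivity)
              exact mul_le_mul_of_nonneg_left (h3.trans h2) this
          _ = M0 * (M0 / c) ^ α * R ^ (-(2 * α + 2)) := by rw [h9]; ring
          _ ≤ _ := by (clear * - M0 c α R χ W n S x κ C δ h0; linarith)
    have e7 : tst S p q α R x ^ 2 = W ^ 2 * χ ^ 6 := by unfold tst; ring
    rw [e7]
    calc ∑ j, pd j (tst S p q α R) x ^ 2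
        ≤ (κ - 2 * c) * (χ ^ 6 * (W ^ 2 / (1 + rho S x)))
          + M0 * (R ^ 2)⁻¹ * (W ^ 2 * χ ^ 4) := e2.trans (add_le_add e4 e5)
      _ ≤ (κ - 2 * c) * (χ ^ 6 * (W ^ 2 / (1 + rho S x)))
          + (c * (χ ^ 6 * (W ^ 2 / (1 + rho S x))) + M0 * (M0 / c) ^ α * R ^ (-(2 * α + 2))) := by
          (clear * - κ c χ W n S x M0 R α C δ e6; linarith)
      _ = _ := by ring
  · rw [Set.indicator_of_notMem hx]
    have h0 : χ = 0 := cut_eq_zero hS hR0 hx
    have h1 : ∀ j, pd j (tst S p q α R) x = 0 := by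
      intro j
      rw [pd_tst, ← hχ, h0]; ring
    have h2 : tst S p q α R x = 0 := by
      unfold tst; rw [← hχ, h0]; ring
    simp only [h1, ne_eq, OfNat.ofNat_ne_zero, not_false_eq_true, zero_pow, Finset.sum_const_zero, h2, zero_div, mul_zero, neg_add_rev, add_zero, Std.le_refl]

/-- Growth estimate coming from the key inequality. -/
theorem hardy_growth (hS : ∀ i : Fin n, i ∈ S ∨ i = p ∨ i = q) (hp : p ∉ S) (hq : q ∉ S)
    {α : ℝ} (hα0 : 0 < α) (hα2 : α ≤ 2) (hκ : α ^ 2 < (S.card : ℝ) - 1) :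
    ∃ c : ℝ, 0 < c ∧ ∃ M : ℝ, 0 ≤ M ∧ ∀ (u V : (Fin n → ℝ) → ℝ), ContDiff ℝ 2 u →
      (∀ i, WeakLin V (pd i u)) → RotInv S u → (∀ x, 0 < pd q u x) → ∀ R : ℝ, 1 ≤ R →
      c * ∫ x, (∑ i ∈ S, pd i u x ^ 2) * (tst S p q α R x ^ 2 / (1 + rho S x))
        ≤ M * R ^ (-(2 * α + 2)) * ∫ x in box n (2 * R), ∑ i ∈ S, pd i u x ^ 2 := by
  obtain ⟨c, hc, M, hM, hpt⟩ := tst_pointwise (S := S) (p := p) (q := q) hS hα0 hα2 hκ
  refine ⟨c, hc, M, hM, ?_⟩
  intro u V hu hV hrot hpos R hR
  have hR0 : 0 < R := by linarith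
  have key := key_ineq (η := tst S p q α R) hu hV hq hrot hpos tst_contDiff
    (tst_hasCompactSupport hS hR0) (tst_rot hp hq)
  set G : (Fin n → ℝ) → ℝ := fun x => ∑ i ∈ S, pd i u x ^ 2 with hG
  have hGc : Continuous G := continuous_finsetSum _ fun i _ =>
    (contDiff_pd_one hu).continuous.pow 2
  have hG0 : ∀ x, 0 ≤ G x := fun x => Finset.sum_nonneg fun _ _ => sq_nonneg _
  have hs2 : HasCompactSupport (fun x => tst S p q α R x ^ 2) :=
    hcs_sq (tst_hasCompactSupport hS hR0)
  have i1 : Integrable (fun x => G x * (tst S p q α R x ^ 2 / (1 + rho S x))) := by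
    apply Continuous.integrable_of_hasCompactSupport
    · refine hGc.mul ((tst_contDiff.continuous.pow 2).div ?_ fun x => (one_add_rho_pos S x).ne')
      exact continuous_const.add (rho_contDiff (k := 0) S).continuous
    · have : HasCompactSupport (fun x => tst S p q α R x ^ 2 / (1 + rho S x)) :=
        hs2.mul_right (f' := fun x => (1 + rho S x)⁻¹)
      exact this.mul_left
  have i2 : Integrable (fun x => G x * ∑ j, pd j (tst S p q α R) x ^ 2) := by
    have : (fun x => G x * ∑ j, pd j (tst S p q α R) x ^ 2)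
        = fun x => ∑ j, G x * pd j (tst S p q α R) x ^ 2 := by
      ext x; rw [Finset.mul_sum]
    rw [this]
    apply integrable_finsetSum
    intro j _
    exact (hGc.mul ((continuous_pd tst_contDiff).pow 2)).integrable_of_hasCompactSupport
      (hcs_sq (hasCompactSupport_pd (tst_hasCompactSupport hS hR0))).mul_left
  have hmeas : MeasurableSet (box n (2 * R)) := measurableSet_Icc
  have i3 : Integrable ((box n (2 * R)).indicator G) :=
    (hGc.continuousOn.integrableOn_compact (isCompact_box _)).integrable_indicator hmeas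
  have hle : ∫ x, G x * ∑ j, pd j (tst S p q α R) x ^ 2
      ≤ (((S.card : ℝ) - 1) - c) * (∫ x, G x * (tst S p q α R x ^ 2 / (1 + rho S x)))
        + M * R ^ (-(2 * α + 2)) * (∫ x in box n (2 * R), G x) := by
    rw [← integral_indicator hmeas, ← integral_const_mul, ← integral_const_mul,
      ← integral_add (i1.const_mul _) (i3.const_mul _)]
    apply integral_mono i2 ((i1.const_mul _).add (i3.const_mul _))
    intro x
    have h := mul_le_mul_of_nonneg_left (hpt R hR x) (hG0 x)
    simp only [Pi.add_apply]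
    refine h.trans (le_of_eq ?_)
    by_cases hx : x ∈ box n (2 * R)
    · rw [Set.indicator_of_mem hx, Set.indicator_of_mem hx]; ring
    · rw [Set.indicator_of_notMem hx, Set.indicator_of_notMem hx]; ring
  (clear * - c n S u p q α R M G key hle; linarith)

end Vale.Agent.P134
end
end

section

section

open MeasureTheory Filter Topology

namespace Vale.Agent.P134

variable {n : ℕ} {u U V φ ψ η ξ χ : (Fin n → ℝ) → ℝ} {x : Fin n → ℝ} {i j : Fin n}
  {S : Finset (Fin n)} {p q : Fin n}

/-- Energy density. -/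
noncomputable def en (v : (Fin n → ℝ) → ℝ) (x : Fin n → ℝ) : ℝ :=
  (1 / 2) * ∑ j, pd j v x ^ 2 + (1 - v x ^ 2) ^ 2 / 4

lemma en_contDiff (hu : ContDiff ℝ 2 u) : ContDiff ℝ 1 (en u) := by
  unfold en
  have h1 : ∀ j, ContDiff ℝ 1 (pd j u) := fun j => contDiff_pd_one hu
  have h2 : ContDiff ℝ 1 u := hu.of_le (by norm_num)
  have h3 : ContDiff ℝ 1 (fun x => ∑ j, pd j u x ^ 2) := ContDiff.sum fun j _ => (h1 j).pow 2
  exact (contDiff_const.mul h3).add (((contDiff_const.sub (h2.pow 2)).pow 2).div_const 4)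

lemma en_nonneg (u : (Fin n → ℝ) → ℝ) (x) : 0 ≤ en u x := by
  unfold en
  have : 0 ≤ ∑ j, pd j u x ^ 2 := Finset.sum_nonneg fun _ _ => sq_nonneg _
  (clear * -; positivity)

lemma pd_en (hu : ContDiff ℝ 2 u) (q : Fin n) : pd q (en u) x
    = ∑ j, pd j u x * pd q (pd j u) x + (u x ^ 3 - u x) * pd q u x := by
  have du : DifferentiableAt ℝ u x := hu.differentiable (by norm_num) x
  have d1 : ∀ j, DifferentiableAt ℝ (pd j u) x := fun j =>
    (contDiff_pd_one hu).differentiable (by norm_num) x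
  have d2 : ∀ j, DifferentiableAt ℝ (fun y => pd j u y ^ 2) x := fun j => (d1 j).pow 2
  have d3 : DifferentiableAt ℝ (fun y => ∑ j, pd j u y ^ 2) x :=
    DifferentiableAt.fun_sum fun j _ => d2 j
  have d4 : DifferentiableAt ℝ (fun y => (1 / 2 : ℝ) * ∑ j, pd j u y ^ 2) x := d3.const_mul _
  have d5 : DifferentiableAt ℝ (fun y => (1 - u y ^ 2) ^ 2 / 4) x := by fun_prop
  unfold en
  rw [pd_add d4 d5, pd_mul (differentiableAt_const _) d3, pd_const,
    pd_sum Finset.univ (F := fun j y => pd j u y ^ 2) (fun j _ => d2 j)]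
  have e1 : ∀ j, pd q (fun y => pd j u y ^ 2) x = 2 * pd j u x * pd q (pd j u) x := fun j =>
    pd_sq (d1 j)
  simp_rw [e1]
  have e2 : pd q (fun y => (1 - u y ^ 2) ^ 2 / 4) x = (u x ^ 3 - u x) * pd q u x := by
    rw [show (fun y => (1 - u y ^ 2) ^ 2 / 4) = fun y => (fun t : ℝ => (1 - t ^ 2) ^ 2 / 4) (u y)
      from rfl, pd_comp (h := fun t : ℝ => (1 - t ^ 2) ^ 2 / 4) (by fun_prop) du]
    congr 1
    have h1 : HasDerivAt (fun t : ℝ => 1 - t ^ 2) (-(2 * u x)) (u x) := by
      simpa only [Nat.cast_ofNat, Nat.add_one_sub_one, pow_one] using (hasDerivAt_pow 2 (u x)).const_sub 1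
    have h2 : HasDerivAt (fun t : ℝ => (1 - t ^ 2) ^ 2 / 4)
        ((2 * (1 - u x ^ 2) * (-(2 * u x))) / 4) (u x) := by
      have := (h1.pow 2).div_const 4
      simpa only [mul_neg, Pi.pow_apply, Nat.cast_ofNat, Nat.add_one_sub_one, pow_one] using this
    rw [h2.deriv]; ring
  rw [e2, mul_zero, add_zero, Finset.mul_sum]
  congr 1
  apply Finset.sum_congr rfl; intro j _; ring

/-- Inner variation identity. -/
lemma integral_pd_en (hu : Sol u) (q : Fin n) (hχ : ContDiff ℝ 1 χ) (hc : HasCompactSupport χ) :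
    ∫ x, pd q (en u) x * χ x = - ∫ x, pd q u x * ∑ j, pd j u x * pd j χ x := by
  have c1 : ∀ j, ContDiff ℝ 1 (pd j u) := fun j => contDiff_pd_one hu.c2
  have cu : Continuous u := hu.c2.continuous
  have hF : ∀ j, ContDiff ℝ 1 (fun x => pd j u x * χ x) := fun j => (c1 j).mul hχ
  have hFs : ∀ j, HasCompactSupport (fun x => pd j u x * χ x) := fun j => hc.mul_left
  have e1 : ∀ j, ∫ x, (pd j u x * χ x) * pd j (pd q u) x
      = - ∫ x, pd j (fun x => pd j u x * χ x) x * pd q u x := by
    intro j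
    have := integral_mul_pd (i := j) (c1 q) (hF j) (hFs j)
    have h2 : ∫ x, (pd j u x * χ x) * pd j (pd q u) x = ∫ x, pd j (pd q u) x * (pd j u x * χ x) := by
      congr 1; ext x; ring
    have h3 : ∫ x, pd j (fun x => pd j u x * χ x) x * pd q u x
        = ∫ x, pd q u x * pd j (fun x => pd j u x * χ x) x := by
      congr 1; ext x; ring
    rw [h2, h3, this, neg_neg]
  have i1 : ∀ j, Integrable (fun x => (pd j u x * χ x) * pd j (pd q u) x) := fun j =>
    ((hF j).continuous.mul (continuous_pd (c1 q))).integrable_of_hasCompactSupport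
      (hFs j).mul_right
  have i2 : ∀ j, Integrable (fun x => pd j (fun x => pd j u x * χ x) x * pd q u x) := fun j =>
    ((continuous_pd (hF j)).mul (c1 q).continuous).integrable_of_hasCompactSupport
      (hasCompactSupport_pd (hFs j)).mul_right
  have i3 : Integrable (fun x => (u x ^ 3 - u x) * pd q u x * χ x) :=
    ((((cu.pow 3).sub cu).mul (c1 q).continuous).mul hχ.continuous).integrable_of_hasCompactSupport
      hc.mul_left
  have i4 : Integrable (fun x => pd q u x * ∑ j, pd j u x * pd j χ x) := by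
    have : (fun x => pd q u x * ∑ j, pd j u x * pd j χ x)
        = fun x => ∑ j, (pd q u x * pd j u x) * pd j χ x := by
      ext x; rw [Finset.mul_sum]
      apply Finset.sum_congr rfl; intro j _; ring
    rw [this]
    exact integrable_sum_mul (fun j => (c1 q).continuous.mul (c1 j).continuous)
      (fun j => continuous_pd hχ) (fun j => hasCompactSupport_pd hc)
  have e2 : ∫ x, pd q (en u) x * χ x
      = (∑ j, ∫ x, (pd j u x * χ x) * pd j (pd q u) x) + ∫ x, (u x ^ 3 - u x) * pd q u x * χ x := by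
    rw [← integral_finsetSum _ (fun j _ => i1 j),
      ← integral_add (integrable_finsetSum _ fun j _ => i1 j) i3]
    congr 1; ext x
    rw [pd_en hu.c2, add_mul, Finset.sum_mul]
    congr 1
    apply Finset.sum_congr rfl; intro j _
    rw [pd_comm hu.c2 (i := q) (j := j)]; ring
  rw [e2, Finset.sum_congr rfl (fun j _ => e1 j), Finset.sum_neg_distrib,
    ← integral_finsetSum _ (fun j _ => i2 j), neg_add_eq_sub, ← integral_sub i3
      (integrable_finsetSum _ fun j _ => i2 j), ← integral_neg]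
  congr 1; ext x
  have e3 : ∀ j, pd j (fun x => pd j u x * χ x) x = pd j u x * pd j χ x + χ x * pd j (pd j u) x :=
    fun j => pd_mul ((c1 j).differentiable (by norm_num) x) (hχ.differentiable (by norm_num) x)
  simp_rw [e3]
  rw [← Finset.sum_mul, Finset.sum_add_distrib, ← Finset.mul_sum, hu.eq]
  ring

theorem energy_comparison (hu : Sol u) {C : ℝ} (hC1 : ∀ x i, |pd i u x| ≤ C)
    (hC2 : ∀ x i j, |pd i (pd j u) x| ≤ C) (hpos : ∀ x, 0 < pd q u x) (hU : Sol U)
    (hlim : ∀ x, Tendsto (fun t : ℝ => u (x + t • Pi.single q 1)) atTop (𝓝 (U x)))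
    (hlim' : ∀ x i, Tendsto (fun t : ℝ => pd i u (x + t • Pi.single q 1)) atTop (𝓝 (pd i U x)))
    (hχ : ContDiff ℝ 1 χ) (hc : HasCompactSupport χ) (hχ0 : ∀ x, 0 ≤ χ x) :
    ∫ x, en u x * χ x ≤ (∫ x, en U x * χ x) + 2 * C * ∫ x, ∑ j, |pd j χ x| := by
  have hC0 : 0 ≤ C := (abs_nonneg _).trans (hC1 0 q)
  set e : Fin n → ℝ := Pi.single q 1 with he
  set D : (Fin n → ℝ) → ℝ := fun x => ∑ j, |pd j χ x| with hD
  have hDc : Continuous D := continuous_finsetSum _ fun j _ => (continuous_pd hχ).abs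
  have hDs : HasCompactSupport D := by
    have hs : ∀ j : Fin n, HasCompactSupport (fun x => |pd j χ x|) := fun j =>
      (hasCompactSupport_pd hc).comp_left (g := fun t => |t|) (by simp)
    apply HasCompactSupport.intro' hc.isCompact (isClosed_tsupport χ)
    intro x hx
    simp only [hD]
    apply Finset.sum_eq_zero; intro j _
    rw [pd_eq_zero_of_notMem_tsupport hx, abs_zero]
  have hD0 : ∀ x, 0 ≤ D x := fun x => Finset.sum_nonneg fun _ _ => abs_nonneg _
  have hcen : Continuous (en u) := (en_contDiff hu.c2).continuous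
  have hden : Differentiable ℝ (en u) := (en_contDiff hu.c2).differentiable (by norm_num)
  have hdu : Differentiable ℝ u := hu.c2.differentiable (by norm_num)
  have hcu : Continuous u := hu.c2.continuous
  set F : ℝ → (Fin n → ℝ) → ℝ := fun τ x => en u (x + τ • e) * χ x + C * (u (x + τ • e) * D x) with hF
  set F' : ℝ → (Fin n → ℝ) → ℝ := fun τ x =>
    pd q (en u) (x + τ • e) * χ x + C * (pd q u (x + τ • e) * D x) with hF'
  have hFc : ∀ τ, Continuous (F τ) := fun τ => by
    have h1 : Continuous fun x : Fin n → ℝ => x + τ • e := by fun_prop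
    exact ((hcen.comp h1).mul hχ.continuous).add (continuous_const.mul ((hcu.comp h1).mul hDc))
  have hFi : ∀ τ, Integrable (F τ) := fun τ => by
    apply (hFc τ).integrable_of_hasCompactSupport
    exact (hc.mul_left).add (hDs.mul_left.mul_left)
  have hF'c : ∀ τ, Continuous (F' τ) := fun τ => by
    have h1 : Continuous fun x : Fin n → ℝ => x + τ • e := by fun_prop
    exact (((continuous_pd (en_contDiff hu.c2)).comp h1).mul hχ.continuous).add
      (continuous_const.mul (((contDiff_pd_one hu.c2).continuous.comp h1).mul hDc))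
  -- bound for the derivative of the energy density
  have hKb : ∀ y, |pd q (en u) y| ≤ n * C ^ 2 + 2 * C := by
    intro y
    rw [pd_en hu.c2]
    have h1 : |∑ j, pd j u y * pd q (pd j u) y| ≤ n * C ^ 2 := by
      refine (Finset.abs_sum_le_sum_abs _ _).trans ?_
      have : ∀ j ∈ (Finset.univ : Finset (Fin n)), |pd j u y * pd q (pd j u) y| ≤ C ^ 2 := by
        intro j _
        rw [abs_mul, sq]
        exact mul_le_mul (hC1 _ _) (hC2 _ _ _) (abs_nonneg _) hC0
      refine (Finset.sum_le_sum this).trans (le_of_eq ?_)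
      simp only [Finset.sum_const, Finset.card_univ, Fintype.card_fin, nsmul_eq_mul]
    have h2 : |(u y ^ 3 - u y) * pd q u y| ≤ 2 * C := by
      rw [abs_mul]
      have hb := abs_le.mp (hu.bd y)
      have h3 : |u y ^ 3 - u y| ≤ 2 := by
        rw [abs_le]
        have : u y ^ 3 - u y = u y * (u y ^ 2 - 1) := by ring
        constructor <;> nlinarith only [hb, mul_nonneg           (by linarith : 0 ≤ 1 - u y) (by linarith : 0 ≤ 1 + u y)]
      exact mul_le_mul h3 (hC1 _ _) (abs_nonneg _) (by norm_num)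
    exact (abs_add_le _ _).trans (add_le_add h1 h2)
  have hder : ∀ τ, HasDerivAt (fun τ => ∫ x, F τ x) (∫ x, F' τ x) τ := by
    intro τ
    refine (hasDerivAt_integral_of_dominated_loc_of_deriv_le (μ := volume) (s := Set.univ)
      (F := F) (F' := F')
      (bound := fun x => (n * C ^ 2 + 2 * C) * χ x + C * (C * D x)) Filter.univ_mem
      (Eventually.of_forall fun τ => (hFc τ).aestronglyMeasurable) (hFi τ)
      (hF'c τ).aestronglyMeasurable ?_ ?_ ?_).2
    · filter_upwards with x
      intro t _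
      simp only [hF']
      rw [Real.norm_eq_abs]
      refine (abs_add_le _ _).trans (add_le_add ?_ ?_)
      · rw [abs_mul, abs_of_nonneg (hχ0 x)]
        exact mul_le_mul_of_nonneg_right (hKb _) (hχ0 x)
      · rw [abs_mul, abs_mul, abs_of_nonneg hC0, abs_of_nonneg (hD0 x)]
        exact mul_le_mul_of_nonneg_left (mul_le_mul_of_nonneg_right (hC1 _ _) (hD0 x)) hC0
    · apply Integrable.add
      · exact (hχ.continuous.integrable_of_hasCompactSupport hc).const_mul _
      · exact ((hDc.integrable_of_hasCompactSupport hDs).const_mul _).const_mul _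
    · filter_upwards with x
      intro t _
      exact ((hasDerivAt_ln hden x q t).mul_const _).add
        (((hasDerivAt_ln hdu x q t).mul_const _).const_mul _)
  have hnonneg : ∀ τ, 0 ≤ ∫ x, F' τ x := by
    intro τ
    have hv := hu.translate (τ • e)
    set v : (Fin n → ℝ) → ℝ := fun x => u (x + τ • e) with hvdef
    have pv : ∀ j x, pd j v x = pd j u (x + τ • e) := fun j x => pd_translate _
    have ev : ∀ x, en v x = en u (x + τ • e) := fun x => by
      unfold en; simp_rw [pv, hvdef]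
    have ev' : en v = fun x => en u (x + τ • e) := funext ev
    have pev : ∀ x, pd q (en v) x = pd q (en u) (x + τ • e) := fun x => by
      rw [ev']; exact pd_translate _
    have h1 := integral_pd_en hv q hχ hc
    have i1 : Integrable (fun x => pd q (en v) x * χ x) :=
      ((continuous_pd (en_contDiff hv.c2)).mul hχ.continuous).integrable_of_hasCompactSupport
        hc.mul_left
    have i2 : Integrable (fun x => C * (pd q v x * D x)) :=
      (continuous_const.mul ((contDiff_pd_one hv.c2).continuous.mul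
        hDc)).integrable_of_hasCompactSupport hDs.mul_left.mul_left
    have i3 : Integrable (fun x => pd q v x * ∑ j, pd j v x * pd j χ x) := by
      have : (fun x => pd q v x * ∑ j, pd j v x * pd j χ x)
          = fun x => ∑ j, (pd q v x * pd j v x) * pd j χ x := by
        ext x; rw [Finset.mul_sum]
        apply Finset.sum_congr rfl; intro j _; ring
      rw [this]
      exact integrable_sum_mul (fun j => (contDiff_pd_one hv.c2).continuous.mul
        (contDiff_pd_one hv.c2).continuous)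
        (fun j => continuous_pd hχ) (fun j => hasCompactSupport_pd hc)
    have h2 : ∫ x, F' τ x = ∫ x, (C * (pd q v x * D x) - pd q v x * ∑ j, pd j v x * pd j χ x) := by
      have h3 : ∫ x, F' τ x = (∫ x, pd q (en v) x * χ x) + ∫ x, C * (pd q v x * D x) := by
        rw [← integral_add i1 i2]
        congr 1; ext x
        simp only [hF', pv, pev]
      rw [h3, h1, integral_sub i2 i3]; ring
    rw [h2]
    apply integral_nonneg
    intro x
    simp only [Pi.zero_apply]
    have h4 : ∑ j, pd j v x * pd j χ x ≤ C * D x := by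
      simp only [hD]
      rw [Finset.mul_sum]
      apply Finset.sum_le_sum; intro j _
      refine (le_abs_self _).trans ?_
      rw [abs_mul]
      refine mul_le_mul_of_nonneg_right ?_ (abs_nonneg _)
      rw [pv]; exact hC1 _ _
    have h5 : 0 < pd q v x := by rw [pv]; exact hpos _
    (clear * - C n q v x D χ h4 h5; nlinarith only [h4, h5])
  have hmono : Monotone (fun τ => ∫ x, F τ x) :=
    monotone_of_deriv_nonneg (fun τ => (hder τ).differentiableAt) fun τ => by
      rw [(hder τ).deriv]; exact hnonneg τ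
  have hlimF : Tendsto (fun τ => ∫ x, F τ x) atTop (𝓝 (∫ x, (en U x * χ x + C * (U x * D x)))) := by
    apply tendsto_integral_filter_of_dominated_convergence
      (fun x => ((1/2) * (n * C ^ 2) + 1) * χ x + C * D x)
    · exact Eventually.of_forall fun τ => (hFc τ).aestronglyMeasurable
    · filter_upwards with τ
      filter_upwards with x
      simp only [hF]
      rw [Real.norm_eq_abs]
      refine (abs_add_le _ _).trans (add_le_add ?_ ?_)
      · rw [abs_mul, abs_of_nonneg (hχ0 x), abs_of_nonneg (en_nonneg _ _)]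
        refine mul_le_mul_of_nonneg_right ?_ (hχ0 x)
        unfold en
        have h1 : ∑ j, pd j u (x + τ • e) ^ 2 ≤ n * C ^ 2 := by
          have : ∀ j ∈ (Finset.univ : Finset (Fin n)), pd j u (x + τ • e) ^ 2 ≤ C ^ 2 := by
            intro j _
            exact sq_le_sq' (abs_le.mp (hC1 _ _)).1 (abs_le.mp (hC1 _ _)).2
          refine (Finset.sum_le_sum this).trans (le_of_eq ?_)
          simp only [Finset.sum_const, Finset.card_univ, Fintype.card_fin, nsmul_eq_mul]
        have hb := abs_le.mp (hu.bd (x + τ • e))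
        have h2 : u (x + τ • e) ^ 2 ≤ 1 := by (clear * - u n x τ e hb; nlinarith)
        have h3 : 0 ≤ u (x + τ • e) ^ 2 := sq_nonneg _
        have h4 : (1 - u (x + τ • e) ^ 2) ^ 2 / 4 ≤ 1 := by (clear * - u n x τ e h2; nlinarith)
        (clear * - n u x τ e C h1 h4; linarith)
      · rw [abs_mul, abs_mul, abs_of_nonneg hC0, abs_of_nonneg (hD0 x)]
        refine mul_le_mul_of_nonneg_left ?_ hC0
        have := hu.bd (x + τ • e)
        (clear * - u n x τ e D this hD0; nlinarith [hD0 x])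
    · apply Integrable.add
      · exact (hχ.continuous.integrable_of_hasCompactSupport hc).const_mul _
      · exact (hDc.integrable_of_hasCompactSupport hDs).const_mul _
    · filter_upwards with x
      have h1 : Tendsto (fun τ : ℝ => en u (x + τ • e)) atTop (𝓝 (en U x)) := by
        unfold en
        exact ((tendsto_finsetSum _ fun j _ => (hlim' x j).pow 2).const_mul _).add
          ((((hlim x).pow 2).const_sub 1).pow 2 |>.div_const 4)
      exact (h1.mul_const _).add (((hlim x).mul_const _).const_mul _)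
  have hfin : ∫ x, F 0 x ≤ ∫ x, (en U x * χ x + C * (U x * D x)) := by
    apply ge_of_tendsto hlimF
    filter_upwards [eventually_ge_atTop 0] with τ hτ using hmono hτ
  have hchi_i : Integrable χ := hχ.continuous.integrable_of_hasCompactSupport hc
  have hD_i : Integrable D := hDc.integrable_of_hasCompactSupport hDs
  have j1 : Integrable (fun x => en u x * χ x) :=
    (hcen.mul hχ.continuous).integrable_of_hasCompactSupport hc.mul_left
  have j2 : Integrable (fun x => C * (u x * D x)) :=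
    (continuous_const.mul (hcu.mul hDc)).integrable_of_hasCompactSupport hDs.mul_left.mul_left
  have hF0 : ∫ x, F 0 x = (∫ x, en u x * χ x) + ∫ x, C * (u x * D x) := by
    rw [← integral_add j1 j2]
    congr 1; ext x
    simp only [hF, zero_smul, add_zero]
  have k1 : Integrable (fun x => en U x * χ x) :=
    ((en_contDiff hU.c2).continuous.mul hχ.continuous).integrable_of_hasCompactSupport hc.mul_left
  have k2 : Integrable (fun x => C * (U x * D x)) :=
    (continuous_const.mul (hU.c2.continuous.mul hDc)).integrable_of_hasCompactSupport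
      hDs.mul_left.mul_left
  rw [integral_add k1 k2, hF0] at hfin
  have k3 : (∫ x, C * (U x * D x)) - ∫ x, C * (u x * D x) ≤ 2 * C * ∫ x, D x := by
    rw [← integral_sub k2 j2, ← integral_const_mul]
    apply integral_mono (k2.sub j2) (hD_i.const_mul _)
    intro x
    simp only [Pi.sub_apply]
    have b1 := abs_le.mp (hu.bd x)
    have b2 := abs_le.mp (hU.bd x)
    have b3 : 0 ≤ C * D x := mul_nonneg hC0 (hD0 x)
    (clear * - C U x D u b1 b3 b2; nlinarith only [b1, b3, b2])
  linarith only [hfin, k3]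

end Vale.Agent.P134
end
end

section

section

open Filter Topology

namespace Vale.Agent.P134

variable {n : ℕ}

/-- Second derivative test at an interior maximum. -/
lemma deriv2_nonpos {g : ℝ → ℝ} (hg : Differentiable ℝ g) (hmax : IsLocalMax g 0) :
    deriv (deriv g) 0 ≤ 0 := by
  by_contra hcon
  push Not at hcon
  have h1 : deriv g 0 = 0 := hmax.deriv_eq_zero
  have h2 : IsLocalMin g 0 :=
    isLocalMin_of_deriv_deriv_pos hcon h1 hg.continuous.continuousAt
  have h3 : g =ᶠ[𝓝 0] fun _ => g 0 := by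
    filter_upwards [hmax, h2] with s hs1 hs2
    exact le_antisymm hs1 hs2
  have h4 : deriv g =ᶠ[𝓝 0] deriv (fun _ => g 0) := h3.deriv
  have h5 : deriv (deriv g) 0 = deriv (deriv (fun _ : ℝ => g 0)) 0 := h4.deriv_eq
  simp at h5
  linarith

lemma hasDerivAt_dir {w : (Fin n → ℝ) → ℝ} {x v : Fin n → ℝ} {s : ℝ}
    (hw : DifferentiableAt ℝ w (x + s • v)) :
    HasDerivAt (fun s : ℝ => w (x + s • v)) (fderiv ℝ w (x + s • v) v) s := by
  have h1 : HasDerivAt (fun s : ℝ => x + s • v) v s := by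
    simpa using ((hasDerivAt_id s).smul_const v).const_add x
  exact hw.hasFDerivAt.comp_hasDerivAt s h1

lemma deriv2_line {w : (Fin n → ℝ) → ℝ} (hw : ContDiff ℝ 2 w) (x : Fin n → ℝ) (i : Fin n) :
    deriv (deriv (fun s : ℝ => w (x + s • Pi.single i 1))) 0 = pd i (pd i w) x := by
  have hd : Differentiable ℝ w := hw.differentiable (by norm_num)
  have h1 : deriv (fun s : ℝ => w (x + s • Pi.single i 1))
      = fun s : ℝ => pd i w (x + s • Pi.single i 1) := by
    funext s
    exact (hasDerivAt_dir (hd _)).deriv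
  rw [h1]
  have h2 : Differentiable ℝ (pd i w) := (contDiff_pd_one hw).differentiable (by norm_num)
  have := (hasDerivAt_dir (x := x) (v := Pi.single i 1) (s := 0) (h2 _)).deriv
  rw [this]
  simp [pd]

lemma pd2_nonpos_of_isLocalMax {w : (Fin n → ℝ) → ℝ} (hw : ContDiff ℝ 2 w) {x : Fin n → ℝ}
    (hmax : IsLocalMax w x) (i : Fin n) : pd i (pd i w) x ≤ 0 := by
  rw [← deriv2_line hw x i]
  apply deriv2_nonpos
  · intro s
    exact (hasDerivAt_dir ((hw.differentiable (by norm_num)) _)).differentiableAt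
  · have hc : ContinuousAt (fun s : ℝ => x + s • (Pi.single i 1 : Fin n → ℝ)) 0 := by
      fun_prop
    have : Tendsto (fun s : ℝ => x + s • (Pi.single i 1 : Fin n → ℝ)) (𝓝 0) (𝓝 x) := by
      simpa only [zero_smul, add_zero] using hc.tendsto
    have h2 := this.eventually hmax
    unfold IsLocalMax IsMaxFilter
    filter_upwards [h2] with s hs
    simpa only [zero_smul, add_zero] using hs

/-- Composition with a diagonal affine map. -/
lemma pd_comp_diag {w : (Fin n → ℝ) → ℝ} (x : Fin n → ℝ)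
    (A : (Fin n → ℝ) →L[ℝ] (Fin n → ℝ)) (c : Fin n → ℝ)
    (hA : ∀ i, A (Pi.single i 1) = c i • Pi.single i 1) {y : Fin n → ℝ} {i : Fin n}
    (hw : DifferentiableAt ℝ w (x + A y)) :
    pd i (fun y => w (x + A y)) y = c i * pd i w (x + A y) := by
  unfold pd
  have h1 : HasFDerivAt (fun y => x + A y) A y := by
    simpa only [hasFDerivAt_const_add_iff, hasFDerivAt_pi'] using A.hasFDerivAt.const_add x
  have h2 := (hw.hasFDerivAt.comp y h1).fderiv
  have h3 : (w ∘ fun y => x + A y) = fun y => w (x + A y) := rfl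
  rw [h3] at h2
  rw [h2]
  simp [hA]

lemma pd_shift {w : (Fin n → ℝ) → ℝ} (v : Fin n → ℝ) {y : Fin n → ℝ} {i : Fin n} :
    pd i (fun y => w (y + v)) y = pd i w (y + v) := by
  unfold pd
  rw [fderiv_comp_add_right]

/-- Reflection in the coordinate `q`, as a continuous linear map. -/
noncomputable def reflq (q : Fin n) : (Fin n → ℝ) →L[ℝ] (Fin n → ℝ) :=
  ContinuousLinearMap.id ℝ _ -
    ((2 : ℝ) • (ContinuousLinearMap.proj (R := ℝ) (φ := fun _ : Fin n => ℝ) q)).smulRight
      (Pi.single q 1)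

lemma reflq_apply (q : Fin n) (y : Fin n → ℝ) :
    reflq q y = y - (2 * y q) • Pi.single q 1 := by
  simp [reflq]

lemma reflq_single (q i : Fin n) :
    reflq q (Pi.single i 1) = (if i = q then (-1 : ℝ) else 1) • Pi.single i 1 := by
  rw [reflq_apply]
  by_cases h : i = q
  · subst h
    ext j
    simp
    ring
  · simp [h, Ne.symm h]

lemma reflq_of_zero (q : Fin n) {y : Fin n → ℝ} (hy : y q = 0) : reflq q y = y := by
  rw [reflq_apply, hy]; simp

lemma pd_poly (M C : ℝ) (q i : Fin n) (y : Fin n → ℝ) :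
    pd i (fun y : Fin n → ℝ => M * ∑ j, y j ^ 2 + C * (y q - y q ^ 2)) y
      = 2 * M * y i + C * (if q = i then 1 - 2 * y q else 0) := by
  have hc : ∀ j : Fin n, DifferentiableAt ℝ (fun y : Fin n → ℝ => y j) y := fun j => by fun_prop
  have h1 : pd i (fun y : Fin n → ℝ => ∑ j, y j ^ 2) y = 2 * y i := by
    rw [pd_sum Finset.univ (F := fun j (y : Fin n → ℝ) => y j ^ 2)
      (fun k _ => (hc k).pow 2)]
    have : ∀ j, pd i (fun y : Fin n → ℝ => y j ^ 2) y = if j = i then 2 * y i else 0 := by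
      intro j
      rw [pd_sq (hc j), pd_coord]
      by_cases hji : j = i
      · subst hji; simp
      · simp [hji]
    simp only [this, Finset.sum_ite_eq', Finset.mem_univ, ↓reduceIte]
  have h2 : pd i (fun y : Fin n → ℝ => y q - y q ^ 2) y = if q = i then 1 - 2 * y q else 0 := by
    rw [pd_sub (hc q) ((hc q).fun_pow 2), pd_sq (hc q), pd_coord]
    by_cases hji : q = i
    · subst hji; simp
    · simp [hji]
  rw [pd_add (by (clear * -; fun_prop)) (by fun_prop), pd_mul (f := fun _ => M) (by fun_prop) (by fun_prop),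
    pd_mul (f := fun _ => C) (by fun_prop) (by fun_prop), h1, h2, pd_const, pd_const]
  ring

lemma pd_pd_poly (M C : ℝ) (q i : Fin n) (y : Fin n → ℝ) :
    pd i (pd i (fun y : Fin n → ℝ => M * ∑ j, y j ^ 2 + C * (y q - y q ^ 2))) y
      = 2 * M - 2 * C * (if q = i then 1 else 0) := by
  have h0 : pd i (fun y : Fin n → ℝ => M * ∑ j, y j ^ 2 + C * (y q - y q ^ 2))
      = fun y => 2 * M * y i + C * (if q = i then 1 - 2 * y q else 0) := by
    funext y; exact pd_poly M C q i y
  rw [h0]
  by_cases hji : q = i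
  · subst hji
    simp only [if_true]
    rw [pd_add (by (clear * -; fun_prop)) (by fun_prop), pd_mul (f := fun _ => 2 * M) (by fun_prop) (by fun_prop),
      pd_mul (f := fun _ => C) (by fun_prop) (by fun_prop), pd_sub (by fun_prop) (by fun_prop),
      pd_mul (f := fun _ => (2:ℝ)) (g := fun y : Fin n → ℝ => y q) (by fun_prop) (by fun_prop),
      pd_const, pd_const, pd_const, pd_const, pd_coord]
    simp only [↓reduceIte, mul_one, mul_zero, add_zero, zero_sub, mul_neg]
    ring
  · simp only [hji, if_false]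
    rw [pd_add (by (clear * -; fun_prop)) (by fun_prop), pd_mul (f := fun _ => 2 * M) (by fun_prop) (by fun_prop),
      pd_const, pd_const, pd_coord]
    simp

lemma grad_bound_aux {w : (Fin n → ℝ) → ℝ} (hw : ContDiff ℝ 2 w) {M N N' : ℝ}
    (hM : ∀ x, |w x| ≤ M) (hN : ∀ x, |∑ i, pd i (pd i w) x| ≤ N) (hN' : N < N')
    (q : Fin n) (x : Fin n → ℝ) : pd q w x ≤ n * M + N' / 2 := by
  have hM0 : 0 ≤ M := (abs_nonneg _).trans (hM 0)
  have hN0 : 0 ≤ N := (abs_nonneg _).trans (hN 0)
  have hdw : Differentiable ℝ w := hw.differentiable (by norm_num)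
  set C : ℝ := n * M + N' / 2 with hC
  have hC0 : 0 ≤ C := by
    have : 0 ≤ (n:ℝ) * M := mul_nonneg (Nat.cast_nonneg n) hM0
    linarith
  -- the odd part
  set v : (Fin n → ℝ) → ℝ := fun y => (1 / 2) * (w (x + y) - w (x + reflq q y)) with hv
  set P : (Fin n → ℝ) → ℝ := fun y => M * ∑ j, y j ^ 2 + C * (y q - y q ^ 2) with hP
  set h : (Fin n → ℝ) → ℝ := fun y => v y - P y with hh
  have hw1 : ContDiff ℝ 2 (fun y : Fin n → ℝ => w (x + y)) :=
    hw.comp (contDiff_const.add contDiff_id)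
  have hw2 : ContDiff ℝ 2 (fun y : Fin n → ℝ => w (x + reflq q y)) :=
    hw.comp (contDiff_const.add (reflq q).contDiff)
  have hv2 : ContDiff ℝ 2 v := contDiff_const.mul (hw1.sub hw2)
  have hP2 : ContDiff ℝ 2 P := by
    rw [hP]; fun_prop
  have hh2 : ContDiff ℝ 2 h := hv2.sub hP2
  -- derivatives of `v`
  have hvi : ∀ i y, pd i v y = (1 / 2) * (pd i w (x + y)
      - (if i = q then (-1 : ℝ) else 1) * pd i w (x + reflq q y)) := by
    intro i y
    rw [hv]
    have e1 : pd i (fun y : Fin n → ℝ => w (x + y)) y = 1 * pd i w (x + y) :=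
      pd_comp_diag x (ContinuousLinearMap.id ℝ _) (fun _ => 1) (by simp) (hdw _)
    have e2 : pd i (fun y : Fin n → ℝ => w (x + reflq q y)) y
        = (if i = q then (-1 : ℝ) else 1) * pd i w (x + reflq q y) :=
      pd_comp_diag x (reflq q) (fun i => if i = q then (-1 : ℝ) else 1)
        (fun i => reflq_single q i) (hdw _)
    have d1 : DifferentiableAt ℝ (fun y : Fin n → ℝ => w (x + y)) y :=
      (hw1.differentiable (by norm_num)) y
    have d2 : DifferentiableAt ℝ (fun y : Fin n → ℝ => w (x + reflq q y)) y :=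
      (hw2.differentiable (by norm_num)) y
    rw [pd_mul (f := fun _ => (1 / 2 : ℝ)) (by fun_prop) (d1.fun_sub d2), pd_const, pd_sub d1 d2, e1, e2]
    ring
  have hvii : ∀ i y, pd i (pd i v) y = (1 / 2) * (pd i (pd i w) (x + y)
      - pd i (pd i w) (x + reflq q y)) := by
    intro i y
    have e0 : pd i v = fun y => (1 / 2) * (pd i w (x + y)
      - (if i = q then (-1 : ℝ) else 1) * pd i w (x + reflq q y)) := by
      funext y; exact hvi i y
    rw [e0]
    have hpw : ContDiff ℝ 1 (pd i w) := contDiff_pd_one hw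
    have hdpw : Differentiable ℝ (pd i w) := hpw.differentiable (by norm_num)
    have e1 : pd i (fun y : Fin n → ℝ => pd i w (x + y)) y = 1 * pd i (pd i w) (x + y) :=
      pd_comp_diag x (ContinuousLinearMap.id ℝ _) (fun _ => 1) (by simp) (hdpw _)
    have e2 : pd i (fun y : Fin n → ℝ => pd i w (x + reflq q y)) y
        = (if i = q then (-1 : ℝ) else 1) * pd i (pd i w) (x + reflq q y) :=
      pd_comp_diag x (reflq q) (fun i => if i = q then (-1 : ℝ) else 1)
        (fun i => reflq_single q i) (hdpw _)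
    have d1 : DifferentiableAt ℝ (fun y : Fin n → ℝ => pd i w (x + y)) y := by
      have : ContDiff ℝ 1 (fun y : Fin n → ℝ => pd i w (x + y)) :=
        hpw.comp (contDiff_const.add contDiff_id)
      exact (this.differentiable (by norm_num)) y
    have d2 : DifferentiableAt ℝ (fun y : Fin n → ℝ => pd i w (x + reflq q y)) y := by
      have : ContDiff ℝ 1 (fun y : Fin n → ℝ => pd i w (x + reflq q y)) :=
        hpw.comp (contDiff_const.add (reflq q).contDiff)
      exact (this.differentiable (by norm_num)) y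
    rw [pd_mul (f := fun _ => (1 / 2 : ℝ)) (by fun_prop)
      (d1.fun_sub ((differentiableAt_const _).fun_mul d2)), pd_const,
      pd_sub d1 ((differentiableAt_const _).fun_mul d2),
      pd_mul (f := fun _ => (if i = q then (-1 : ℝ) else 1)) (by fun_prop) d2, pd_const, e1, e2]
    split_ifs <;> ring
  have hhii : ∀ i y, pd i (pd i h) y = (1 / 2) * (pd i (pd i w) (x + y)
      - pd i (pd i w) (x + reflq q y)) - (2 * M - 2 * C * (if q = i then 1 else 0)) := by
    intro i y
    have dv : Differentiable ℝ v := hv2.differentiable (by norm_num)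
    have dP : Differentiable ℝ P := hP2.differentiable (by norm_num)
    have e0 : pd i h = fun y => pd i v y - pd i P y := by
      funext y; exact pd_sub (dv y) (dP y)
    rw [e0, pd_sub ((contDiff_pd_one hv2).differentiable (by norm_num) y)
      ((contDiff_pd_one hP2).differentiable (by norm_num) y), hvii, pd_pd_poly]
  have hlap : ∀ y, 0 < ∑ i, pd i (pd i h) y := by
    intro y
    have e1 : ∑ i, pd i (pd i h) y = (1 / 2) * (∑ i, pd i (pd i w) (x + y)
      - ∑ i, pd i (pd i w) (x + reflq q y)) - (n * (2 * M) - 2 * C) := by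
      simp_rw [hhii]
      rw [Finset.sum_sub_distrib, ← Finset.mul_sum, Finset.sum_sub_distrib,
        Finset.sum_sub_distrib, ← Finset.mul_sum]
      simp only [one_div, Finset.sum_const, Finset.card_univ, Fintype.card_fin, nsmul_eq_mul, mul_ite, mul_one, mul_zero, Finset.sum_ite_eq, Finset.mem_univ, ↓reduceIte, sub_right_inj, sub_left_inj]
      ring
    rw [e1]
    have a1 := abs_le.mp (hN (x + y))
    have a2 := abs_le.mp (hN (x + reflq q y))
    rw [hC]
    (clear * - n w x y q M N' N hN' a1 a2; linarith [a1.1, a2.2])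
  -- the box
  set a : Fin n → ℝ := fun j => if j = q then 0 else -1 with ha
  set K : Set (Fin n → ℝ) := Set.Icc a (fun _ => 1) with hK
  have hKc : IsCompact K := isCompact_Icc
  have hKne : K.Nonempty := by
    refine ⟨fun _ => 0, ?_, ?_⟩
    · intro j; simp only [ha]; split_ifs <;> norm_num
    · intro j; norm_num
  obtain ⟨y0, hy0K, hy0⟩ := hKc.exists_isMaxOn hKne hh2.continuous.continuousOn
  have hneg : h y0 ≤ 0 := by
    by_contra hpos
    push Not at hpos
    have hlow : ∀ j, a j ≤ y0 j := fun j => hy0K.1 j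
    have hupp : ∀ j, y0 j ≤ 1 := fun j => hy0K.2 j
    have hq0 : 0 ≤ y0 q := by have := hlow q; simpa only [ge_iff_le, ha, ↓reduceIte] using this
    have hq1 : y0 q ≤ 1 := hupp q
    have hCq : 0 ≤ C * (y0 q - y0 q ^ 2) := by
      apply mul_nonneg hC0; (clear * - y0 q hq0 hq1; nlinarith only [hq0, hq1])
    have hvM : v y0 ≤ M := by
      have b1 := (abs_le.mp (hM (x + y0))).2
      have b2 := (abs_le.mp (hM (x + reflq q y0))).1
      rw [hv]; simp only; (clear * - w n x y0 q M b1 b2; linarith only [b1, b2])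
    have hsumsq : ∀ j, y0 j ^ 2 ≤ ∑ j, y0 j ^ 2 := fun j =>
      Finset.single_le_sum (f := fun j => y0 j ^ 2) (fun i _ => sq_nonneg _) (Finset.mem_univ j)
    have key : ∀ j, y0 j ^ 2 < 1 := by
      intro j
      by_contra hj
      push Not at hj
      have : M * 1 ≤ M * ∑ j, y0 j ^ 2 := by
        apply mul_le_mul_of_nonneg_left _ hM0
        exact hj.trans (hsumsq j)
      have : h y0 ≤ 0 := by
        rw [hh]; simp only [hP]; linarith only [hCq, hvM, this]
      linarith
    have hqne : 0 < y0 q := by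
      rcases hq0.lt_or_eq with h1 | h1
      · exact h1
      · exfalso
        have h2 : reflq q y0 = y0 := reflq_of_zero q h1.symm
        have h3 : v y0 = 0 := by rw [hv]; simp only [h2]; ring
        have h4 : 0 ≤ M * ∑ j, y0 j ^ 2 :=
          mul_nonneg hM0 (Finset.sum_nonneg fun i _ => sq_nonneg _)
        have : h y0 ≤ 0 := by
          rw [hh]; simp only [hP, h3]; (clear * - M n y0 C q h v w x N' P hpos hCq h3 h4; linarith only [hCq, h4])
        linarith only [hpos, hCq, h3, h4]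
    have hint : K ∈ 𝓝 y0 := by
      rw [hK, ← Set.pi_univ_Icc]
      apply set_pi_mem_nhds Set.finite_univ
      intro j _
      apply Icc_mem_nhds
      · simp only [ha]
        split_ifs with hj
        · rw [hj]; exact hqne
        · (clear * - y0 j key; nlinarith only [key j])
      · (clear * - y0 j key; nlinarith [key j])
    have hloc : IsLocalMax h y0 := hy0.isLocalMax hint
    have := Finset.sum_nonpos (s := Finset.univ)
      (fun i _ => pd2_nonpos_of_isLocalMax hh2 hloc i)
    exact absurd (hlap y0) (not_lt.mpr this)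
  -- conclusion along the axis
  have haxis : ∀ s : ℝ, 0 ≤ s → s ≤ 1 →
      (1 / 2) * (w (x + s • Pi.single q 1) - w (x + (-s) • Pi.single q 1))
        ≤ M * s ^ 2 + C * (s - s ^ 2) := by
    intro s hs0 hs1
    have hmem : (s • Pi.single q 1 : Fin n → ℝ) ∈ K := by
      constructor
      · intro j
        simp only [ha, Pi.smul_apply, smul_eq_mul, Pi.single_apply]
        split_ifs <;> (clear * - s hs0; nlinarith)
      · intro j
        simp only [Pi.smul_apply, smul_eq_mul, Pi.single_apply]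
        split_ifs <;> (clear * - s hs1; nlinarith)
    have h1 : h (s • Pi.single q 1) ≤ 0 := (hy0 hmem).trans hneg
    have h2 : reflq q (s • Pi.single q 1) = (-s) • Pi.single q 1 := by
      rw [map_smul, reflq_single]; simp
    have h3 : ∑ j, ((s • Pi.single q 1 : Fin n → ℝ) j) ^ 2 = s ^ 2 := by
      simp only [Pi.smul_apply, Pi.single_apply, smul_eq_mul, mul_ite, mul_one, mul_zero, ite_pow, ne_eq, OfNat.ofNat_ne_zero, not_false_eq_true, zero_pow, Finset.sum_ite_eq', Finset.mem_univ, ↓reduceIte]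
    have h4 : (s • Pi.single q 1 : Fin n → ℝ) q = s := by simp
    rw [hh] at h1
    simp only [hP, hv, h2, h3, h4] at h1
    (clear * - w n x s q M C N' h1; linarith)
  -- differentiate at zero
  set g : ℝ → ℝ := fun s => M * s ^ 2 + C * (s - s ^ 2)
    - (1 / 2) * (w (x + s • Pi.single q 1) - w (x + (-s) • Pi.single q 1)) with hg
  have hgd : HasDerivAt g (C - pd q w x) 0 := by
    have g1 : HasDerivAt (fun s : ℝ => w (x + s • Pi.single q 1)) (pd q w x) 0 := by
      have := hasDerivAt_dir (w := w) (x := x) (v := Pi.single q 1) (s := 0) (hdw _)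
      simpa only [pd, zero_smul, add_zero] using this
    have g2 : HasDerivAt (fun s : ℝ => w (x + (-s) • Pi.single q 1)) (-(pd q w x)) 0 := by
      have h0 : HasDerivAt (fun s : ℝ => w (x + s • Pi.single q 1)) (pd q w x) (-0) := by
        simpa using g1
      have := h0.scomp (0 : ℝ) (hasDerivAt_neg (0:ℝ))
      simpa only [neg_smul, Function.comp_def, smul_eq_mul, neg_mul, one_mul] using this
    have g3 : HasDerivAt (fun s : ℝ => M * s ^ 2 + C * (s - s ^ 2)) C 0 := by
      have e1 : HasDerivAt (fun s : ℝ => s ^ 2) 0 0 := by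
        simpa only [Nat.cast_ofNat, Nat.add_one_sub_one, pow_one, mul_zero] using (hasDerivAt_pow 2 (0 : ℝ))
      have e2 : HasDerivAt (fun s : ℝ => s - s ^ 2) 1 0 := by
        simpa only [sub_zero] using (hasDerivAt_id' (0 : ℝ)).fun_sub e1
      simpa only [mul_zero, mul_one, zero_add] using (e1.const_mul M).fun_add (e2.const_mul C)
    have := g3.fun_sub ((g1.fun_sub g2).const_mul (1 / 2))
    have e3 : C - 1 / 2 * (pd q w x - -pd q w x) = C - pd q w x := by ring
    rw [e3] at this
    exact this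
  have hg0 : g 0 = 0 := by simp only [hg, one_div, neg_smul, ne_eq, OfNat.ofNat_ne_zero, not_false_eq_true, zero_pow, mul_zero, sub_self, add_zero, zero_smul, neg_zero]
  have hgnn : ∀ s : ℝ, 0 ≤ s → s ≤ 1 → 0 ≤ g s := by
    intro s h0 h1
    have := haxis s h0 h1
    simp only [hg]; (clear * - M s C w n x q N' this; linarith)
  have hfin : 0 ≤ C - pd q w x := by
    have hsl := (hasDerivAt_iff_tendsto_slope_zero.mp hgd)
    have hsl' : Tendsto (fun t : ℝ => t⁻¹ • (g (0 + t) - g 0)) (𝓝[>] 0) (𝓝 (C - pd q w x)) :=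
      hsl.mono_left (nhdsWithin_mono _ (fun t ht => ne_of_gt ht))
    refine ge_of_tendsto hsl' ?_
    have : Set.Ioo (0:ℝ) 1 ∈ 𝓝[>] (0:ℝ) := Ioo_mem_nhdsGT one_pos
    filter_upwards [this] with t ht
    rw [hg0, zero_add, sub_zero, smul_eq_mul]
    exact mul_nonneg (inv_nonneg.mpr ht.1.le) (hgnn t ht.1.le ht.2.le)
  linarith only [hfin]

lemma grad_bound {w : (Fin n → ℝ) → ℝ} (hw : ContDiff ℝ 2 w) {M N : ℝ}
    (hM : ∀ x, |w x| ≤ M) (hN : ∀ x, |∑ i, pd i (pd i w) x| ≤ N)
    (q : Fin n) (x : Fin n → ℝ) : |pd q w x| ≤ n * M + N / 2 := by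
  have hup : ∀ w : (Fin n → ℝ) → ℝ, ContDiff ℝ 2 w → (∀ x, |w x| ≤ M) →
      (∀ x, |∑ i, pd i (pd i w) x| ≤ N) → pd q w x ≤ n * M + N / 2 := by
    intro w hw hM hN
    apply le_of_forall_pos_le_add
    intro ε hε
    have := grad_bound_aux hw hM hN (N' := N + 2 * ε) (by linarith) q x
    linarith only [this]
  rw [abs_le]
  constructor
  · have hneg : ∀ i, pd i (fun y => - w y) = fun y => - pd i w y := by
      intro i; funext y; exact pd_neg
    have := hup (fun y => - w y) hw.neg (fun x => by rw [abs_neg]; exact hM x) (by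
      intro x
      have : ∑ i, pd i (pd i (fun y => - w y)) x = - ∑ i, pd i (pd i w) x := by
        simp_rw [hneg]
        rw [← Finset.sum_neg_distrib]
        exact Finset.sum_congr rfl fun i _ => pd_neg
      rw [this, abs_neg]; exact hN x)
    rw [hneg] at this
    linarith
  · exact hup w hw hM hN

lemma fderiv_eq_sum_pd (g : (Fin n → ℝ) → ℝ) (x v : Fin n → ℝ) :
    fderiv ℝ g x v = ∑ i, v i * pd i g x := by
  have h := pi_eq_sum_univ' v
  conv_lhs => rw [h]
  rw [map_sum]
  refine Finset.sum_congr rfl fun i _ => ?_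
  rw [map_smul, smul_eq_mul]
  congr 1

lemma norm_fderiv_le_of_pd {g : (Fin n → ℝ) → ℝ} {L : ℝ} {x : Fin n → ℝ}
    (hL : ∀ i, |pd i g x| ≤ L) : ‖fderiv ℝ g x‖ ≤ n * L := by
  rcases Nat.eq_zero_or_pos n with h0 | h0
  · subst h0
    have : fderiv ℝ g x = 0 := by
      ext v
      rw [fderiv_eq_sum_pd]; simp
    simp [this]
  have hL0 : 0 ≤ L := (abs_nonneg _).trans (hL ⟨0, h0⟩)
  apply ContinuousLinearMap.opNorm_le_bound _ (by positivity)
  intro v
  rw [fderiv_eq_sum_pd]
  calc ‖∑ i, v i * pd i g x‖ ≤ ∑ i, ‖v i * pd i g x‖ := norm_sum_le _ _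
    _ ≤ ∑ _i : Fin n, L * ‖v‖ := by
        apply Finset.sum_le_sum
        intro i _
        rw [norm_mul, mul_comm]
        exact mul_le_mul (hL i) (norm_le_pi_norm v i) (norm_nonneg _) hL0
    _ = n * L * ‖v‖ := by simp only [Finset.sum_const, Finset.card_univ, Fintype.card_fin, nsmul_eq_mul]; ring

lemma abs_sub_le_of_pd {g : (Fin n → ℝ) → ℝ} (hg : Differentiable ℝ g) {L : ℝ}
    (hL : ∀ x i, |pd i g x| ≤ L) (x v : Fin n → ℝ) : |g (x + v) - g x| ≤ n * L * ‖v‖ := by
  have := Convex.norm_image_sub_le_of_norm_fderiv_le (𝕜 := ℝ) (f := g) (s := Set.univ)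
    (C := n * L) (x := x) (y := x + v) (fun z _ => hg z)
    (fun z _ => norm_fderiv_le_of_pd (hL z)) convex_univ (Set.mem_univ _) (Set.mem_univ _)
  simpa only [ge_iff_le, Real.norm_eq_abs, add_sub_cancel_left] using this

lemma abs_deriv_le_of_lip {φ : ℝ → ℝ} {d K : ℝ} (hd : HasDerivAt φ d 0)
    (h : ∀ s, |φ s - φ 0| ≤ K * |s|) : |d| ≤ K := by
  have hK : 0 ≤ K := by
    have := (abs_nonneg _).trans (h 1)
    simpa only [ge_iff_le, abs_one, mul_one] using this
  have := hd.hasFDerivAt.le_of_lip' (C := K) hK (Filter.Eventually.of_forall (fun s => by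
    simpa only [Real.norm_eq_abs, sub_zero] using h s))
  simpa only [ge_iff_le, ContinuousLinearMap.norm_toSpanSingleton, Real.norm_eq_abs] using this

/-- The difference quotient of the nonlinearity. -/
lemma cubic_diff (a b : ℝ) : (a ^ 3 - a) - (b ^ 3 - b) = (a ^ 2 + a * b + b ^ 2 - 1) * (a - b) := by
  ring

lemma abs_cubic_le {a b : ℝ} (ha : |a| ≤ 1) (hb : |b| ≤ 1) : |a ^ 2 + a * b + b ^ 2 - 1| ≤ 2 := by
  rw [abs_le] at *
  constructor <;> nlinarith only [ha, hb]

lemma abs_cubic_diff_le {a b a' b' : ℝ} (ha : |a| ≤ 1) (hb : |b| ≤ 1) (ha' : |a'| ≤ 1)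
    (hb' : |b'| ≤ 1) :
    |(a' ^ 2 + a' * b' + b' ^ 2 - 1) - (a ^ 2 + a * b + b ^ 2 - 1)|
      ≤ 3 * (|a' - a| + |b' - b|) := by
  have e : (a' ^ 2 + a' * b' + b' ^ 2 - 1) - (a ^ 2 + a * b + b ^ 2 - 1)
      = (a' - a) * (a' + a + b') + (b' - b) * (a + b' + b) := by ring
  have h1 : |a' + a + b'| ≤ 3 := by
    calc |a' + a + b'| ≤ |a' + a| + |b'| := abs_add_le _ _
      _ ≤ |a'| + |a| + |b'| := by (clear * -; linarith [abs_add_le a' a])
      _ ≤ 3 := by linarith only [ha, ha', hb']
  have h2 : |a + b' + b| ≤ 3 := by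
    calc |a + b' + b| ≤ |a + b'| + |b| := abs_add_le _ _
      _ ≤ |a| + |b'| + |b| := by linarith only [abs_add_le a b']
      _ ≤ 3 := by linarith
  rw [e]
  calc |(a' - a) * (a' + a + b') + (b' - b) * (a + b' + b)|
      ≤ |(a' - a) * (a' + a + b')| + |(b' - b) * (a + b' + b)| := abs_add_le _ _
    _ = |a' - a| * |a' + a + b'| + |b' - b| * |a + b' + b| := by rw [abs_mul, abs_mul]
    _ ≤ |a' - a| * 3 + |b' - b| * 3 := by
        (clear * - h1 h2; gcongr)
    _ = 3 * (|a' - a| + |b' - b|) := by ring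

lemma pd_diff {w : (Fin n → ℝ) → ℝ} (hw : Differentiable ℝ w) (v : Fin n → ℝ) (i : Fin n) :
    pd i (fun y => w (y + v) - w y) = fun y => pd i w (y + v) - pd i w y := by
  funext y
  rw [pd_sub _ (hw y), pd_shift]
  exact (hw.comp (differentiable_id.add_const v)) y

lemma lap_diff {w : (Fin n → ℝ) → ℝ} (hw : ContDiff ℝ 2 w) (v : Fin n → ℝ) (y : Fin n → ℝ) :
    ∑ i, pd i (pd i (fun y => w (y + v) - w y)) y
      = ∑ i, pd i (pd i w) (y + v) - ∑ i, pd i (pd i w) y := by
  rw [← Finset.sum_sub_distrib]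
  refine Finset.sum_congr rfl fun i _ => ?_
  rw [pd_diff (hw.differentiable (by norm_num)),
    pd_diff ((contDiff_pd_one hw).differentiable (by norm_num))]

lemma contDiff_diff {w : (Fin n → ℝ) → ℝ} {k : WithTop ℕ∞} (hw : ContDiff ℝ k w)
    (v : Fin n → ℝ) : ContDiff ℝ k (fun y => w (y + v) - w y) :=
  (hw.comp (contDiff_id.add contDiff_const)).sub hw

lemma Sol.pd_le {u : (Fin n → ℝ) → ℝ} (h : Sol u) (q : Fin n) (x : Fin n → ℝ) :
    |pd q u x| ≤ n + 1 := by
  have h1 : ∀ x, |∑ i, pd i (pd i u) x| ≤ 2 := by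
    intro x
    rw [h.eq]
    have := h.bd x
    rw [abs_le] at *
    constructor <;> (clear * - u x this; nlinarith only [this, sq_nonneg (u x + 1), sq_nonneg (u x - 1)])
  have := grad_bound h.c2 h.bd h1 q x
  linarith

lemma Sol.diff_le {u : (Fin n → ℝ) → ℝ} (h : Sol u) (x v : Fin n → ℝ) :
    |u (x + v) - u x| ≤ n * (n + 1) * ‖v‖ :=
  abs_sub_le_of_pd (h.c2.differentiable (by norm_num)) (fun x i => h.pd_le i x) x v

lemma Sol.pd_diff_le {u : (Fin n → ℝ) → ℝ} (h : Sol u) (x v : Fin n → ℝ) (q : Fin n) :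
    |pd q u (x + v) - pd q u x| ≤ (n * (n * (n + 1)) + n * (n + 1)) * ‖v‖ := by
  have h1 : ∀ x, |∑ i, pd i (pd i (fun y => u (y + v) - u y)) x| ≤ 2 * (n * (n + 1) * ‖v‖) := by
    intro x
    rw [lap_diff h.c2, h.eq, h.eq, cubic_diff, abs_mul]
    exact mul_le_mul (abs_cubic_le (h.bd _) (h.bd _)) (h.diff_le x v) (abs_nonneg _) (by norm_num)
  have := grad_bound (contDiff_diff h.c2 v) (fun x => h.diff_le x v) h1 q x
  rw [pd_diff (h.c2.differentiable (by norm_num))] at this
  calc _ ≤ _ := this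
    _ = _ := by ring

lemma Sol.second_diff_le {u : (Fin n → ℝ) → ℝ} (h : Sol u) (x v v' : Fin n → ℝ) (q : Fin n) :
    |(pd q u (x + v + v') - pd q u (x + v)) - (pd q u (x + v') - pd q u x)|
      ≤ (n ^ 2 * (n * (n * (n + 1)) + n * (n + 1)) + n * (n * (n * (n + 1)) + n * (n + 1))
          + 3 * n ^ 2 * (n + 1) ^ 2) * ‖v‖ * ‖v'‖ := by
  set L2 : ℝ := n * (n * (n + 1)) + n * (n + 1) with hL2
  have hL20 : 0 ≤ L2 := by (clear * -; positivity)
  set g : (Fin n → ℝ) → ℝ := fun y => u (y + v') - u y with hg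
  have hgc : ContDiff ℝ 2 g := contDiff_diff h.c2 v'
  have hgd : Differentiable ℝ g := hgc.differentiable (by norm_num)
  have hpg : ∀ x i, |pd i g x| ≤ L2 * ‖v'‖ := by
    intro x i
    rw [hg, pd_diff (h.c2.differentiable (by norm_num))]
    exact h.pd_diff_le x v' i
  have hw1 : ∀ x, |g (x + v) - g x| ≤ n * (L2 * ‖v'‖) * ‖v‖ := fun x => abs_sub_le_of_pd hgd hpg x v
  have hlap : ∀ x, ∑ i, pd i (pd i g) x
      = (u (x + v') ^ 2 + u (x + v') * u x + u x ^ 2 - 1) * g x := by
    intro x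
    rw [hg, lap_diff h.c2, h.eq, h.eq, cubic_diff]
  have hN : ∀ x, |∑ i, pd i (pd i (fun y => g (y + v) - g y)) x|
      ≤ 2 * (n * (L2 * ‖v'‖) * ‖v‖) + (n * (n + 1) * ‖v'‖) * (6 * (n * (n + 1) * ‖v‖)) := by
    intro x
    rw [lap_diff hgc, hlap, hlap]
    set c' := u (x + v + v') ^ 2 + u (x + v + v') * u (x + v) + u (x + v) ^ 2 - 1 with hc'
    set c := u (x + v') ^ 2 + u (x + v') * u x + u x ^ 2 - 1 with hc
    have e : c' * g (x + v) - c * g x = c' * (g (x + v) - g x) + g x * (c' - c) := by ring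
    have b1 : |c'| ≤ 2 := abs_cubic_le (h.bd _) (h.bd _)
    have b2 : |g x| ≤ n * (n + 1) * ‖v'‖ := h.diff_le x v'
    have b3 : |c' - c| ≤ 6 * (n * (n + 1) * ‖v‖) := by
      have := abs_cubic_diff_le (h.bd (x + v')) (h.bd x) (h.bd (x + v + v')) (h.bd (x + v))
      have d1 := h.diff_le (x + v') v
      have d2 := h.diff_le x v
      rw [show x + v' + v = x + v + v' by abel] at d1
      rw [hc', hc]
      linarith only [this, d1, d2]
    rw [e]
    calc |c' * (g (x + v) - g x) + g x * (c' - c)|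
        ≤ |c' * (g (x + v) - g x)| + |g x * (c' - c)| := abs_add_le _ _
      _ = |c'| * |g (x + v) - g x| + |g x| * |c' - c| := by rw [abs_mul, abs_mul]
      _ ≤ _ := by
        gcongr
        exact hw1 x
  have := grad_bound (contDiff_diff hgc v) hw1 hN q x
  rw [pd_diff hgd, hg, pd_diff (h.c2.differentiable (by norm_num))] at this
  calc _ ≤ _ := this
    _ = _ := by ring

lemma norm_smul_single (s : ℝ) (i : Fin n) : ‖(s • Pi.single i 1 : Fin n → ℝ)‖ = |s| := by
  rw [norm_smul, Pi.norm_single]; simp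

/-- Global bounds for the first and second derivatives and Lipschitz bound for the second
derivatives of a bounded entire solution. -/
theorem Sol.exists_bound {u : (Fin n → ℝ) → ℝ} (h : Sol u) : ∃ C, 0 < C ∧
    (∀ x i, |pd i u x| ≤ C) ∧ (∀ x i j, |pd i (pd j u) x| ≤ C) ∧
    (∀ x y i j, |pd i (pd j u) x - pd i (pd j u) y| ≤ C * ‖x - y‖) := by
  set L2 : ℝ := n * (n * (n + 1)) + n * (n + 1) with hL2
  set L3 : ℝ := n ^ 2 * L2 + n * L2 + 3 * n ^ 2 * (n + 1) ^ 2 with hL3
  have hL20 : 0 ≤ L2 := by (clear * -; positivity)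
  have hL30 : 0 ≤ L3 := by (clear * -; positivity)
  have hn : (0:ℝ) ≤ n := Nat.cast_nonneg n
  refine ⟨n + 1 + L2 + L3, by (clear * -; positivity), ?_, ?_, ?_⟩
  · intro x i
    have := h.pd_le i x
    linarith
  · intro x i j
    have hd : Differentiable ℝ (pd j u) := (contDiff_pd_one h.c2).differentiable (by norm_num)
    have h1 : HasDerivAt (fun s : ℝ => pd j u (x + s • Pi.single i 1)) (pd i (pd j u) x) 0 := by
      have := hasDerivAt_dir (w := pd j u) (x := x) (v := Pi.single i 1) (s := 0) (hd _)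
      simpa only [pd, zero_smul, add_zero] using this
    have h2 : |pd i (pd j u) x| ≤ L2 := by
      apply abs_deriv_le_of_lip h1
      intro s
      have := h.pd_diff_le x (s • Pi.single i 1) j
      rw [norm_smul_single] at this
      simpa only [zero_smul, add_zero, ge_iff_le] using this
    linarith only [hL30, h2]
  · intro x y i j
    have hd : Differentiable ℝ (pd j u) := (contDiff_pd_one h.c2).differentiable (by norm_num)
    have h1 : ∀ z, HasDerivAt (fun s : ℝ => pd j u (z + s • Pi.single i 1)) (pd i (pd j u) z) 0 := by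
      intro z
      have := hasDerivAt_dir (w := pd j u) (x := z) (v := Pi.single i 1) (s := 0) (hd _)
      simpa only [pd, zero_smul, add_zero] using this
    have h3 : |pd i (pd j u) x - pd i (pd j u) y| ≤ L3 * ‖x - y‖ := by
      apply abs_deriv_le_of_lip ((h1 x).fun_sub (h1 y))
      intro s
      have := h.second_diff_le y (x - y) (s • Pi.single i 1) j
      rw [show y + (x - y) = x by abel, norm_smul_single] at this
      have e : (pd j u (x + s • Pi.single i 1) - pd j u (y + s • Pi.single i 1))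
          - (pd j u (x + (0:ℝ) • Pi.single i 1) - pd j u (y + (0:ℝ) • Pi.single i 1))
          = (pd j u (x + s • Pi.single i 1) - pd j u x)
            - (pd j u (y + s • Pi.single i 1) - pd j u y) := by
        simp only [zero_smul, add_zero]; ring
      rw [e]
      exact this
    have h4 : 0 ≤ ((n:ℝ) + 1 + L2) * ‖x - y‖ := by (clear * -; positivity)
    calc _ ≤ _ := h3
      _ ≤ _ := by (clear * - L3 n x y L2 h4; linarith)

/-- The total derivative in terms of the partial derivatives. -/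
lemma fderiv_eq_sum_smul (g : (Fin n → ℝ) → ℝ) (x : Fin n → ℝ) :
    fderiv ℝ g x = ∑ i, pd i g x •
      (ContinuousLinearMap.proj (R := ℝ) (φ := fun _ : Fin n => ℝ) i) := by
  ext v
  rw [fderiv_eq_sum_pd]
  simp only [sum_apply, smul_apply, ContinuousLinearMap.proj_apply, smul_eq_mul, mul_comm]

lemma contDiff_one_of_pd {g : (Fin n → ℝ) → ℝ} (hg : Differentiable ℝ g)
    (hc : ∀ i, Continuous (pd i g)) : ContDiff ℝ 1 g := by
  rw [contDiff_one_iff_fderiv]
  refine ⟨hg, ?_⟩
  have : fderiv ℝ g = fun x => ∑ i, pd i g x •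
      (ContinuousLinearMap.proj (R := ℝ) (φ := fun _ : Fin n => ℝ) i) := by
    funext x; exact fderiv_eq_sum_smul g x
  rw [this]
  exact continuous_finsetSum _ fun i _ => (hc i).smul continuous_const

lemma contDiff_two_of_pd {g : (Fin n → ℝ) → ℝ} (hg : Differentiable ℝ g)
    (hd : ∀ i, Differentiable ℝ (pd i g)) (hc : ∀ i j, Continuous (pd i (pd j g))) :
    ContDiff ℝ 2 g := by
  have h2 : ContDiff ℝ (1 + 1) g := by
    rw [contDiff_succ_iff_fderiv]
    refine ⟨hg, by simp, ?_⟩
    have : fderiv ℝ g = fun x => ∑ i, pd i g x •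
        (ContinuousLinearMap.proj (R := ℝ) (φ := fun _ : Fin n => ℝ) i) := by
      funext x; exact fderiv_eq_sum_smul g x
    rw [this]
    apply ContDiff.sum
    intro i _
    exact (contDiff_one_of_pd (hd i) (fun j => hc j i)).smul contDiff_const
  have e : (1 + 1 : WithTop ℕ∞) = 2 := by norm_num
  rwa [e] at h2

/-- Taylor estimate from Lipschitz partial derivatives. -/
lemma taylor_le {g : (Fin n → ℝ) → ℝ} (hg : Differentiable ℝ g) {C : ℝ}
    (hC : ∀ x v i, |pd i g (x + v) - pd i g x| ≤ C * ‖v‖) (x v : Fin n → ℝ) :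
    |g (x + v) - g x - ∑ i, v i * pd i g x| ≤ n * C * ‖v‖ ^ 2 := by
  have hC0 : 0 ≤ C ∨ n = 0 := by
    rcases Nat.eq_zero_or_pos n with h0 | h0
    · exact Or.inr h0
    · left
      have := (abs_nonneg _).trans (hC 0 (Pi.single ⟨0, h0⟩ 1) ⟨0, h0⟩)
      rw [Pi.norm_single] at this
      simpa only [ge_iff_le, norm_one, mul_one] using this
  have hnC : 0 ≤ (n : ℝ) * C := by
    rcases hC0 with h | h
    · positivity
    · simp [h]
  have key := Convex.norm_image_sub_le_of_norm_hasFDerivWithin_le' (𝕜 := ℝ) (f := g)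
    (f' := fun z => fderiv ℝ g z) (φ := fderiv ℝ g x)
    (s := Metric.closedBall x ‖v‖) (C := n * C * ‖v‖) (x := x) (y := x + v)
    (fun z _ => (hg z).hasFDerivAt.hasFDerivWithinAt)
    (fun z hz => ?_) (convex_closedBall x ‖v‖) (Metric.mem_closedBall_self (norm_nonneg v)) (by
      simp [Metric.mem_closedBall, dist_eq_norm])
  · rw [← fderiv_eq_sum_pd]
    have e : x + v - x = v := by abel
    rw [e] at key
    calc |g (x + v) - g x - fderiv ℝ g x v| ≤ n * C * ‖v‖ * ‖v‖ := key
      _ = n * C * ‖v‖ ^ 2 := by ring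
  · apply ContinuousLinearMap.opNorm_le_bound _ (by (clear * - hnC; positivity))
    intro y
    have hz' : ‖z - x‖ ≤ ‖v‖ := by simpa only [Metric.mem_closedBall, dist_eq_norm] using hz
    rw [sub_apply, fderiv_eq_sum_pd, fderiv_eq_sum_pd,
      ← Finset.sum_sub_distrib]
    calc ‖∑ i, (y i * pd i g z - y i * pd i g x)‖
        ≤ ∑ i, ‖y i * pd i g z - y i * pd i g x‖ := norm_sum_le _ _
      _ ≤ ∑ _i : Fin n, C * ‖v‖ * ‖y‖ := by
          apply Finset.sum_le_sum
          intro i _
          rw [← mul_sub, norm_mul, mul_comm]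
          have h1 : ‖pd i g z - pd i g x‖ ≤ C * ‖v‖ := by
            have := hC x (z - x) i
            rw [show x + (z - x) = z by abel] at this
            have hCi : 0 ≤ C := by
              rcases hC0 with h | h
              · exact h
              · subst h; exact i.elim0
            exact this.trans (mul_le_mul_of_nonneg_left hz' hCi)
          exact mul_le_mul h1 (norm_le_pi_norm y i) (norm_nonneg _)
            ((norm_nonneg _).trans h1)
      _ = n * C * ‖v‖ * ‖y‖ := by simp only [Finset.sum_const, Finset.card_univ, Fintype.card_fin, nsmul_eq_mul]; ring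

lemma hasFDerivAt_of_quadratic {g : (Fin n → ℝ) → ℝ} {x : Fin n → ℝ}
    {L : (Fin n → ℝ) →L[ℝ] ℝ} {K : ℝ} (h : ∀ v, |g (x + v) - g x - L v| ≤ K * ‖v‖ ^ 2) :
    HasFDerivAt g L x := by
  rw [hasFDerivAt_iff_isLittleO_nhds_zero]
  have h1 : (fun v : Fin n → ℝ => g (x + v) - g x - L v) =O[𝓝 0] fun v => ‖v‖ ^ 2 := by
    apply Asymptotics.IsBigO.of_bound K
    filter_upwards with v
    simpa using h v
  exact h1.trans_isLittleO (Asymptotics.isLittleO_norm_pow_id one_lt_two)

/-- Pointwise convergence together with uniform Lipschitz bounds on the partial derivatives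
implies convergence of the partial derivatives. -/
lemma tendsto_pd_of_tendsto {ι : Type*} [SemilatticeSup ι] [Nonempty ι]
    {F : ι → (Fin n → ℝ) → ℝ} {U : (Fin n → ℝ) → ℝ} (hd : ∀ t, Differentiable ℝ (F t)) {C : ℝ}
    (hC : ∀ t x v i, |pd i (F t) (x + v) - pd i (F t) x| ≤ C * ‖v‖)
    (hlim : ∀ x, Tendsto (fun t => F t x) atTop (𝓝 (U x))) :
    Differentiable ℝ U ∧ (∀ x i, Tendsto (fun t => pd i (F t) x) atTop (𝓝 (pd i U x))) ∧
      (∀ x v i, |pd i U (x + v) - pd i U x| ≤ C * ‖v‖) := by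
  -- the partial derivatives are Cauchy
  have hcau : ∀ x i, ∃ p, Tendsto (fun t => pd i (F t) x) atTop (𝓝 p) := by
    intro x i
    apply cauchySeq_tendsto_of_complete
    rw [Metric.cauchySeq_iff]
    intro ε hε
    have hn : 0 < (n : ℝ) := by
      have : 0 < n := lt_of_le_of_lt (Nat.zero_le _) i.isLt
      exact_mod_cast this
    have hC0 : 0 ≤ C := by
      have := (abs_nonneg _).trans (hC (Classical.arbitrary ι) 0 (Pi.single i 1) i)
      rw [Pi.norm_single] at this
      simpa only [ge_iff_le, norm_one, mul_one] using this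
    set s : ℝ := ε / (4 * (n * C + 1)) with hs
    have hs0 : 0 < s := by (clear * - hε hn hC0; positivity)
    have hsC : n * C * s ≤ ε / 4 := by
      rw [hs, mul_div_assoc', div_le_div_iff₀ (by (clear * - hn hC0; positivity)) (by norm_num)]
      (clear * - n C ε hε hn hC0; linarith)
    have h1 := (hlim (x + s • Pi.single i 1)).cauchySeq
    have h2 := (hlim x).cauchySeq
    rw [Metric.cauchySeq_iff] at h1 h2
    obtain ⟨T1, hT1⟩ := h1 (ε * s / 8) (by (clear * - hε hn hC0; positivity))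
    obtain ⟨T2, hT2⟩ := h2 (ε * s / 8) (by (clear * - hε hn hC0; positivity))
    refine ⟨T1 ⊔ T2, fun m hm k hk => ?_⟩
    have a1 := hT1 m (le_sup_left.trans hm) k (le_sup_left.trans hk)
    have a2 := hT2 m (le_sup_right.trans hm) k (le_sup_right.trans hk)
    have hT : ∀ t, |F t (x + s • Pi.single i 1) - F t x - s * pd i (F t) x| ≤ n * C * s ^ 2 := by
      intro t
      have := taylor_le (hd t) (hC t) x (s • Pi.single i 1)
      rw [norm_smul_single, abs_of_pos hs0] at this
      have e : ∑ j, (s • Pi.single i 1 : Fin n → ℝ) j * pd j (F t) x = s * pd i (F t) x := by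
        simp only [Pi.smul_apply, Pi.single_apply, smul_eq_mul, mul_ite, mul_one, mul_zero, ite_mul, zero_mul, Finset.sum_ite_eq', Finset.mem_univ, ↓reduceIte]
      rwa [e] at this
    have b1 := hT m
    have b2 := hT k
    rw [Real.dist_eq] at *
    have hsq : n * C * s ^ 2 ≤ ε / 4 * s := by
      calc n * C * s ^ 2 = (n * C * s) * s := by ring
        _ ≤ ε / 4 * s := mul_le_mul_of_nonneg_right hsC hs0.le
    have e : s * (pd i (F m) x - pd i (F k) x)
        = (F m (x + s • Pi.single i 1) - F k (x + s • Pi.single i 1)) - (F m x - F k x)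
          - (F m (x + s • Pi.single i 1) - F m x - s * pd i (F m) x)
          + (F k (x + s • Pi.single i 1) - F k x - s * pd i (F k) x) := by ring
    have hfin : |s * (pd i (F m) x - pd i (F k) x)| < s * ε := by
      rw [e]
      rw [abs_lt]
      rw [abs_lt] at a1 a2
      rw [abs_le] at b1 b2
      constructor <;> (clear * - s ε F m n x i k C a1 a2 b1 b2 hsq; linarith)
    rw [abs_mul, abs_of_pos hs0] at hfin
    exact lt_of_mul_lt_mul_left hfin hs0.le
  choose P hP using hcau
  have hquad : ∀ x v, |U (x + v) - U x - ∑ i, v i * P x i| ≤ n * C * ‖v‖ ^ 2 := by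
    intro x v
    have hl : Tendsto (fun t => |F t (x + v) - F t x - ∑ i, v i * pd i (F t) x|) atTop
        (𝓝 |U (x + v) - U x - ∑ i, v i * P x i|) := by
      apply Tendsto.abs
      apply Tendsto.sub ((hlim (x + v)).sub (hlim x))
      exact tendsto_finsetSum _ fun i _ => (hP x i).const_mul (v i)
    exact le_of_tendsto hl (Filter.Eventually.of_forall fun t => taylor_le (hd t) (hC t) x v)
  have hfd : ∀ x, HasFDerivAt U (∑ i, P x i •
      (ContinuousLinearMap.proj (R := ℝ) (φ := fun _ : Fin n => ℝ) i)) x := by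
    intro x
    apply hasFDerivAt_of_quadratic (K := n * C)
    intro v
    have := hquad x v
    have e : (∑ i, P x i • (ContinuousLinearMap.proj (R := ℝ) (φ := fun _ : Fin n => ℝ) i)) v
        = ∑ i, v i * P x i := by
      simp only [sum_apply, smul_apply, ContinuousLinearMap.proj_apply, smul_eq_mul, mul_comm]
    rwa [e]
  have hpd : ∀ x i, pd i U x = P x i := by
    intro x i
    unfold pd
    rw [(hfd x).fderiv]
    simp only [sum_apply, smul_apply, ContinuousLinearMap.proj_apply, Pi.single_apply, smul_eq_mul, mul_ite, mul_one, mul_zero, Finset.sum_ite_eq', Finset.mem_univ, ↓reduceIte]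
  refine ⟨fun x => (hfd x).differentiableAt, ?_, ?_⟩
  · intro x i
    rw [hpd]; exact hP x i
  · intro x v i
    rw [hpd, hpd]
    have hl : Tendsto (fun t => |pd i (F t) (x + v) - pd i (F t) x|) atTop
        (𝓝 |P (x + v) i - P x i|) := ((hP (x + v) i).sub (hP x i)).abs
    exact le_of_tendsto hl (Filter.Eventually.of_forall fun t => hC t x v i)

lemma pd_shift_fun (w : (Fin n → ℝ) → ℝ) (v : Fin n → ℝ) (i : Fin n) :
    pd i (fun y => w (y + v)) = fun y => pd i w (y + v) := by
  funext y; exact pd_shift v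

/-- Translates of solutions are solutions. -/
lemma Sol.shift {u : (Fin n → ℝ) → ℝ} (h : Sol u) (v : Fin n → ℝ) : Sol (fun y => u (y + v)) where
  c2 := h.c2.comp (contDiff_id.add contDiff_const)
  bd := fun x => h.bd _
  eq := fun x => by
    simp_rw [pd_shift_fun]
    exact h.eq _

/-- Pointwise limits of solutions are solutions, and all derivatives up to order two converge. -/
theorem Sol.of_tendsto {ι : Type*} [SemilatticeSup ι] [Nonempty ι]
    {F : ι → (Fin n → ℝ) → ℝ} {U : (Fin n → ℝ) → ℝ} (hF : ∀ t, Sol (F t))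
    (hlim : ∀ x, Tendsto (fun t => F t x) atTop (𝓝 (U x))) :
    Sol U ∧ (∀ x i, Tendsto (fun t => pd i (F t) x) atTop (𝓝 (pd i U x))) ∧
      (∀ x i j, Tendsto (fun t => pd i (pd j (F t)) x) atTop (𝓝 (pd i (pd j U) x))) := by
  have hd : ∀ t, Differentiable ℝ (F t) := fun t => (hF t).c2.differentiable (by norm_num)
  obtain ⟨hUd, hU1, -⟩ := tendsto_pd_of_tendsto hd (fun t x v i => (hF t).pd_diff_le x v i) hlim
  set L3 : ℝ := n ^ 2 * (n * (n * (n + 1)) + n * (n + 1)) + n * (n * (n * (n + 1)) + n * (n + 1))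
          + 3 * n ^ 2 * (n + 1) ^ 2 with hL3
  have hlip : ∀ t x v i j, |pd i (pd j (F t)) (x + v) - pd i (pd j (F t)) x| ≤ L3 * ‖v‖ := by
    intro t x v i j
    have hdj : Differentiable ℝ (pd j (F t)) :=
      (contDiff_pd_one (hF t).c2).differentiable (by norm_num)
    have h1 : ∀ z, HasDerivAt (fun s : ℝ => pd j (F t) (z + s • Pi.single i 1))
        (pd i (pd j (F t)) z) 0 := by
      intro z
      have := hasDerivAt_dir (w := pd j (F t)) (x := z) (v := Pi.single i 1) (s := 0) (hdj _)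
      simpa only [pd, zero_smul, add_zero] using this
    apply abs_deriv_le_of_lip ((h1 (x + v)).fun_sub (h1 x))
    intro s
    have := (hF t).second_diff_le x v (s • Pi.single i 1) j
    rw [norm_smul_single] at this
    have e : (pd j (F t) (x + v + s • Pi.single i 1) - pd j (F t) (x + s • Pi.single i 1))
        - (pd j (F t) (x + v + (0:ℝ) • Pi.single i 1) - pd j (F t) (x + (0:ℝ) • Pi.single i 1))
        = (pd j (F t) (x + v + s • Pi.single i 1) - pd j (F t) (x + v))
          - (pd j (F t) (x + s • Pi.single i 1) - pd j (F t) x) := by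
      simp only [zero_smul, add_zero]; ring
    rw [e]
    exact this
  have hstep : ∀ j, Differentiable ℝ (pd j U) ∧
      (∀ x i, Tendsto (fun t => pd i (pd j (F t)) x) atTop (𝓝 (pd i (pd j U) x))) ∧
      (∀ x v i, |pd i (pd j U) (x + v) - pd i (pd j U) x| ≤ L3 * ‖v‖) := by
    intro j
    exact tendsto_pd_of_tendsto
      (fun t => (contDiff_pd_one (hF t).c2).differentiable (by norm_num))
      (fun t x v i => hlip t x v i j) (fun x => hU1 x j)
  have hcont : ∀ i j, Continuous (pd i (pd j U)) := by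
    intro i j
    rw [Metric.continuous_iff]
    intro x ε hε
    refine ⟨ε / (|L3| + 1), by (clear * - hε; positivity), fun y hy => ?_⟩
    have h1 := (hstep j).2.2 x (y - x) i
    rw [show x + (y - x) = y by abel] at h1
    rw [dist_eq_norm] at hy
    rw [Real.dist_eq]
    calc |pd i (pd j U) y - pd i (pd j U) x| ≤ L3 * ‖y - x‖ := h1
      _ ≤ (|L3| + 1) * ‖y - x‖ := by
          apply mul_le_mul_of_nonneg_right _ (norm_nonneg _)
          linarith only [le_abs_self L3]
      _ < (|L3| + 1) * (ε / (|L3| + 1)) := by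
          apply mul_lt_mul_of_pos_left hy (by (clear * -; positivity))
      _ = ε := by (clear * - hε; field_simp)
  refine ⟨⟨?_, ?_, ?_⟩, hU1, fun x i j => (hstep j).2.1 x i⟩
  · exact contDiff_two_of_pd hUd (fun i => (hstep i).1) hcont
  · intro x
    exact le_of_tendsto (hlim x).abs (Filter.Eventually.of_forall fun t => (hF t).bd x)
  · intro x
    have h1 : Tendsto (fun t => ∑ i, pd i (pd i (F t)) x) atTop (𝓝 (∑ i, pd i (pd i U) x)) :=
      tendsto_finsetSum _ fun i _ => (hstep i).2.1 x i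
    have h2 : Tendsto (fun t => F t x ^ 3 - F t x) atTop (𝓝 (U x ^ 3 - U x)) :=
      ((hlim x).pow 3).sub (hlim x)
    have h3 : (fun t => ∑ i, pd i (pd i (F t)) x) = fun t => F t x ^ 3 - F t x := by
      funext t; exact (hF t).eq x
    rw [h3] at h1
    exact tendsto_nhds_unique h1 h2

/-- The limit profile of a monotone solution. -/
theorem Sol.exists_profile {u : (Fin n → ℝ) → ℝ} (h : Sol u) (q : Fin n)
    (hq : ∀ x, 0 < pd q u x) : ∃ U : (Fin n → ℝ) → ℝ, Sol U ∧
      (∀ x, Tendsto (fun t : ℝ => u (x + t • Pi.single q 1)) atTop (𝓝 (U x))) ∧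
      (∀ x i, Tendsto (fun t : ℝ => pd i u (x + t • Pi.single q 1)) atTop (𝓝 (pd i U x))) ∧
      (∀ x i j, Tendsto (fun t : ℝ => pd i (pd j u) (x + t • Pi.single q 1)) atTop
        (𝓝 (pd i (pd j U) x))) ∧
      (∀ x (t : ℝ), U (x + t • Pi.single q 1) = U x) := by
  have hmono : ∀ x, Monotone (fun t : ℝ => u (x + t • Pi.single q 1)) := by
    intro x
    apply monotone_of_deriv_nonneg
    · intro s
      exact (hasDerivAt_dir ((h.c2.differentiable (by norm_num)) _)).differentiableAt
    · intro s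
      rw [(hasDerivAt_dir ((h.c2.differentiable (by norm_num)) _)).deriv]
      exact (hq _).le
  have hbdd : ∀ x, BddAbove (Set.range (fun t : ℝ => u (x + t • Pi.single q 1))) := by
    intro x
    refine ⟨1, ?_⟩
    rintro _ ⟨t, rfl⟩
    exact (abs_le.mp (h.bd _)).2
  set U : (Fin n → ℝ) → ℝ := fun x => ⨆ t : ℝ, u (x + t • Pi.single q 1) with hU
  have hlim : ∀ x, Tendsto (fun t : ℝ => u (x + t • Pi.single q 1)) atTop (𝓝 (U x)) :=
    fun x => tendsto_atTop_ciSup (hmono x) (hbdd x)
  obtain ⟨h1, h2, h3⟩ := Sol.of_tendsto (ι := ℝ)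
    (F := fun t y => u (y + t • Pi.single q 1)) (fun t => h.shift _) hlim
  refine ⟨U, h1, hlim, ?_, ?_, ?_⟩
  · intro x i
    have := h2 x i
    simpa [pd_shift_fun] using this
  · intro x i j
    have := h3 x i j
    simpa [pd_shift_fun] using this
  · intro x t
    have h4 : Tendsto (fun s : ℝ => u (x + (s + t) • Pi.single q 1)) atTop (𝓝 (U x)) :=
      (hlim x).comp (tendsto_atTop_add_const_right atTop t tendsto_id)
    have h5 := hlim (x + t • Pi.single q 1)
    have e : (fun s : ℝ => u (x + t • Pi.single q 1 + s • Pi.single q 1))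
        = fun s : ℝ => u (x + (s + t) • Pi.single q 1) := by
      funext s
      congr 1
      rw [add_smul]; abel
    rw [e] at h5
    exact tendsto_nhds_unique h5 h4

end Vale.Agent.P134
end
end

section

section

open Filter Topology

namespace Vale.Agent.P134

variable {n : ℕ}

/-- Squared Euclidean norm. -/
def esq (z : Fin n → ℝ) : ℝ := ∑ i, z i ^ 2

/-- Euclidean norm. -/
noncomputable def eno (z : Fin n → ℝ) : ℝ := Real.sqrt (esq z)

lemma esq_nonneg (z : Fin n → ℝ) : 0 ≤ esq z := Finset.sum_nonneg fun _ _ => sq_nonneg _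

lemma eno_nonneg (z : Fin n → ℝ) : 0 ≤ eno z := Real.sqrt_nonneg _

lemma eno_sq (z : Fin n → ℝ) : eno z ^ 2 = esq z := Real.sq_sqrt (esq_nonneg z)

lemma continuous_esq : Continuous (esq : (Fin n → ℝ) → ℝ) := by
  unfold esq; fun_prop

lemma continuous_eno : Continuous (eno : (Fin n → ℝ) → ℝ) := by
  unfold eno; exact continuous_esq.sqrt

lemma norm_le_eno (z : Fin n → ℝ) : ‖z‖ ≤ eno z := by
  rw [pi_norm_le_iff_of_nonneg (eno_nonneg z)]
  intro i
  rw [Real.norm_eq_abs]
  apply Real.abs_le_sqrt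
  exact Finset.single_le_sum (f := fun j => z j ^ 2) (fun i _ => sq_nonneg _) (Finset.mem_univ i)

lemma eno_pos {z : Fin n → ℝ} (hz : z ≠ 0) : 0 < eno z :=
  lt_of_lt_of_le (norm_pos_iff.mpr hz) (norm_le_eno z)

lemma esq_add_smul_single (z : Fin n → ℝ) (s : ℝ) (i : Fin n) :
    esq (z + s • Pi.single i 1) = esq z + 2 * s * z i + s ^ 2 := by
  unfold esq
  have h : ∀ j, (z + s • Pi.single i 1 : Fin n → ℝ) j ^ 2
      = z j ^ 2 + (if j = i then 2 * s * z i + s ^ 2 else 0) := by
    intro j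
    by_cases hj : j = i
    · subst hj; simp; ring
    · simp [hj]
  simp_rw [h]
  rw [Finset.sum_add_distrib]
  simp only [Finset.sum_ite_eq', Finset.mem_univ, ↓reduceIte]
  ring

lemma hasDerivAt_eno_line {z : Fin n → ℝ} (hz : z ≠ 0) (i : Fin n) :
    HasDerivAt (fun s : ℝ => eno (z + s • Pi.single i 1)) (z i / eno z) 0 := by
  have hpos : 0 < eno z := eno_pos hz
  have hsq : 0 < esq z := by rw [← eno_sq]; positivity
  have h1 : HasDerivAt (fun s : ℝ => esq z + 2 * s * z i + s ^ 2) (2 * z i) 0 := by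
    have e1 : HasDerivAt (fun s : ℝ => s ^ 2) 0 0 := by
      simpa only [Nat.cast_ofNat, Nat.add_one_sub_one, pow_one, mul_zero] using (hasDerivAt_pow 2 (0 : ℝ))
    have e2 : HasDerivAt (fun s : ℝ => 2 * s * z i) (2 * z i) 0 := by
      simpa using ((hasDerivAt_id' (0:ℝ)).const_mul 2).mul_const (z i)
    simpa using (e2.const_add (esq z)).fun_add e1
  have h2 := h1.sqrt (by simpa using hsq.ne')
  have e : (fun s : ℝ => eno (z + s • Pi.single i 1))
      = fun s : ℝ => Real.sqrt (esq z + 2 * s * z i + s ^ 2) := by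
    funext s; unfold eno; rw [esq_add_smul_single]
  rw [e]
  convert h2 using 1
  simp only [mul_zero, zero_mul, add_zero, ne_eq, OfNat.ofNat_ne_zero, not_false_eq_true, zero_pow]
  unfold eno
  rw [mul_div_mul_left _ _ two_ne_zero]

/-- The two-point function. -/
noncomputable def twoPt (v : (Fin n → ℝ) → ℝ) (l δ : ℝ) (x y : Fin n → ℝ) : ℝ :=
  v y - v x - l * eno (y - x) - δ * esq x

lemma exists_max_twoPt {v : (Fin n → ℝ) → ℝ} (hv : Continuous v) {K l δ : ℝ}
    (hK : ∀ x, |v x| ≤ K) (hl : 0 < l) (hδ : 0 < δ) {x0 y0 : Fin n → ℝ}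
    (h0 : 0 ≤ twoPt v l δ x0 y0) :
    ∃ x y, ∀ x' y', twoPt v l δ x' y' ≤ twoPt v l δ x y := by
  have hK0 : 0 ≤ K := (abs_nonneg _).trans (hK 0)
  set R1 : ℝ := Real.sqrt (2 * K / δ) with hR1
  set R : ℝ := R1 + 2 * K / l with hR
  have hin : ∀ x y, 0 ≤ twoPt v l δ x y → ‖x‖ ≤ R ∧ ‖y‖ ≤ R := by
    intro x y h
    unfold twoPt at h
    have a1 := (abs_le.mp (hK x)).1
    have a2 := (abs_le.mp (hK y)).2
    have b1 : 0 ≤ l * eno (y - x) := mul_nonneg hl.le (eno_nonneg _)
    have b2 : 0 ≤ δ * esq x := mul_nonneg hδ.le (esq_nonneg _)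
    have c1 : eno (y - x) ≤ 2 * K / l := by
      rw [le_div_iff₀ hl]; linarith only [h, a1, a2, b2]
    have c2 : eno x ≤ R1 := by
      rw [hR1]; unfold eno
      apply Real.sqrt_le_sqrt
      rw [le_div_iff₀ hδ]; linarith only [h, a1, a2, b1]
    have c3 : ‖x‖ ≤ R1 := (norm_le_eno x).trans c2
    have c4 : ‖y - x‖ ≤ 2 * K / l := (norm_le_eno _).trans c1
    have c5 : 0 ≤ 2 * K / l := by (clear * - hK0 hl; positivity)
    refine ⟨by linarith only [c3, c5], ?_⟩
    have : ‖y‖ ≤ ‖y - x‖ + ‖x‖ := by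
      have := norm_add_le (y - x) x
      rwa [sub_add_cancel] at this
    linarith only [c3, c4, this]
  have hcomp : IsCompact ((Metric.closedBall (0 : Fin n → ℝ) R) ×ˢ
      (Metric.closedBall (0 : Fin n → ℝ) R)) :=
    (isCompact_closedBall _ _).prod (isCompact_closedBall _ _)
  have hcont : Continuous (fun p : (Fin n → ℝ) × (Fin n → ℝ) => twoPt v l δ p.1 p.2) := by
    unfold twoPt
    exact (((hv.comp continuous_snd).sub (hv.comp continuous_fst)).sub
      (continuous_const.mul (continuous_eno.comp (continuous_snd.sub continuous_fst)))).sub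
      (continuous_const.mul (continuous_esq.comp continuous_fst))
  have hmem : ∀ x y, 0 ≤ twoPt v l δ x y → (x, y) ∈ ((Metric.closedBall (0 : Fin n → ℝ) R) ×ˢ
      (Metric.closedBall (0 : Fin n → ℝ) R)) := by
    intro x y h
    have := hin x y h
    simp only [Set.mem_prod, Metric.mem_closedBall, dist_zero_right, this, and_self]
  obtain ⟨p, hp, hmax⟩ := hcomp.exists_isMaxOn ⟨(x0, y0), hmem x0 y0 h0⟩ hcont.continuousOn
  refine ⟨p.1, p.2, fun x' y' => ?_⟩
  by_cases h : 0 ≤ twoPt v l δ x' y'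
  · exact hmax (hmem x' y' h)
  · push Not at h
    exact h.le.trans (h0.trans (hmax (hmem x0 y0 h0)))

lemma hasDerivAt_dir0 {w : (Fin n → ℝ) → ℝ} (hw : Differentiable ℝ w) (x : Fin n → ℝ)
    (i : Fin n) : HasDerivAt (fun s : ℝ => w (x + s • Pi.single i 1)) (pd i w x) 0 := by
  have := hasDerivAt_dir (w := w) (x := x) (v := Pi.single i 1) (s := 0) (hw _)
  simpa only [pd, zero_smul, add_zero] using this

lemma deriv2_line' {w : (Fin n → ℝ) → ℝ} (hw : ContDiff ℝ 2 w) (x a : Fin n → ℝ) :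
    HasDerivAt (deriv (fun s : ℝ => w (x + s • a))) (fderiv ℝ (fderiv ℝ w) x a a) 0 := by
  have hd : Differentiable ℝ w := hw.differentiable (by norm_num)
  have hd2 : Differentiable ℝ (fderiv ℝ w) :=
    (hw.fderiv_right (m := 1) (by norm_num)).differentiable (by norm_num)
  have h1 : deriv (fun s : ℝ => w (x + s • a)) = fun s : ℝ => fderiv ℝ w (x + s • a) a := by
    funext s
    exact (hasDerivAt_dir (hd _)).deriv
  rw [h1]
  have h2 : HasDerivAt (fun s : ℝ => x + s • a) a 0 := by
    simpa using ((hasDerivAt_id (0:ℝ)).smul_const a).const_add x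
  have h3 : HasFDerivAt (fderiv ℝ w) (fderiv ℝ (fderiv ℝ w) x) (x + (0:ℝ) • a) := by
    simpa using (hd2 x).hasFDerivAt
  have h4 := h3.comp_hasDerivAt (0:ℝ) h2
  have h5 := h4.clm_apply (hasDerivAt_const (0:ℝ) a)
  simpa using h5

lemma pd_pd_eq_fderiv2 {w : (Fin n → ℝ) → ℝ} (hw : ContDiff ℝ 2 w) (x : Fin n → ℝ) (i j : Fin n) :
    pd i (pd j w) x = fderiv ℝ (fderiv ℝ w) x (Pi.single i 1) (Pi.single j 1) := by
  have hd : DifferentiableAt ℝ (fderiv ℝ w) x :=
    ((hw.fderiv_right (m := 1) (by norm_num)).differentiable (by norm_num)) x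
  unfold pd
  rw [fderiv_clm_apply hd (differentiableAt_const _)]
  simp only [fderiv_fun_const, Pi.zero_apply, ContinuousLinearMap.comp_zero, zero_add, ContinuousLinearMap.flip_apply]

/-- Two-point maximum principle: reflection coupling. -/
lemma two_point {v : (Fin n → ℝ) → ℝ} (hv : ContDiff ℝ 2 v) {l δ : ℝ}
    {x y : Fin n → ℝ} (hxy : x ≠ y)
    (hmax : ∀ x' y', twoPt v l δ x' y' ≤ twoPt v l δ x y) :
    ∃ ν : Fin n → ℝ, esq ν = 1 ∧ (∀ i, pd i v y = l * ν i) ∧
      (∀ i, pd i v x = l * ν i - 2 * δ * x i) ∧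
      ∑ i, pd i (pd i v) y - ∑ i, pd i (pd i v) x ≤ 2 * n * δ := by
  have hd : Differentiable ℝ v := hv.differentiable (by norm_num)
  set z : Fin n → ℝ := y - x with hz
  have hz0 : z ≠ 0 := sub_ne_zero.mpr (Ne.symm hxy)
  have hr : 0 < eno z := eno_pos hz0
  set r : ℝ := eno z with hrdef
  set ν : Fin n → ℝ := fun i => z i / r with hν
  have hzν : ∀ i, z i = r * ν i := by intro i; rw [hν]; (clear * - hr; field_simp)
  have hν1 : esq ν = 1 := by
    unfold esq
    have : ∀ i, ν i ^ 2 = z i ^ 2 / r ^ 2 := by intro i; rw [hν]; ring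
    simp_rw [this]
    rw [← Finset.sum_div]
    change esq z / r ^ 2 = 1
    rw [hrdef, eno_sq]
    have : 0 < esq z := by rw [← eno_sq]; positivity
    exact div_self this.ne'
  -- first order conditions
  have hfy : ∀ i, pd i v y = l * ν i := by
    intro i
    have g1 : HasDerivAt (fun s : ℝ => v (y + s • Pi.single i 1)) (pd i v y) 0 :=
      hasDerivAt_dir0 hd y i
    have g2 : HasDerivAt (fun s : ℝ => eno (z + s • Pi.single i 1)) (ν i) 0 :=
      hasDerivAt_eno_line hz0 i
    have g3 : HasDerivAt (fun s : ℝ => twoPt v l δ x (y + s • Pi.single i 1))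
        (pd i v y - l * ν i) 0 := by
      have h1 := ((g1.sub_const (v x)).fun_sub (g2.const_mul l)).sub_const (δ * esq x)
      have e : (fun s : ℝ => twoPt v l δ x (y + s • Pi.single i 1)) = fun s : ℝ =>
          v (y + s • Pi.single i 1) - v x - l * eno (z + s • Pi.single i 1) - δ * esq x := by
        funext s
        unfold twoPt
        have : y + s • Pi.single i 1 - x = z + s • Pi.single i 1 := by rw [hz]; abel
        rw [this]
      rw [e]
      exact h1
    have g4 : IsLocalMax (fun s : ℝ => twoPt v l δ x (y + s • Pi.single i 1)) 0 := by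
      apply Filter.Eventually.of_forall
      intro s
      simpa only [zero_smul, add_zero] using hmax x (y + s • Pi.single i 1)
    have := g4.hasDerivAt_eq_zero g3
    linarith only [this]
  have hfx : ∀ i, pd i v x = l * ν i - 2 * δ * x i := by
    intro i
    have g1 : HasDerivAt (fun s : ℝ => v (x + s • Pi.single i 1)) (pd i v x) 0 :=
      hasDerivAt_dir0 hd x i
    have g2 : HasDerivAt (fun s : ℝ => eno (z + (-s) • Pi.single i 1)) (-(ν i)) 0 := by
      have h0 : HasDerivAt (fun s : ℝ => eno (z + s • Pi.single i 1)) (ν i) (-0) := by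
        simpa using hasDerivAt_eno_line hz0 i
      have := h0.scomp (0 : ℝ) (hasDerivAt_neg (0:ℝ))
      simpa only [neg_smul, Function.comp_def, smul_eq_mul, neg_mul, one_mul] using this
    have g5 : HasDerivAt (fun s : ℝ => esq (x + s • Pi.single i 1)) (2 * x i) 0 := by
      have e : (fun s : ℝ => esq (x + s • Pi.single i 1)) = fun s : ℝ => esq x + 2 * s * x i + s ^ 2 := by
        funext s; rw [esq_add_smul_single]
      rw [e]
      have e1 : HasDerivAt (fun s : ℝ => s ^ 2) 0 0 := by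
        simpa only [Nat.cast_ofNat, Nat.add_one_sub_one, pow_one, mul_zero] using (hasDerivAt_pow 2 (0 : ℝ))
      have e2 : HasDerivAt (fun s : ℝ => 2 * s * x i) (2 * x i) 0 := by
        simpa only [mul_one] using ((hasDerivAt_id' (0 : ℝ)).const_mul 2).mul_const (x i)
      simpa using (e2.const_add (esq x)).fun_add e1
    have g3 : HasDerivAt (fun s : ℝ => twoPt v l δ (x + s • Pi.single i 1) y)
        (0 - pd i v x - l * (-(ν i)) - δ * (2 * x i)) 0 := by
      have h1 := (((hasDerivAt_const (0:ℝ) (v y)).fun_sub g1).fun_sub (g2.const_mul l)).fun_sub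
        (g5.const_mul δ)
      have e : (fun s : ℝ => twoPt v l δ (x + s • Pi.single i 1) y) = fun s : ℝ =>
          v y - v (x + s • Pi.single i 1) - l * eno (z + (-s) • Pi.single i 1)
            - δ * esq (x + s • Pi.single i 1) := by
        funext s
        unfold twoPt
        have : y - (x + s • Pi.single i 1) = z + (-s) • Pi.single i 1 := by
          rw [hz, neg_smul]; abel
        rw [this]
      rw [e]
      exact h1
    have g4 : IsLocalMax (fun s : ℝ => twoPt v l δ (x + s • Pi.single i 1) y) 0 := by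
      apply Filter.Eventually.of_forall
      intro s
      simpa only [zero_smul, add_zero] using hmax (x + s • Pi.single i 1) y
    have := g4.hasDerivAt_eq_zero g3
    linarith only [this]
  refine ⟨ν, hν1, hfy, hfx, ?_⟩
  -- second order condition
  set By := fderiv ℝ (fderiv ℝ v) y with hBy
  set Bx := fderiv ℝ (fderiv ℝ v) x with hBx
  set a : Fin n → (Fin n → ℝ) := fun i => Pi.single i 1 - (2 * ν i) • ν with ha
  have hsec : ∀ i, By (a i) (a i) - Bx (Pi.single i 1) (Pi.single i 1) - 2 * δ ≤ 0 := by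
    intro i
    set g : ℝ → ℝ := fun s => v (y + s • a i) - v (x + s • Pi.single i 1)
      - l * (r - 2 * s * ν i) - δ * (esq x + 2 * s * x i + s ^ 2) with hg
    have hgd : Differentiable ℝ g := by
      intro s
      have d1 : DifferentiableAt ℝ (fun s : ℝ => v (y + s • a i)) s :=
        (hasDerivAt_dir (hd _)).differentiableAt
      have d2 : DifferentiableAt ℝ (fun s : ℝ => v (x + s • (Pi.single i 1 : Fin n → ℝ))) s :=
        (hasDerivAt_dir (hd _)).differentiableAt
      exact ((d1.fun_sub d2).fun_sub (by fun_prop)).fun_sub (by fun_prop)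
    have hgmax : IsLocalMax g 0 := by
      have hcont : Tendsto (fun s : ℝ => r - 2 * s * ν i) (𝓝 0) (𝓝 r) := by
        have : Continuous (fun s : ℝ => r - 2 * s * ν i) := by fun_prop
        simpa only [mul_zero, zero_mul, sub_zero] using this.tendsto 0
      have hpos : ∀ᶠ s : ℝ in 𝓝 0, 0 < r - 2 * s * ν i := hcont.eventually (lt_mem_nhds hr)
      filter_upwards [hpos] with s hs
      have e1 : eno (y + s • a i - (x + s • Pi.single i 1)) = r - 2 * s * ν i := by
        have e2 : y + s • a i - (x + s • Pi.single i 1) = fun j => (r - 2 * s * ν i) * ν j := by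
          funext j
          have := hzν j
          simp only [hz, Pi.sub_apply] at this
          simp only [ha, Pi.sub_apply, Pi.add_apply, Pi.smul_apply, smul_eq_mul]
          linear_combination this
        rw [e2]
        unfold eno esq
        have e3 : ∀ j, ((r - 2 * s * ν i) * ν j) ^ 2 = (r - 2 * s * ν i) ^ 2 * ν j ^ 2 := by
          intro j; ring
        simp_rw [e3]
        rw [← Finset.mul_sum]
        change Real.sqrt ((r - 2 * s * ν i) ^ 2 * esq ν) = _
        rw [hν1, mul_one, Real.sqrt_sq hs.le]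
      have h1 := hmax (x + s • Pi.single i 1) (y + s • a i)
      unfold twoPt at h1
      rw [e1, esq_add_smul_single] at h1
      have h2 : g 0 = v y - v x - l * eno (y - x) - δ * esq x := by
        simp only [hg, hrdef, hz, zero_smul, add_zero, mul_zero, zero_mul, sub_zero, ne_eq, OfNat.ofNat_ne_zero, not_false_eq_true, zero_pow]
      rw [h2]
      exact h1
    have h1 := deriv2_nonpos hgd hgmax
    have h2 : deriv g = fun s => deriv (fun s : ℝ => v (y + s • a i)) s
        - deriv (fun s : ℝ => v (x + s • (Pi.single i 1 : Fin n → ℝ))) s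
        - l * (- (2 * ν i)) - δ * (2 * x i + 2 * s) := by
      funext s
      have d1 : DifferentiableAt ℝ (fun s : ℝ => v (y + s • a i)) s :=
        (hasDerivAt_dir (hd _)).differentiableAt
      have d2 : DifferentiableAt ℝ (fun s : ℝ => v (x + s • (Pi.single i 1 : Fin n → ℝ))) s :=
        (hasDerivAt_dir (hd _)).differentiableAt
      have d3 : HasDerivAt (fun s : ℝ => r - 2 * s * ν i) (- (2 * ν i)) s := by
        simpa only [mul_one] using (((hasDerivAt_id' s).const_mul 2).mul_const (ν i)).const_sub r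
      have d4 : HasDerivAt (fun s : ℝ => esq x + 2 * s * x i + s ^ 2) (2 * x i + 2 * s) s := by
        have e1 : HasDerivAt (fun s : ℝ => s ^ 2) (2 * s) s := by
          simpa only [Nat.cast_ofNat, Nat.add_one_sub_one, pow_one] using (hasDerivAt_pow 2 s)
        have e2 : HasDerivAt (fun s : ℝ => 2 * s * x i) (2 * x i) s := by
          simpa using ((hasDerivAt_id' s).const_mul 2).mul_const (x i)
        exact (e2.const_add (esq x)).fun_add e1
      exact (((d1.hasDerivAt.fun_sub d2.hasDerivAt).fun_sub (d3.const_mul l)).fun_sub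
        (d4.const_mul δ)).deriv
    have h3 : HasDerivAt (deriv g) (By (a i) (a i) - Bx (Pi.single i 1) (Pi.single i 1)
        - δ * 2) 0 := by
      rw [h2]
      have k1 := deriv2_line' hv y (a i)
      have k2 := deriv2_line' hv x (Pi.single i 1)
      have k3 : HasDerivAt (fun s : ℝ => 2 * x i + 2 * s) 2 0 := by
        simpa using ((hasDerivAt_id' (0:ℝ)).const_mul 2).const_add (2 * x i)
      exact ((k1.fun_sub k2).sub_const (l * (- (2 * ν i)))).fun_sub (k3.const_mul δ)
    rw [h3.deriv] at h1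
    linarith only [h1]
  -- sum over the basis
  have hsum := Finset.sum_nonpos (s := Finset.univ) (fun i _ => hsec i)
  have hsym : ∀ p q, By p q = By q p := by
    intro p q
    have hs : IsSymmSndFDerivAt ℝ v y := by
      apply ContDiffAt.isSymmSndFDerivAt hv.contDiffAt
      simp
    exact hs p q
  have hexp : ∀ i, By (a i) (a i) = By (Pi.single i 1) (Pi.single i 1)
      - 4 * (ν i * By (Pi.single i 1) ν) + 4 * ν i ^ 2 * By ν ν := by
    intro i
    simp only [ha, map_sub, map_smul, sub_apply, smul_apply, smul_eq_mul]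
    rw [hsym ν (Pi.single i 1)]
    ring
  have hν2 : ∑ i, ν i * By (Pi.single i 1) ν = By ν ν := by
    have : ν = ∑ i, ν i • (Pi.single i 1 : Fin n → ℝ) := by
      conv_lhs => rw [pi_eq_sum_univ' ν]
    conv_rhs => rw [show By ν ν = By (∑ i, ν i • (Pi.single i 1 : Fin n → ℝ)) ν by rw [← this]]
    rw [map_sum]
    simp only [map_smul, sum_apply, smul_apply, smul_eq_mul]
  have hsumBy : ∑ i, By (a i) (a i) = ∑ i, By (Pi.single i 1) (Pi.single i 1) := by
    simp_rw [hexp]
    rw [Finset.sum_add_distrib, Finset.sum_sub_distrib, ← Finset.mul_sum, hν2]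
    have : ∑ i, 4 * ν i ^ 2 * By ν ν = 4 * By ν ν := by
      rw [← Finset.sum_mul, ← Finset.mul_sum]
      change 4 * esq ν * By ν ν = _
      rw [hν1, mul_one]
    rw [this]; ring
  rw [Finset.sum_sub_distrib, Finset.sum_sub_distrib, hsumBy] at hsum
  simp only [pd_pd_eq_fderiv2 hv]
  simp only [Finset.sum_const, Finset.card_univ, Fintype.card_fin, nsmul_eq_mul] at hsum
  linarith only [hsum]

/-- The change of variable used in the proof of Modica's inequality. -/
noncomputable def vb (b : ℝ) (u : (Fin n → ℝ) → ℝ) (x : Fin n → ℝ) : ℝ :=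
  Real.log (b + u x) - Real.log (b - u x)

section vb

variable {b : ℝ} {u : (Fin n → ℝ) → ℝ}

lemma Sol.pos1 (h : Sol u) (hb : 1 < b) (x : Fin n → ℝ) : 0 < b + u x := by
  have := (abs_le.mp (h.bd x)).1; linarith

lemma Sol.pos2 (h : Sol u) (hb : 1 < b) (x : Fin n → ℝ) : 0 < b - u x := by
  have := (abs_le.mp (h.bd x)).2; linarith

lemma Sol.vb_contDiff (h : Sol u) (hb : 1 < b) : ContDiff ℝ 2 (vb b u) := by
  unfold vb
  exact ((contDiff_const.add h.c2).log (fun x => (h.pos1 hb x).ne')).sub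
    ((contDiff_const.sub h.c2).log (fun x => (h.pos2 hb x).ne'))

lemma Sol.pd_vb (h : Sol u) (hb : 1 < b) (i : Fin n) (x : Fin n → ℝ) :
    pd i (vb b u) x = 2 * b * pd i u x / (b ^ 2 - u x ^ 2) := by
  have hd : DifferentiableAt ℝ u x := (h.c2.differentiable (by norm_num)) x
  have p1 := h.pos1 hb x
  have p2 := h.pos2 hb x
  unfold vb
  have d1 : DifferentiableAt ℝ (fun y => b + u y) x := hd.const_add b
  have d2 : DifferentiableAt ℝ (fun y => b - u y) x := hd.const_sub b
  have e1 : pd i (fun y => b + u y) x = pd i u x := by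
    rw [pd_add (by fun_prop) hd, pd_const, zero_add]
  have e2 : pd i (fun y => b - u y) x = - pd i u x := by
    rw [pd_sub (by fun_prop) hd, pd_const, zero_sub]
  rw [pd_sub (d1.log p1.ne') (d2.log p2.ne'),
    pd_comp (h := Real.log) (Real.differentiableAt_log p1.ne') d1,
    pd_comp (h := Real.log) (Real.differentiableAt_log p2.ne') d2, e1, e2,
    Real.deriv_log, Real.deriv_log]
  have p3 : b ^ 2 - u x ^ 2 ≠ 0 := by
    have : b ^ 2 - u x ^ 2 = (b + u x) * (b - u x) := by ring
    rw [this]; (clear * - p1 p2; positivity)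
  field_simp
  ring

lemma Sol.pd_pd_vb (h : Sol u) (hb : 1 < b) (i : Fin n) (x : Fin n → ℝ) :
    pd i (pd i (vb b u)) x = 2 * b * pd i (pd i u) x / (b ^ 2 - u x ^ 2)
      + 4 * b * u x * (pd i u x) ^ 2 / (b ^ 2 - u x ^ 2) ^ 2 := by
  have hd : DifferentiableAt ℝ u x := (h.c2.differentiable (by norm_num)) x
  have hdi : DifferentiableAt ℝ (pd i u) x :=
    ((contDiff_pd_one h.c2).differentiable (by norm_num)) x
  have p1 := h.pos1 hb x
  have p2 := h.pos2 hb x
  have p3 : b ^ 2 - u x ^ 2 ≠ 0 := by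
    have : b ^ 2 - u x ^ 2 = (b + u x) * (b - u x) := by ring
    rw [this]; (clear * - p1 p2; positivity)
  have e0 : pd i (vb b u) = fun x => 2 * b * pd i u x / (b ^ 2 - u x ^ 2) := by
    funext y; exact h.pd_vb hb i y
  rw [e0]
  have d1 : DifferentiableAt ℝ (fun y => 2 * b * pd i u y) x := hdi.const_mul _
  have d2 : DifferentiableAt ℝ (fun y => b ^ 2 - u y ^ 2) x := (hd.fun_pow 2).const_sub _
  rw [pd_div d1 d2 p3, pd_mul (f := fun _ => 2 * b) (by fun_prop) hdi, pd_const,
    pd_sub (by fun_prop) (hd.fun_pow 2), pd_const, pd_sq hd]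
  field_simp
  ring

lemma Sol.lap_vb (h : Sol u) (hb : 1 < b) (x : Fin n → ℝ) :
    ∑ i, pd i (pd i (vb b u)) x = 2 * b * (u x ^ 3 - u x) / (b ^ 2 - u x ^ 2)
      + (u x / b) * ∑ i, (pd i (vb b u) x) ^ 2 := by
  simp_rw [h.pd_pd_vb hb, h.pd_vb hb]
  rw [Finset.sum_add_distrib, ← Finset.sum_div, ← Finset.mul_sum, h.eq, Finset.mul_sum]
  congr 1
  refine Finset.sum_congr rfl fun i _ => ?_
  have hb0 : b ≠ 0 := by linarith
  field_simp
  ring

lemma Sol.vb_bound (h : Sol u) (hb : 1 < b) (x : Fin n → ℝ) :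
    |vb b u x| ≤ Real.log ((b + 1) / (b - 1)) := by
  have p1 := h.pos1 hb x
  have p2 := h.pos2 hb x
  have q := abs_le.mp (h.bd x)
  have l1 : Real.log (b + u x) ≤ Real.log (b + 1) := Real.log_le_log p1 (by linarith [q.2])
  have l2 : Real.log (b - 1) ≤ Real.log (b - u x) := Real.log_le_log (by linarith) (by linarith [q.2])
  have l3 : Real.log (b - 1) ≤ Real.log (b + u x) := Real.log_le_log (by linarith) (by linarith [q.1])
  have l4 : Real.log (b - u x) ≤ Real.log (b + 1) := Real.log_le_log p2 (by linarith [q.1])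
  rw [Real.log_div (by linarith only [hb]) (by linarith)]
  unfold vb
  rw [abs_le]
  constructor <;> linarith

end vb

lemma cauchy_sq (a c : Fin n → ℝ) (ha : esq a = 1) : |∑ i, a i * c i| ≤ eno c := by
  have h := Finset.sum_mul_sq_le_sq_mul_sq Finset.univ a c
  have h2 : (∑ i, a i * c i) ^ 2 ≤ esq c := by
    calc _ ≤ _ := h
      _ = esq a * esq c := rfl
      _ = esq c := by rw [ha, one_mul]
  unfold eno
  exact Real.abs_le_sqrt h2

lemma modica_gap {b ux uy m : ℝ} (hb : 1 < b) (hx : |ux| ≤ 1) (hy : |uy| ≤ 1) (hm : 0 < m)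
    (h : m / 2 ≤ (Real.log (b + uy) - Real.log (b - uy)) - (Real.log (b + ux) - Real.log (b - ux))) :
    m * (b - 1) / 4 ≤ uy - ux := by
  have hb1 : 0 < b - 1 := by linarith only [hb]
  rw [abs_le] at hx hy
  have px : 0 < b + ux := by linarith only [hb, hx]
  have px' : 0 < b - ux := by linarith only [hb, hx]
  have py : 0 < b + uy := by linarith only [hb, hy]
  have py' : 0 < b - uy := by linarith only [hb, hy]
  have l1 : Real.log (b + uy) - Real.log (b + ux) ≤ (uy - ux) / (b + ux) := by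
    rw [← Real.log_div py.ne' px.ne']
    have := Real.log_le_sub_one_of_pos (div_pos py px)
    have e : (b + uy) / (b + ux) - 1 = (uy - ux) / (b + ux) := by
      rw [div_sub_one px.ne']; ring_nf
    linarith only [this, e]
  have l2 : Real.log (b - ux) - Real.log (b - uy) ≤ (uy - ux) / (b - uy) := by
    rw [← Real.log_div px'.ne' py'.ne']
    have := Real.log_le_sub_one_of_pos (div_pos px' py')
    have e : (b - ux) / (b - uy) - 1 = (uy - ux) / (b - uy) := by
      rw [div_sub_one py'.ne']; ring_nf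
    linarith only [this, e]
  have l3 : m / 2 ≤ (uy - ux) / (b + ux) + (uy - ux) / (b - uy) := by (clear * - m uy ux b h l1 l2; linarith)
  have hpos : 0 ≤ uy - ux := by
    by_contra hneg
    push Not at hneg
    have a1 : (uy - ux) / (b + ux) < 0 := div_neg_of_neg_of_pos hneg px
    have a2 : (uy - ux) / (b - uy) < 0 := div_neg_of_neg_of_pos hneg py'
    (clear * - m b uy ux hm h l1 l2 a1 a2; linarith only [hm, h, l1, l2, a1, a2])
  have a1 : (uy - ux) / (b + ux) ≤ (uy - ux) / (b - 1) :=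
    div_le_div_of_nonneg_left hpos hb1 (by linarith only [hx])
  have a2 : (uy - ux) / (b - uy) ≤ (uy - ux) / (b - 1) :=
    div_le_div_of_nonneg_left hpos hb1 (by linarith only [hy])
  have a3 : m / 4 ≤ (uy - ux) / (b - 1) := by (clear * - m uy ux b h l1 l2 a1 a2; linarith)
  rw [le_div_iff₀ hb1] at a3
  (clear * - m b uy ux a3; linarith)

lemma modica_phi {b ux uy l2 E R : ℝ} (hb : 1 < b) (hux2 : ux ^ 2 ≤ 1) (huy2 : uy ^ 2 ≤ 1)
    (hl2 : l2 = 2 * b ^ 2)
    (hlap : 2 * b * (uy ^ 3 - uy) / (b ^ 2 - uy ^ 2) + uy / b * l2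
      - (2 * b * (ux ^ 3 - ux) / (b ^ 2 - ux ^ 2) + ux / b * (l2 + E)) ≤ R) :
    2 * b * (b ^ 2 - 1) * ((uy - ux) * (b ^ 2 + ux * uy) / ((b ^ 2 - ux ^ 2) * (b ^ 2 - uy ^ 2)))
        ≤ R + ux / b * E := by
  have hb0 : 0 < b := by linarith only [hb]
  have hby : 0 < b ^ 2 - uy ^ 2 := by (clear * - b uy hb huy2; nlinarith only [hb, huy2])
  have hbx : 0 < b ^ 2 - ux ^ 2 := by (clear * - b ux hb hux2; nlinarith)
  have e1 : 2 * b * (uy ^ 3 - uy) / (b ^ 2 - uy ^ 2) + uy / b * l2
      = 2 * b * (b ^ 2 - 1) * (uy / (b ^ 2 - uy ^ 2)) := by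
    rw [hl2]; field_simp; ring
  have e2 : 2 * b * (ux ^ 3 - ux) / (b ^ 2 - ux ^ 2) + ux / b * (l2 + E)
      = 2 * b * (b ^ 2 - 1) * (ux / (b ^ 2 - ux ^ 2)) + ux / b * E := by
    rw [hl2]; field_simp; ring
  have e3 : (uy - ux) * (b ^ 2 + ux * uy) / ((b ^ 2 - ux ^ 2) * (b ^ 2 - uy ^ 2))
      = uy / (b ^ 2 - uy ^ 2) - ux / (b ^ 2 - ux ^ 2) := by
    field_simp; ring
  rw [e1, e2] at hlap
  rw [e3]
  (clear * - b uy ux R E hlap; linarith)

lemma modica_low {b ux uy m : ℝ} (hb : 1 < b) (hx : |ux| ≤ 1) (hy : |uy| ≤ 1) (hm : 0 < m)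
    (hgap : m * (b - 1) / 4 ≤ uy - ux) :
    2 * b * (b ^ 2 - 1) * (m * (b - 1) / 4) * (b ^ 2 - 1) / b ^ 4 ≤
    2 * b * (b ^ 2 - 1) * ((uy - ux) * (b ^ 2 + ux * uy) / ((b ^ 2 - ux ^ 2) * (b ^ 2 - uy ^ 2)))
    := by
  have hb0 : 0 < b := by linarith only [hb]
  have hb1 : 0 < b - 1 := by linarith only [hb]
  have hb2 : 0 < b ^ 2 - 1 := by (clear * - b hb; nlinarith only [hb])
  rw [abs_le] at hx hy
  have hux2 : ux ^ 2 ≤ 1 := by (clear * - ux hx; nlinarith only [hx])
  have huy2 : uy ^ 2 ≤ 1 := by (clear * - uy hy; nlinarith only [hy])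
  have hby : 0 < b ^ 2 - uy ^ 2 := by (clear * - b uy hb2 huy2; linarith)
  have hbx : 0 < b ^ 2 - ux ^ 2 := by (clear * - b ux hb2 hux2; linarith)
  have hgap0 : 0 < uy - ux := lt_of_lt_of_le (by positivity) hgap
  have hprod : -1 ≤ ux * uy := by (clear * - ux uy hx hy; nlinarith only [hx, hy])
  have f1 : (m * (b - 1) / 4) * (b ^ 2 - 1) ≤ (uy - ux) * (b ^ 2 + ux * uy) := by
    apply mul_le_mul hgap _ hb2.le hgap0.le
    linarith only [hprod]
  have f2 : (b ^ 2 - ux ^ 2) * (b ^ 2 - uy ^ 2) ≤ b ^ 4 := by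
    (clear * - b ux uy hb2 huy2 hbx hby; nlinarith only [hb2, huy2])
  have f3 : (m * (b - 1) / 4) * (b ^ 2 - 1) / b ^ 4 ≤
      (uy - ux) * (b ^ 2 + ux * uy) / ((b ^ 2 - ux ^ 2) * (b ^ 2 - uy ^ 2)) :=
    div_le_div₀ (mul_nonneg hgap0.le (by linarith only [hb2, hprod])) f1 (mul_pos hbx hby) f2
  calc 2 * b * (b ^ 2 - 1) * (m * (b - 1) / 4) * (b ^ 2 - 1) / b ^ 4
      = 2 * b * (b ^ 2 - 1) * ((m * (b - 1) / 4) * (b ^ 2 - 1) / b ^ 4) := by ring
    _ ≤ _ := by
        apply mul_le_mul_of_nonneg_left f3 (by (clear * - hb hb2; positivity))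

lemma Sol.vb_lip {u : (Fin n → ℝ) → ℝ} (h : Sol u) {b : ℝ} (hb : 1 < b) (x0 y0 : Fin n → ℝ) :
    vb b u y0 - vb b u x0 ≤ Real.sqrt 2 * b * eno (y0 - x0) := by
  by_contra hcon
  push Not at hcon
  set v := vb b u with hv
  set l : ℝ := Real.sqrt 2 * b with hl
  have hb0 : 0 < b := by linarith
  have hs2 : Real.sqrt 2 ^ 2 = 2 := Real.sq_sqrt (by norm_num)
  have hlpos : 0 < l := by positivity
  have hl2 : l ^ 2 = 2 * b ^ 2 := by rw [hl, mul_pow, hs2]
  set K := Real.log ((b + 1) / (b - 1)) with hK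
  have hvK : ∀ x, |v x| ≤ K := h.vb_bound hb
  have hK0 : 0 ≤ K := (abs_nonneg _).trans (hvK 0)
  set m : ℝ := v y0 - v x0 - l * eno (y0 - x0) with hm
  have hm0 : 0 < m := by linarith only [hcon]
  set c0 : ℝ := 2 * b * (b ^ 2 - 1) * (m * (b - 1) / 4) * (b ^ 2 - 1) / b ^ 4 with hc0
  have hb2 : 0 < b ^ 2 - 1 := by (clear * - b hb; nlinarith only [hb])
  have hb1 : 0 < b - 1 := by linarith only [hb]
  have hc0pos : 0 < c0 := by (clear * - hb hb2 hcon; positivity)
  have hv2 : ContDiff ℝ 2 v := h.vb_contDiff hb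
  have key : ∀ δ : ℝ, 0 < δ → δ * esq x0 ≤ m / 2 →
      c0 ≤ 2 * n * δ + (4 * l * Real.sqrt (2 * K * δ) + 8 * K * δ) := by
    intro δ hδ hδm
    have hstart : m / 2 ≤ twoPt v l δ x0 y0 := by
      unfold twoPt; (clear * - m v y0 x0 l n δ b hδm; linarith)
    obtain ⟨x, y, hmax⟩ := exists_max_twoPt hv2.continuous hvK hlpos hδ
      (x0 := x0) (y0 := y0) (by linarith only [hcon, hstart])
    have hval : m / 2 ≤ twoPt v l δ x y := hstart.trans (hmax x0 y0)
    have hxy : x ≠ y := by
      rintro rfl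
      unfold twoPt at hval
      have : eno (x - x) = 0 := by simp only [eno, esq, Pi.sub_apply, sub_self, ne_eq, OfNat.ofNat_ne_zero, not_false_eq_true, zero_pow, Finset.sum_const_zero, Real.sqrt_zero]
      rw [this] at hval
      have := mul_nonneg hδ.le (esq_nonneg x)
      (clear * - l n y0 x0 v x δ b hcon m hval this; linarith)
    obtain ⟨ν, hν1, hfy, hfx, hlap⟩ := two_point hv2 hxy hmax
    have hdiff : m / 2 ≤ v y - v x := by
      unfold twoPt at hval
      have := mul_nonneg hδ.le (esq_nonneg x)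
      have := mul_nonneg hlpos.le (eno_nonneg (y - x))
      (clear h hv hcon hl hb0 hs2 hl2 K hK hvK hK0 hm hm0 c0 hc0 hb2 hb1 hc0pos hv2 hxy ν hν1 hfy hfx hlap; linarith)
    have hδsq : δ * esq x ≤ 2 * K := by
      unfold twoPt at hval
      have := mul_nonneg hlpos.le (eno_nonneg (y - x))
      have a1 := (abs_le.mp (hvK x)).1
      have a2 := (abs_le.mp (hvK y)).2
      (clear * - δ n x K l y0 x0 v y b hcon m hval this a1 a2; linarith)
    set uy := u y with huy
    set ux := u x with hux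
    have hux2 : ux ^ 2 ≤ 1 := by rw [← one_pow (2:ℕ)]; exact sq_le_sq' (abs_le.mp (h.bd x)).1 (abs_le.mp (h.bd x)).2
    have huy2 : uy ^ 2 ≤ 1 := by rw [← one_pow (2:ℕ)]; exact sq_le_sq' (abs_le.mp (h.bd y)).1 (abs_le.mp (h.bd y)).2
    have hgap : m * (b - 1) / 4 ≤ uy - ux := modica_gap hb (h.bd x) (h.bd y) hm0 hdiff
    -- the Laplacians
    have hY : ∑ i, (pd i v y) ^ 2 = l ^ 2 := by
      simp_rw [hfy, mul_pow]
      rw [← Finset.mul_sum]
      change l ^ 2 * esq ν = _
      rw [hν1, mul_one]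
    set E : ℝ := - 4 * δ * l * (∑ i, ν i * x i) + 4 * δ ^ 2 * esq x with hE
    have hX : ∑ i, (pd i v x) ^ 2 = l ^ 2 + E := by
      simp_rw [hfx]
      have : ∀ i, (l * ν i - 2 * δ * x i) ^ 2
          = l ^ 2 * ν i ^ 2 + (-4 * δ * l) * (ν i * x i) + 4 * δ ^ 2 * x i ^ 2 := by
        intro i; ring
      simp_rw [this]
      rw [Finset.sum_add_distrib, Finset.sum_add_distrib, ← Finset.mul_sum, ← Finset.mul_sum,
        ← Finset.mul_sum]
      change l ^ 2 * esq ν + _ + 4 * δ ^ 2 * esq x = _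
      rw [hν1, hE]; ring
    have hEabs : |E| ≤ 4 * l * Real.sqrt (2 * K * δ) + 8 * K * δ := by
      have c1 := cauchy_sq ν x hν1
      have c2 : δ * eno x ≤ Real.sqrt (2 * K * δ) := by
        apply Real.le_sqrt_of_sq_le
        rw [mul_pow, eno_sq]
        (clear * - δ n x K hδsq hδ; nlinarith only [hδsq, hδ])
      have c3 : 4 * δ ^ 2 * esq x ≤ 8 * K * δ := by
        (clear * - δ n x K hδsq hδ; nlinarith only [hδsq, hδ])
      have c4 : |(-4 * δ * l) * (∑ i, ν i * x i)| ≤ 4 * l * Real.sqrt (2 * K * δ) := by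
        rw [abs_mul]
        have : |(-4 * δ * l)| = 4 * δ * l := by
          rw [show (-4 * δ * l) = -(4 * δ * l) by ring, abs_neg, abs_of_pos (by (clear * - hδ hb; positivity))]
        rw [this]
        calc 4 * δ * l * |∑ i, ν i * x i| ≤ 4 * δ * l * eno x := by (clear * - c1 hδ hb; gcongr)
          _ = 4 * l * (δ * eno x) := by ring
          _ ≤ 4 * l * Real.sqrt (2 * K * δ) := by (clear * - c2 hb; gcongr)
      have c5 : 0 ≤ 4 * δ ^ 2 * esq x := by
        have := esq_nonneg x; (clear * - hδ this; positivity)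
      calc |E| ≤ |(-4 * δ * l) * (∑ i, ν i * x i)| + |4 * δ ^ 2 * esq x| := abs_add_le _ _
        _ ≤ _ := by rw [abs_of_nonneg c5]; (clear * - δ l n ν x K b c3 c4; linarith only [c3, c4])
    rw [h.lap_vb hb, h.lap_vb hb, ← hv, hY, hX] at hlap
    have hΦ := modica_phi hb hux2 huy2 hl2 hlap
    have hlow := modica_low hb (h.bd x) (h.bd y) hm0 hgap
    have huxE : ux / b * E ≤ |E| := by
      have : |ux / b| ≤ 1 := by
        rw [abs_div, abs_of_pos hb0, div_le_one hb0]
        exact (h.bd x).trans hb.le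
      calc ux / b * E ≤ |ux / b * E| := le_abs_self _
        _ = |ux / b| * |E| := abs_mul _ _
        _ ≤ 1 * |E| := by (clear * - this; gcongr)
        _ = |E| := one_mul _
    (clear * - c0 n δ l K E b uy ux ν x m u y y0 x0 v hEabs hΦ hlow huxE; linarith)
  -- let δ → 0
  have hlim : Tendsto (fun δ : ℝ => 2 * n * δ + (4 * l * Real.sqrt (2 * K * δ) + 8 * K * δ))
      (𝓝[>] 0) (𝓝 0) := by
    have : Continuous (fun δ : ℝ => 2 * n * δ + (4 * l * Real.sqrt (2 * K * δ) + 8 * K * δ)) := by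
      fun_prop
    have h2 := this.tendsto 0
    simp only [mul_zero, Real.sqrt_zero, add_zero] at h2
    exact h2.mono_left nhdsWithin_le_nhds
  have hlim2 : Tendsto (fun δ : ℝ => δ * esq x0) (𝓝[>] 0) (𝓝 0) := by
    have : Continuous (fun δ : ℝ => δ * esq x0) := by fun_prop
    have h2 := this.tendsto 0
    simp only [zero_mul] at h2
    exact h2.mono_left nhdsWithin_le_nhds
  have hev : ∀ᶠ δ : ℝ in 𝓝[>] 0,
      2 * n * δ + (4 * l * Real.sqrt (2 * K * δ) + 8 * K * δ) < c0 ∧ δ * esq x0 < m / 2 ∧ 0 < δ :=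
    ((hlim.eventually (gt_mem_nhds hc0pos)).and
      ((hlim2.eventually (gt_mem_nhds (by (clear * - hcon; positivity)))).and self_mem_nhdsWithin))
  obtain ⟨δ, h1, h2, h3⟩ := hev.exists
  have := key δ h3 h2.le
  (clear * - n δ l K c0 b y0 x0 v m h1 this; linarith)

/-- Modica's inequality. -/
theorem Sol.modica {u : (Fin n → ℝ) → ℝ} (h : Sol u) (x : Fin n → ℝ) :
    2 * ∑ i, (pd i u x) ^ 2 ≤ (1 - u x ^ 2) ^ 2 := by
  have hb : ∀ b : ℝ, 1 < b → 2 * ∑ i, (pd i u x) ^ 2 ≤ (b ^ 2 - u x ^ 2) ^ 2 := by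
    intro b hb
    have hb0 : 0 < b := by linarith
    set g : Fin n → ℝ := fun i => pd i (vb b u) x with hg
    have hv2 : ContDiff ℝ 2 (vb b u) := h.vb_contDiff hb
    -- directional derivative along the gradient
    have h1 : HasDerivAt (fun s : ℝ => vb b u (x + s • g)) (esq g) 0 := by
      have := hasDerivAt_dir (w := vb b u) (x := x) (v := g) (s := 0)
        ((hv2.differentiable (by norm_num)) _)
      rw [fderiv_eq_sum_pd] at this
      simp only [zero_smul, add_zero] at this
      convert this using 1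
      unfold esq
      refine Finset.sum_congr rfl fun i _ => ?_
      rw [hg]; ring
    have h2 : esq g ≤ Real.sqrt 2 * b * eno g := by
      have hsl := (hasDerivAt_iff_tendsto_slope_zero.mp h1)
      have hsl' : Tendsto (fun t : ℝ => t⁻¹ • (vb b u (x + (0 + t) • g) - vb b u (x + (0:ℝ) • g)))
          (𝓝[>] 0) (𝓝 (esq g)) :=
        hsl.mono_left (nhdsWithin_mono _ (fun t ht => ne_of_gt ht))
      refine le_of_tendsto hsl' ?_
      filter_upwards [self_mem_nhdsWithin] with t ht
      have ht0 : 0 < t := ht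
      have k1 := h.vb_lip hb x (x + t • g)
      have k2 : eno (x + t • g - x) = t * eno g := by
        rw [add_sub_cancel_left]
        unfold eno esq
        have : ∀ i, (t • g) i ^ 2 = t ^ 2 * g i ^ 2 := by intro i; simp; ring
        simp_rw [this]
        rw [← Finset.mul_sum, Real.sqrt_mul (sq_nonneg t), Real.sqrt_sq ht0.le]
      rw [k2] at k1
      rw [zero_add, zero_smul, add_zero, smul_eq_mul, inv_mul_le_iff₀ ht0]
      linarith only [k1]
    have h3 : esq g ≤ 2 * b ^ 2 := by
      rw [← eno_sq] at h2 ⊢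
      have hs2 : Real.sqrt 2 ^ 2 = 2 := Real.sq_sqrt (by norm_num)
      have hen := eno_nonneg g
      have : eno g ≤ Real.sqrt 2 * b := by
        rcases hen.eq_or_lt with h0 | h0
        · rw [← h0]; positivity
        · have : eno g * eno g ≤ Real.sqrt 2 * b * eno g := by (clear * - n g b h2; linarith)
          exact le_of_mul_le_mul_right this h0
      calc eno g ^ 2 ≤ (Real.sqrt 2 * b) ^ 2 := by (clear * - hen this; gcongr)
        _ = 2 * b ^ 2 := by rw [mul_pow, hs2]
    have p1 := h.pos1 hb x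
    have p2 := h.pos2 hb x
    have p3 : 0 < b ^ 2 - u x ^ 2 := by (clear * - b u x p1 p2; nlinarith only [p1, p2])
    have h4 : esq g = 4 * b ^ 2 * (∑ i, (pd i u x) ^ 2) / (b ^ 2 - u x ^ 2) ^ 2 := by
      unfold esq
      rw [Finset.mul_sum, Finset.sum_div]
      refine Finset.sum_congr rfl fun i _ => ?_
      rw [hg]
      simp only
      rw [h.pd_vb hb, div_pow]
      ring
    rw [h4, div_le_iff₀ (by (clear * - p3; positivity))] at h3
    have hb2 : 0 < b ^ 2 := by positivity
    (clear * - n u x b h3 p3; nlinarith)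
  have hlim : Tendsto (fun b : ℝ => (b ^ 2 - u x ^ 2) ^ 2) (𝓝[>] 1) (𝓝 ((1 - u x ^ 2) ^ 2)) := by
    have : Continuous (fun b : ℝ => (b ^ 2 - u x ^ 2) ^ 2) := by fun_prop
    have h2 := this.tendsto 1
    simp only [one_pow] at h2
    exact h2.mono_left nhdsWithin_le_nhds
  refine ge_of_tendsto hlim ?_
  filter_upwards [self_mem_nhdsWithin] with b hb'
  exact hb b hb'

end Vale.Agent.P134
end
end

section

section

open MeasureTheory Filter Topology

namespace Vale.Agent.P134

variable {n : ℕ} {u U η χ : (Fin n → ℝ) → ℝ} {x : Fin n → ℝ} {i j : Fin n} {q : Fin n}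

/-- The function `1 - u^2`. -/
def psi (u : (Fin n → ℝ) → ℝ) (x : Fin n → ℝ) : ℝ := 1 - u x ^ 2

/-- The Modica deficit. -/
noncomputable def defi (u : (Fin n → ℝ) → ℝ) (x : Fin n → ℝ) : ℝ :=
  psi u x ^ 2 / 2 - ∑ i, pd i u x ^ 2

lemma Sol.defi_nonneg (h : Sol u) (x : Fin n → ℝ) : 0 ≤ defi u x := by
  have := h.modica x
  unfold defi psi
  linarith

lemma Sol.psi_nonneg (h : Sol u) (x : Fin n → ℝ) : 0 ≤ psi u x := by
  have := abs_le.mp (h.bd x)
  unfold psi
  nlinarith only [this]

lemma psi_le_one (u : (Fin n → ℝ) → ℝ) (x : Fin n → ℝ) : psi u x ≤ 1 := by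
  unfold psi
  nlinarith only []

lemma Sol.psi_contDiff (h : Sol u) : ContDiff ℝ 2 (psi u) := by
  unfold psi
  exact contDiff_const.sub (h.c2.pow 2)

lemma Sol.defi_continuous (h : Sol u) : Continuous (defi u) := by
  unfold defi
  exact ((h.psi_contDiff.continuous.pow 2).div_const 2).sub
    (continuous_finsetSum _ fun j _ => (contDiff_pd_one h.c2).continuous.pow 2)

lemma Sol.pd_psi (h : Sol u) (i : Fin n) (x : Fin n → ℝ) : pd i (psi u) x = -2 * u x * pd i u x := by
  have hd : DifferentiableAt ℝ u x := (h.c2.differentiable (by norm_num)) x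
  unfold psi
  rw [pd_sub (by fun_prop) (hd.fun_pow 2), pd_const, pd_sq hd]
  ring

lemma Sol.pd_pd_psi (h : Sol u) (i : Fin n) (x : Fin n → ℝ) :
    pd i (pd i (psi u)) x = -2 * (pd i u x ^ 2 + u x * pd i (pd i u) x) := by
  have hd : DifferentiableAt ℝ u x := (h.c2.differentiable (by norm_num)) x
  have hdi : DifferentiableAt ℝ (pd i u) x :=
    ((contDiff_pd_one h.c2).differentiable (by norm_num)) x
  have e0 : pd i (psi u) = fun x => (-2 * u x) * pd i u x := by
    funext y; exact h.pd_psi i y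
  rw [e0, pd_mul (f := fun x => -2 * u x) (hd.const_mul _) hdi,
    pd_mul (f := fun _ => (-2:ℝ)) (by fun_prop) hd, pd_const]
  ring

/-- The function `1 - u^2` is a subsolution of the linearised equation; the defect is twice the
Modica deficit. -/
lemma Sol.lap_psi (h : Sol u) (x : Fin n → ℝ) :
    ∑ i, pd i (pd i (psi u)) x = (3 * u x ^ 2 - 1) * psi u x + 2 * defi u x := by
  simp_rw [h.pd_pd_psi]
  rw [← Finset.mul_sum, Finset.sum_add_distrib, ← Finset.mul_sum, h.eq]
  unfold defi psi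
  ring

/-- The class of solutions satisfying the stability inequality tested with `(1 - u^2) η`. -/
structure DStab (u : (Fin n → ℝ) → ℝ) : Prop extends Sol u where
  ineq : ∀ η : (Fin n → ℝ) → ℝ, ContDiff ℝ 1 η → HasCompactSupport η →
    2 * ∫ x, psi u x * defi u x * η x ^ 2 ≤ ∫ x, psi u x ^ 2 * ∑ j, pd j η x ^ 2

theorem DStab.of_weakLin (h : Sol u) {φ : (Fin n → ℝ) → ℝ} (hφ : ContDiff ℝ 1 φ)
    (hpos : ∀ x, 0 < φ x) (hW : WeakLin (fun x => 3 * u x ^ 2 - 1) φ) : DStab u := by
  refine ⟨h, fun η hη hc => ?_⟩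
  have hψ2 := h.psi_contDiff
  have hψ1 : ContDiff ℝ 1 (psi u) := hψ2.of_le (by norm_num)
  have hξ : ContDiff ℝ 1 (fun x => psi u x * η x) := hψ1.mul hη
  have hcξ : HasCompactSupport (fun x => psi u x * η x) := hc.mul_left
  have hVc : Continuous (fun x => 3 * u x ^ 2 - 1) :=
    (continuous_const.mul (h.c2.continuous.pow 2)).sub continuous_const
  have hst := stability_ineq hφ hpos hVc hW hξ hcξ
  -- the vector field `ψ η²`
  set ζ : (Fin n → ℝ) → ℝ := fun x => psi u x * η x ^ 2 with hζ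
  have hζ1 : ContDiff ℝ 1 ζ := hψ1.mul (hη.pow 2)
  have hcη2 : HasCompactSupport (fun x => η x ^ 2) := hcs_sq hc
  have hcζ : HasCompactSupport ζ := hcη2.mul_left
  have dψ : Differentiable ℝ (psi u) := hψ1.differentiable (by norm_num)
  have dη : Differentiable ℝ η := hη.differentiable (by norm_num)
  have hpw : ∀ x, ∑ j, (pd j (fun x => psi u x * η x) x) ^ 2
      = psi u x ^ 2 * ∑ j, pd j η x ^ 2 + ∑ j, pd j (psi u) x * pd j ζ x := by
    intro x
    rw [Finset.mul_sum, ← Finset.sum_add_distrib]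
    refine Finset.sum_congr rfl fun j _ => ?_
    rw [hζ, pd_mul (dψ x) (dη x), pd_mul (dψ x) ((dη x).fun_pow 2), pd_sq (dη x)]
    ring
  have hcψ : Continuous (psi u) := hψ1.continuous
  have i1 : Integrable (fun x => psi u x ^ 2 * ∑ j, pd j η x ^ 2) := by
    have e : (fun x => psi u x ^ 2 * ∑ j, pd j η x ^ 2)
        = fun x => ∑ j, (psi u x ^ 2 * pd j η x) * pd j η x := by
      ext x; rw [Finset.mul_sum]
      refine Finset.sum_congr rfl fun j _ => ?_
      ring
    rw [e]
    exact integrable_sum_mul (fun j => (hcψ.pow 2).mul (continuous_pd hη))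
      (fun j => continuous_pd hη) (fun j => hasCompactSupport_pd hc)
  have i2 : Integrable (fun x => ∑ j, pd j (psi u) x * pd j ζ x) :=
    integrable_sum_mul (fun j => continuous_pd hψ1) (fun j => continuous_pd hζ1)
      (fun j => hasCompactSupport_pd hcζ)
  have i3 : Integrable (fun x => (3 * u x ^ 2 - 1) * (psi u x * η x) ^ 2) := by
    apply Continuous.integrable_of_hasCompactSupport
    · exact ((continuous_const.mul (h.c2.continuous.pow 2)).sub continuous_const).mul
        ((hcψ.mul hη.continuous).pow 2)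
    · exact (hcs_sq hcξ).mul_left
  have i4 : Integrable (fun x => psi u x * defi u x * η x ^ 2) := by
    apply Continuous.integrable_of_hasCompactSupport
    · exact (hcψ.mul h.defi_continuous).mul (hη.continuous.pow 2)
    · exact hcη2.mul_left
  have i5 : Integrable (fun x => (3 * u x ^ 2 - 1) * psi u x * ζ x) := by
    apply Continuous.integrable_of_hasCompactSupport
    · exact (((continuous_const.mul (h.c2.continuous.pow 2)).sub continuous_const).mul
        hcψ).mul hζ1.continuous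
    · exact hcζ.mul_left
  have hparts : ∫ x, ∑ j, pd j (psi u) x * pd j ζ x
      = - ∫ x, ((3 * u x ^ 2 - 1) * psi u x * ζ x + 2 * (psi u x * defi u x * η x ^ 2)) := by
    have hint : ∀ j : Fin n, Integrable (fun x => pd j (psi u) x * pd j ζ x) := fun j =>
      ((continuous_pd hψ1).mul (continuous_pd hζ1)).integrable_of_hasCompactSupport
        ((hasCompactSupport_pd hcζ).mul_left)
    have hint2 : ∀ j : Fin n, Integrable (fun x => pd j (pd j (psi u)) x * ζ x) := fun j =>
      ((continuous_pd (contDiff_pd_one hψ2)).mul hζ1.continuous).integrable_of_hasCompactSupport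
        (hcζ.mul_left)
    rw [integral_finsetSum _ (fun j _ => hint j)]
    have h1 : ∀ j : Fin n, ∫ x, pd j (psi u) x * pd j ζ x
        = - ∫ x, pd j (pd j (psi u)) x * ζ x := fun j =>
      integral_mul_pd (contDiff_pd_one hψ2) hζ1 hcζ
    simp_rw [h1]
    rw [Finset.sum_neg_distrib, ← integral_finsetSum _ (fun j _ => hint2 j)]
    congr 1
    apply integral_congr_ae
    filter_upwards with x
    rw [← Finset.sum_mul, h.lap_psi, hζ]
    ring
  have hsplit : ∫ x, (∑ j, (pd j (fun x => psi u x * η x) x) ^ 2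
      + (3 * u x ^ 2 - 1) * (psi u x * η x) ^ 2)
      = (∫ x, psi u x ^ 2 * ∑ j, pd j η x ^ 2) + (∫ x, ∑ j, pd j (psi u) x * pd j ζ x)
        + ∫ x, (3 * u x ^ 2 - 1) * (psi u x * η x) ^ 2 := by
    have i12 : Integrable (fun x => psi u x ^ 2 * ∑ j, pd j η x ^ 2
        + ∑ j, pd j (psi u) x * pd j ζ x) := i1.add i2
    rw [← integral_add i1 i2, ← integral_add i12 i3]
    congr 1; ext x
    rw [hpw]
  rw [hsplit, hparts, integral_add i5 (i4.const_mul 2), integral_const_mul] at hst
  have he : ∫ x, (3 * u x ^ 2 - 1) * psi u x * ζ x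
      = ∫ x, (3 * u x ^ 2 - 1) * (psi u x * η x) ^ 2 := by
    congr 1; ext x; rw [hζ]; ring
  rw [he] at hst
  linarith only [hst]

lemma DStab.shift (h : DStab u) (v : Fin n → ℝ) : DStab (fun y => u (y + v)) := by
  refine ⟨h.toSol.shift v, fun η hη hc => ?_⟩
  have e1 : psi (fun y => u (y + v)) = fun y => psi u (y + v) := rfl
  have e2 : defi (fun y => u (y + v)) = fun y => defi u (y + v) := by
    funext y; unfold defi
    simp_rw [pd_shift_fun]
    rfl
  set η' : (Fin n → ℝ) → ℝ := fun y => η (y + (-v)) with hη'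
  have hη1 : ContDiff ℝ 1 η' := hη.comp (contDiff_id.add contDiff_const)
  have hc1 : HasCompactSupport η' := by
    have : η' = η ∘ (Homeomorph.addRight (-v)) := rfl
    rw [this]
    exact hc.comp_homeomorph _
  have h1 := h.ineq η' hη1 hc1
  have t1 : ∫ x, psi u x * defi u x * η' x ^ 2
      = ∫ x, psi u (x + v) * defi u (x + v) * η x ^ 2 := by
    rw [← integral_add_right_eq_self _ v]
    simp [hη']
  have t2 : ∫ x, psi u x ^ 2 * ∑ j, pd j η' x ^ 2
      = ∫ x, psi u (x + v) ^ 2 * ∑ j, pd j η x ^ 2 := by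
    rw [← integral_add_right_eq_self _ v]
    simp only [hη', pd_shift_fun]
    simp only [add_neg_cancel_right]
  rw [t1, t2] at h1
  rw [e1, e2]
  exact h1

end Vale.Agent.P134
end
end

section

section

open MeasureTheory Filter Topology

namespace Vale.Agent.P134

variable {n : ℕ} {u U w η χ : (Fin n → ℝ) → ℝ} {x : Fin n → ℝ} {i j : Fin n} {q : Fin n}

/-- Liouville theorem for bounded harmonic functions. -/
theorem liouville_harmonic (hw : ContDiff ℝ 2 w) {M : ℝ} (hM : ∀ x, |w x| ≤ M)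
    (hh : ∀ x, ∑ i, pd i (pd i w) x = 0) (q : Fin n) (x : Fin n → ℝ) : pd q w x = 0 := by
  have hM0 : 0 ≤ M := (abs_nonneg _).trans (hM 0)
  have hd : Differentiable ℝ w := hw.differentiable (by norm_num)
  have hdi : ∀ i, Differentiable ℝ (pd i w) := fun i =>
    (contDiff_pd_one hw).differentiable (by norm_num)
  have key : ∀ d : ℝ, 0 < d → |pd q w x| ≤ n * M / d := by
    intro d hd0
    set A : (Fin n → ℝ) →L[ℝ] (Fin n → ℝ) := d • ContinuousLinearMap.id ℝ _ with hA
    have hA1 : ∀ i, A (Pi.single i 1) = (fun _ : Fin n => d) i • Pi.single i 1 := by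
      intro i; simp [hA]
    set wd : (Fin n → ℝ) → ℝ := fun y => w (0 + A y) with hwd
    have h1 : ∀ i, pd i wd = fun y => d * pd i w (0 + A y) := by
      intro i; funext y
      exact pd_comp_diag 0 A (fun _ => d) hA1 (hd _)
    have h2 : ∀ i y, pd i (pd i wd) y = d * (d * pd i (pd i w) (0 + A y)) := by
      intro i y
      have e : DifferentiableAt ℝ (fun y => pd i w (0 + A y)) y :=
        ((hdi i).comp (A.differentiable.const_add 0)) y
      rw [h1, pd_mul (f := fun _ => d) (by fun_prop) e, pd_const,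
        pd_comp_diag 0 A (fun _ => d) hA1 (hdi i _)]
      ring
    have h3 : ContDiff ℝ 2 wd := hw.comp (contDiff_const.add A.contDiff)
    have h4 := grad_bound h3 (M := M) (N := 0) (fun y => hM _) (by
      intro y
      simp_rw [h2, ← Finset.mul_sum, hh]
      simp) q (d⁻¹ • x)
    rw [h1] at h4
    have h5 : (0 : Fin n → ℝ) + A (d⁻¹ • x) = x := by
      simp [hA, smul_smul, hd0.ne']
    simp only [h5, abs_mul, abs_of_pos hd0, zero_div, add_zero] at h4
    rw [le_div_iff₀ hd0]
    linarith only [h4]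
  have hlim : Tendsto (fun d : ℝ => n * M / d) atTop (𝓝 0) := tendsto_const_nhds.div_atTop tendsto_id
  have : |pd q w x| ≤ 0 := by
    refine ge_of_tendsto hlim ?_
    filter_upwards [eventually_gt_atTop 0] with d hd0 using key d hd0
  exact abs_nonpos_iff.mp this

lemma Sol.neg (h : Sol u) : Sol (fun x => - u x) where
  c2 := h.c2.neg
  bd := fun x => by rw [abs_neg]; exact h.bd x
  eq := fun x => by
    have h1 : ∀ i, pd i (fun x => - u x) = fun x => - pd i u x := fun i => by
      funext y; exact pd_neg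
    simp_rw [h1]
    have h2 : ∀ i, pd i (fun x => - pd i u x) x = - pd i (pd i u) x := fun i => pd_neg
    simp_rw [h2]
    rw [Finset.sum_neg_distrib, h.eq]
    ring

/-- Strong maximum principle, as a consequence of Modica's inequality. -/
theorem Sol.eq_one (h : Sol u) {x0 : Fin n → ℝ} (h0 : u x0 = 1) (x : Fin n → ℝ) : u x = 1 := by
  set v : Fin n → ℝ := x - x0 with hv
  set f : ℝ → ℝ := fun s => 1 - u (x0 + s • v) with hf
  have hd : Differentiable ℝ u := h.c2.differentiable (by norm_num)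
  have hder : ∀ s, HasDerivAt f (-(fderiv ℝ u (x0 + s • v) v)) s := by
    intro s
    exact (hasDerivAt_dir (hd _)).const_sub 1
  have hbound : ∀ s, ‖-(fderiv ℝ u (x0 + s • v) v)‖ ≤ (2 * eno v) * ‖f s‖ := by
    intro s
    set y := x0 + s • v with hy
    rw [norm_neg, fderiv_eq_sum_pd, Real.norm_eq_abs]
    have hcs := Finset.sum_mul_sq_le_sq_mul_sq Finset.univ v (fun i => pd i u y)
    have hmod := h.modica y
    have hb := abs_le.mp (h.bd y)
    have hf0 : 0 ≤ 1 - u y := by linarith only [hb]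
    have h1 : (∑ i, v i * pd i u y) ^ 2 ≤ (2 * eno v * (1 - u y)) ^ 2 := by
      have e1 : (∑ i, v i ^ 2) = eno v ^ 2 := by rw [eno_sq]; rfl
      rw [e1] at hcs
      have e2 : ∑ i, pd i u y ^ 2 ≤ 4 * (1 - u y) ^ 2 := by
        have e3 : (1 - u y ^ 2) ^ 2 = (1 - u y) ^ 2 * (1 + u y) ^ 2 := by ring
        have e4 : (1 + u y) ^ 2 ≤ 4 := by (clear * - u y hb; nlinarith only [hb])
        have e5 : 0 ≤ (1 - u y) ^ 2 := sq_nonneg _
        have e6 : (1 - u y ^ 2) ^ 2 ≤ 4 * (1 - u y) ^ 2 := by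
          rw [e3]; (clear * - u y e4; nlinarith)
        have e7 : 0 ≤ ∑ i, pd i u y ^ 2 := Finset.sum_nonneg fun _ _ => sq_nonneg _
        linarith only [hmod, e5, e6]
      calc (∑ i, v i * pd i u y) ^ 2 ≤ eno v ^ 2 * ∑ i, pd i u y ^ 2 := hcs
        _ ≤ eno v ^ 2 * (4 * (1 - u y) ^ 2) := by (clear * - e2; gcongr)
        _ = (2 * eno v * (1 - u y)) ^ 2 := by ring
    have h2 : 0 ≤ 2 * eno v * (1 - u y) := by
      have := eno_nonneg v; (clear * - this hf0; positivity)
    have h3 := abs_le_of_sq_le_sq h1 h2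
    have h4 : ‖f s‖ = 1 - u y := by
      rw [Real.norm_eq_abs, abs_of_nonneg hf0]
    rw [h4]
    exact h3
  have hz := eq_zero_of_abs_deriv_le_mul_abs_self_of_eq_zero_right (f := f)
    (f' := fun s => -(fderiv ℝ u (x0 + s • v) v)) (K := 2 * eno v) (a := 0) (b := 1)
    (fun s _ => (hder s).continuousAt.continuousWithinAt)
    (fun s _ => (hder s).hasDerivWithinAt)
    (by simp [hf, h0]) (fun s _ => hbound s) 1 (by simp only [Set.mem_Icc, zero_le_one, Std.le_refl, and_self])
  simp only [hf, hv, one_smul] at hz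
  rw [show x0 + (x - x0) = x by abel] at hz
  linarith only [hz]

theorem Sol.eq_neg_one (h : Sol u) {x0 : Fin n → ℝ} (h0 : u x0 = -1) (x : Fin n → ℝ) :
    u x = -1 := by
  have := h.neg.eq_one (x0 := x0) (by rw [h0]; ring) x
  linarith

/-- Either `1 - u^2` vanishes identically or it is everywhere positive. -/
theorem Sol.psi_dichotomy (h : Sol u) : (∀ x, psi u x = 0) ∨ (∀ x, 0 < psi u x) := by
  by_cases hex : ∃ x0, psi u x0 = 0
  · left
    obtain ⟨x0, h0⟩ := hex
    unfold psi at h0 ⊢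
    have : (1 - u x0) * (1 + u x0) = 0 := by linarith
    rcases mul_eq_zero.mp this with h1 | h1
    · intro x
      rw [h.eq_one (x0 := x0) (by linarith only [h1]) x]; ring
    · intro x
      rw [h.eq_neg_one (x0 := x0) (by linarith) x]; ring
  · right
    push Not at hex
    intro x
    exact lt_of_le_of_ne (h.psi_nonneg x) (Ne.symm (hex x))

/-- Rigidity: if the Modica deficit vanishes identically, then the solution is constant
`±1` or its gradient has a constant direction. -/
theorem Sol.rigid (h : Sol u) (hD : ∀ x, defi u x = 0) :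
    (∀ x, psi u x = 0) ∨ ∃ ν : Fin n → ℝ, ∑ i, ν i ^ 2 = 1 ∧
      ∀ x i, pd i u x = ν i * (psi u x / Real.sqrt 2) := by
  rcases h.psi_dichotomy with h0 | hpos
  · exact Or.inl h0
  right
  have hlt : ∀ x, 0 < 1 + u x ∧ 0 < 1 - u x := by
    intro x
    have h1 := hpos x
    have hb := abs_le.mp (h.bd x)
    unfold psi at h1
    constructor
    · rcases hb.1.lt_or_eq with h2 | h2
      · linarith
      · rw [← h2] at h1; norm_num at h1
    · rcases hb.2.lt_or_eq with h2 | h2
      · linarith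
      · rw [h2] at h1; norm_num at h1
  set v : (Fin n → ℝ) → ℝ := fun x => Real.log (1 + u x) - Real.log (1 - u x) with hv
  have hv2 : ContDiff ℝ 2 v :=
    ((contDiff_const.add h.c2).log (fun x => (hlt x).1.ne')).sub
      ((contDiff_const.sub h.c2).log (fun x => (hlt x).2.ne'))
  have hpv : ∀ i, pd i v = fun x => 2 * pd i u x / psi u x := by
    intro i; funext x
    have hd : DifferentiableAt ℝ u x := (h.c2.differentiable (by norm_num)) x
    have p1 := (hlt x).1
    have p2 := (hlt x).2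
    have d1 : DifferentiableAt ℝ (fun y => 1 + u y) x := hd.const_add 1
    have d2 : DifferentiableAt ℝ (fun y => 1 - u y) x := hd.const_sub 1
    have e1 : pd i (fun y => 1 + u y) x = pd i u x := by
      rw [pd_add (by fun_prop) hd, pd_const, zero_add]
    have e2 : pd i (fun y => 1 - u y) x = - pd i u x := by
      rw [pd_sub (by fun_prop) hd, pd_const, zero_sub]
    rw [hv, pd_sub (d1.log p1.ne') (d2.log p2.ne'),
      pd_comp (h := Real.log) (Real.differentiableAt_log p1.ne') d1,
      pd_comp (h := Real.log) (Real.differentiableAt_log p2.ne') d2, e1, e2,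
      Real.deriv_log, Real.deriv_log]
    have p3 : psi u x = (1 + u x) * (1 - u x) := by unfold psi; ring
    rw [p3]
    field_simp
    ring
  have hsum : ∀ x, ∑ i, pd i u x ^ 2 = psi u x ^ 2 / 2 := by
    intro x
    have := hD x
    unfold defi at this
    (clear * - n u x this; linarith)
  have hnorm : ∀ x, ∑ i, pd i v x ^ 2 = 2 := by
    intro x
    simp_rw [hpv, div_pow, mul_pow]
    rw [← Finset.sum_div, ← Finset.mul_sum, hsum]
    have := (hpos x).ne'
    field_simp
  have hlapv : ∀ x, ∑ i, pd i (pd i v) x = 0 := by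
    intro x
    have hp : psi u x ≠ 0 := (hpos x).ne'
    have e1 : ∀ i, pd i (pd i v) x = 2 * pd i (pd i u) x / psi u x
        + 4 * u x * pd i u x ^ 2 / psi u x ^ 2 := by
      intro i
      have hdi : DifferentiableAt ℝ (pd i u) x :=
        ((contDiff_pd_one h.c2).differentiable (by norm_num)) x
      have dψ : DifferentiableAt ℝ (psi u) x := (h.psi_contDiff.differentiable (by norm_num)) x
      rw [hpv, pd_div (hdi.const_mul 2) dψ hp, pd_mul (f := fun _ => (2:ℝ)) (by fun_prop) hdi,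
        pd_const, h.pd_psi]
      field_simp
      ring
    simp_rw [e1]
    rw [Finset.sum_add_distrib, ← Finset.sum_div, ← Finset.mul_sum, h.eq,
      ← Finset.sum_div, ← Finset.mul_sum, hsum]
    have e2 : u x ^ 3 - u x = - u x * psi u x := by unfold psi; ring
    rw [e2]
    field_simp
    ring
  -- the gradient of `v` is bounded
  have hpvb : ∀ x i, |pd i v x| ≤ 2 := by
    intro x i
    have h1 : pd i v x ^ 2 ≤ ∑ i, pd i v x ^ 2 :=
      Finset.single_le_sum (f := fun i => pd i v x ^ 2) (fun _ _ => sq_nonneg _) (Finset.mem_univ i)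
    rw [hnorm] at h1
    apply abs_le_of_sq_le_sq _ (by norm_num)
    linarith only [h1]
  have hdv : Differentiable ℝ v := hv2.differentiable (by norm_num)
  have hconst : ∀ i x y, pd i v x = pd i v y := by
    intro i x y
    set w' := x - y with hw'
    have h1 := liouville_harmonic (contDiff_diff hv2 w') (M := n * 2 * ‖w'‖)
      (fun z => abs_sub_le_of_pd hdv hpvb z w') (fun z => by
        rw [lap_diff hv2, hlapv, hlapv, sub_zero]) i y
    rw [pd_diff hdv] at h1
    simp only [hw'] at h1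
    rw [show y + (x - y) = x by abel] at h1
    linarith only [h1]
  refine ⟨fun i => pd i v 0 / Real.sqrt 2, ?_, ?_⟩
  · simp_rw [div_pow]
    rw [← Finset.sum_div, hnorm, Real.sq_sqrt (by norm_num)]
    norm_num
  · intro x i
    change pd i u x = pd i v 0 / Real.sqrt 2 * (psi u x / Real.sqrt 2)
    rw [hconst i 0 x, hpv]
    have h2 : Real.sqrt 2 * Real.sqrt 2 = 2 := Real.mul_self_sqrt (by norm_num)
    have h3 : Real.sqrt 2 ≠ 0 := by positivity
    have h4 := (hpos x).ne'
    field_simp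
    rw [Real.sq_sqrt (by norm_num)]

lemma abs_sub_cube_le {t : ℝ} (ht : |t| ≤ 1) : |t - t ^ 3 / 3| ≤ 2 / 3 := by
  rw [abs_le] at *
  constructor
  · nlinarith only [mul_nonneg (by linarith : 0 ≤ 2 - t) (sq_nonneg (t + 1))]
  · nlinarith only [mul_nonneg (by linarith : 0 ≤ 2 + t) (sq_nonneg (t - 1))]

/-- Energy bound for solutions with vanishing deficit. -/
theorem Sol.energy_of_defi_zero (h : Sol u) (hD : ∀ x, defi u x = 0) (hχ : ContDiff ℝ 1 χ)
    (hc : HasCompactSupport χ) :
    ∫ x, psi u x ^ 2 * χ x ≤ ∫ x, ∑ j, |pd j χ x| := by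
  have hnn : 0 ≤ ∫ x, ∑ j, |pd j χ x| :=
    integral_nonneg fun x => Finset.sum_nonneg fun _ _ => abs_nonneg _
  rcases h.rigid hD with h0 | ⟨ν, hν, hpd⟩
  · simp only [h0]
    simpa only [ne_eq, OfNat.ofNat_ne_zero, not_false_eq_true, zero_pow, zero_mul, integral_zero, ge_iff_le] using     hnn
  set g : (Fin n → ℝ) → ℝ := fun x => u x - u x ^ 3 / 3 with hg
  have hg1 : ContDiff ℝ 1 g := (h.c2.sub ((h.c2.pow 3).div_const 3)).of_le (by norm_num)
  have hd : Differentiable ℝ u := h.c2.differentiable (by norm_num)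
  have hs2 : Real.sqrt 2 * Real.sqrt 2 = 2 := Real.mul_self_sqrt (by norm_num)
  have hs0 : 0 < Real.sqrt 2 := by positivity
  have hs15 : Real.sqrt 2 ≤ 3 / 2 := by
    rw [Real.sqrt_le_left (by norm_num)]; norm_num
  have hpg : ∀ j x, pd j g x = ν j * (psi u x ^ 2 / Real.sqrt 2) := by
    intro j x
    have e3 : pd j (fun y => u y ^ 3 / 3) x = u x ^ 2 * pd j u x := by
      rw [pd_comp (h := fun t : ℝ => t ^ 3 / 3) (by fun_prop) (hd x)]
      simp only [deriv_div_const, differentiableAt_fun_id, deriv_fun_pow, Nat.cast_ofNat, Nat.add_one_sub_one, deriv_id'', mul_one, ne_eq, OfNat.ofNat_ne_zero, not_false_eq_true, mul_div_cancel_left₀]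
    have d3 : DifferentiableAt ℝ (fun y => u y ^ 3 / 3) x := by
      have hdx := hd x
      (clear * - hdx; fun_prop)
    rw [hg, pd_sub (hd x) d3, e3, hpd]
    unfold psi
    ring
  have hkey : ∀ x, psi u x ^ 2 = Real.sqrt 2 * ∑ j, ν j * pd j g x := by
    intro x
    simp_rw [hpg]
    have : ∑ j, ν j * (ν j * (psi u x ^ 2 / Real.sqrt 2))
        = (∑ j, ν j ^ 2) * (psi u x ^ 2 / Real.sqrt 2) := by
      rw [Finset.sum_mul]
      refine Finset.sum_congr rfl fun j _ => ?_
      ring
    rw [this, hν]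
    (clear * -; field_simp)
  have hint : ∀ j : Fin n, Integrable (fun x => pd j g x * χ x) := fun j =>
    ((continuous_pd hg1).mul hχ.continuous).integrable_of_hasCompactSupport hc.mul_left
  have hint2 : ∀ j : Fin n, Integrable (fun x => g x * pd j χ x) := fun j =>
    (hg1.continuous.mul (continuous_pd hχ)).integrable_of_hasCompactSupport
      (hasCompactSupport_pd hc).mul_left
  have hint3 : ∀ j : Fin n, Integrable (fun x => |pd j χ x|) := fun j =>
    ((continuous_pd hχ).integrable_of_hasCompactSupport (hasCompactSupport_pd hc)).abs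
  have hνle : ∀ j, |ν j| ≤ 1 := by
    intro j
    have h1 : ν j ^ 2 ≤ ∑ i, ν i ^ 2 :=
      Finset.single_le_sum (f := fun i => ν i ^ 2) (fun _ _ => sq_nonneg _) (Finset.mem_univ j)
    rw [hν] at h1
    apply abs_le_of_sq_le_sq _ (by norm_num)
    linarith only [h1]
  have e1 : ∫ x, psi u x ^ 2 * χ x = Real.sqrt 2 * ∑ j, ν j * ∫ x, pd j g x * χ x := by
    simp_rw [hkey]
    have : (fun x => (Real.sqrt 2 * ∑ j, ν j * pd j g x) * χ x)
        = fun x => Real.sqrt 2 * ∑ j, ν j * (pd j g x * χ x) := by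
      ext x
      rw [mul_assoc, Finset.sum_mul]
      congr 1
      refine Finset.sum_congr rfl fun j _ => ?_
      ring
    rw [this, integral_const_mul, integral_finsetSum _ (fun j _ => (hint j).const_mul _)]
    congr 1
    refine Finset.sum_congr rfl fun j _ => ?_
    rw [integral_const_mul]
  have e2 : ∀ j, ν j * ∫ x, pd j g x * χ x ≤ 2 / 3 * ∫ x, |pd j χ x| := by
    intro j
    have h1 : ∫ x, pd j g x * χ x = - ∫ x, g x * pd j χ x := by
      have := integral_mul_pd (i := j) hg1 hχ hc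
      rw [this, neg_neg]
    have h2 : |∫ x, g x * pd j χ x| ≤ ∫ x, 2 / 3 * |pd j χ x| := by
      rw [← Real.norm_eq_abs]
      refine norm_integral_le_of_norm_le ((hint3 j).const_mul _) ?_
      filter_upwards with x
      rw [norm_mul, Real.norm_eq_abs, Real.norm_eq_abs]
      exact mul_le_mul_of_nonneg_right (abs_sub_cube_le (h.bd x)) (abs_nonneg _)
    rw [integral_const_mul] at h2
    calc ν j * ∫ x, pd j g x * χ x ≤ |ν j * ∫ x, pd j g x * χ x| := le_abs_self _
      _ = |ν j| * |∫ x, g x * pd j χ x| := by rw [abs_mul, h1, abs_neg]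
      _ ≤ 1 * |∫ x, g x * pd j χ x| := mul_le_mul_of_nonneg_right (hνle j) (abs_nonneg _)
      _ ≤ 2 / 3 * ∫ x, |pd j χ x| := by rw [one_mul]; exact h2
  rw [e1, integral_finsetSum _ (fun j _ => hint3 j)]
  have e3 : ∑ j, ν j * ∫ x, pd j g x * χ x ≤ 2 / 3 * ∑ j, ∫ x, |pd j χ x| := by
    rw [Finset.mul_sum]
    exact Finset.sum_le_sum fun j _ => e2 j
  have e4 : 0 ≤ ∑ j, ∫ x, |pd j χ x| :=
    Finset.sum_nonneg fun j _ => integral_nonneg fun x => abs_nonneg _
  calc Real.sqrt 2 * ∑ j, ν j * ∫ x, pd j g x * χ x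
      ≤ Real.sqrt 2 * (2 / 3 * ∑ j, ∫ x, |pd j χ x|) := by (clear * - e3; gcongr)
    _ ≤ 3 / 2 * (2 / 3 * ∑ j, ∫ x, |pd j χ x|) := by (clear * - hs15; gcongr)
    _ = _ := by ring

/-- A solution with vanishing deficit is one-dimensional. -/
theorem Sol.one_dim_of_defi_zero (h : Sol u) (hD : ∀ x, defi u x = 0) (hpos : ∃ x, 0 < psi u x) :
    ∃ ν : Fin n → ℝ, ∑ i, ν i ^ 2 = 1 ∧ ∃ g : ℝ → ℝ, ∀ x, u x = g (∑ i, ν i * x i) := by
  rcases h.rigid hD with h0 | ⟨ν, hν, hpd⟩
  · obtain ⟨x, hx⟩ := hpos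
    rw [h0 x] at hx
    exact absurd hx (lt_irrefl _)
  refine ⟨ν, hν, fun t => u (t • ν), fun x => ?_⟩
  set t : ℝ := ∑ i, ν i * x i with ht
  set w : Fin n → ℝ := x - t • ν with hw
  have hd : Differentiable ℝ u := h.c2.differentiable (by norm_num)
  have hder : ∀ s : ℝ, HasDerivAt (fun s : ℝ => u (t • ν + s • w)) 0 s := by
    intro s
    have h1 := hasDerivAt_dir (w := u) (x := t • ν) (v := w) (s := s) (hd _)
    have h2 : fderiv ℝ u (t • ν + s • w) w = 0 := by
      rw [fderiv_eq_sum_pd]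
      simp_rw [hpd]
      have : ∑ i, w i * (ν i * (psi u (t • ν + s • w) / Real.sqrt 2))
          = (∑ i, w i * ν i) * (psi u (t • ν + s • w) / Real.sqrt 2) := by
        rw [Finset.sum_mul]
        refine Finset.sum_congr rfl fun j _ => ?_
        ring
      rw [this]
      have h3 : ∑ i, w i * ν i = 0 := by
        have : ∀ i, w i * ν i = ν i * x i - t * ν i ^ 2 := by
          intro i; simp [hw]; ring
        simp_rw [this]
        rw [Finset.sum_sub_distrib, ← Finset.mul_sum, hν, ← ht]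
        ring
      rw [h3, zero_mul]
    rwa [h2] at h1
  have hconst := is_const_of_deriv_eq_zero (f := fun s : ℝ => u (t • ν + s • w))
    (fun s => (hder s).differentiableAt) (fun s => (hder s).deriv) 1 0
  simp only [one_smul, zero_smul, add_zero, hw] at hconst
  rw [show t • ν + (x - t • ν) = x by abel] at hconst
  exact hconst

end Vale.Agent.P134
end
end

section

section

open MeasureTheory Filter Topology

namespace Vale.Agent.P134

variable {n : ℕ} {u U w η χ : (Fin n → ℝ) → ℝ} {x : Fin n → ℝ} {i j : Fin n} {q : Fin n}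

lemma tendsto_psi {ι : Type*} {l : Filter ι} {F : ι → (Fin n → ℝ) → ℝ} {x : Fin n → ℝ}
    (h : Tendsto (fun t => F t x) l (𝓝 (U x))) :
    Tendsto (fun t => psi (F t) x) l (𝓝 (psi U x)) := by
  unfold psi
  exact (h.pow 2).const_sub 1

lemma tendsto_defi {ι : Type*} {l : Filter ι} {F : ι → (Fin n → ℝ) → ℝ} {x : Fin n → ℝ}
    (h : Tendsto (fun t => F t x) l (𝓝 (U x)))
    (h' : ∀ i, Tendsto (fun t => pd i (F t) x) l (𝓝 (pd i U x))) :
    Tendsto (fun t => defi (F t) x) l (𝓝 (defi U x)) := by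
  unfold defi
  exact (((tendsto_psi h).pow 2).div_const 2).sub (tendsto_finsetSum _ fun i _ => (h' i).pow 2)

lemma defi_le (u : (Fin n → ℝ) → ℝ) (x : Fin n → ℝ) : defi u x ≤ psi u x ^ 2 / 2 := by
  unfold defi
  have : 0 ≤ ∑ i, pd i u x ^ 2 := Finset.sum_nonneg fun _ _ => sq_nonneg _
  linarith

lemma Sol.defi_le_half (h : Sol u) (x : Fin n → ℝ) : defi u x ≤ 1 / 2 := by
  have h1 := defi_le u x
  have h2 := h.psi_nonneg x
  have h3 := psi_le_one u x
  nlinarith

lemma Sol.psi_sq_le (h : Sol u) (x : Fin n → ℝ) : psi u x ^ 2 ≤ 1 := by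
  have h2 := h.psi_nonneg x
  have h3 := psi_le_one u x
  nlinarith

lemma Sol.psi_mul_defi_le (h : Sol u) (x : Fin n → ℝ) : psi u x * defi u x ≤ 1 := by
  have h1 := h.defi_le_half x
  have h2 := h.psi_nonneg x
  have h3 := psi_le_one u x
  have h4 := h.defi_nonneg x
  nlinarith

lemma Sol.psi_mul_defi_nonneg (h : Sol u) (x : Fin n → ℝ) : 0 ≤ psi u x * defi u x :=
  mul_nonneg (h.psi_nonneg x) (h.defi_nonneg x)

lemma Sol.psi_defi_continuous (h : Sol u) : Continuous (fun x => psi u x * defi u x) :=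
  h.psi_contDiff.continuous.mul h.defi_continuous

/-- Pointwise limits preserve `DStab`. -/
theorem DStab.of_tendsto {ι : Type*} [SemilatticeSup ι] [Nonempty ι]
    [(atTop : Filter ι).IsCountablyGenerated]
    {F : ι → (Fin n → ℝ) → ℝ} (hF : ∀ t, DStab (F t))
    (hlim : ∀ x, Tendsto (fun t => F t x) atTop (𝓝 (U x))) : DStab U := by
  obtain ⟨hU, h1, -⟩ := Sol.of_tendsto (fun t => (hF t).toSol) hlim
  refine ⟨hU, fun η hη hc => ?_⟩
  have hcη2 : HasCompactSupport (fun x => η x ^ 2) := hcs_sq hc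
  have iη : Integrable (fun x => η x ^ 2) :=
    (hη.continuous.pow 2).integrable_of_hasCompactSupport hcη2
  have iD : Integrable (fun x => ∑ j, pd j η x ^ 2) := by
    apply integrable_finsetSum
    intro j _
    exact ((continuous_pd hη).pow 2).integrable_of_hasCompactSupport
      (hcs_sq (hasCompactSupport_pd hc))
  have L1 : Tendsto (fun t => ∫ x, psi (F t) x * defi (F t) x * η x ^ 2) atTop
      (𝓝 (∫ x, psi U x * defi U x * η x ^ 2)) := by
    apply tendsto_integral_filter_of_dominated_convergence (fun x => η x ^ 2)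
    · refine Eventually.of_forall fun t => Continuous.aestronglyMeasurable ?_
      exact (hF t).psi_defi_continuous.mul (hη.continuous.pow 2)
    · refine Eventually.of_forall fun t => Eventually.of_forall fun x => ?_
      rw [Real.norm_eq_abs, abs_of_nonneg (mul_nonneg ((hF t).psi_mul_defi_nonneg x) (sq_nonneg _))]
      exact mul_le_of_le_one_left (sq_nonneg _) ((hF t).psi_mul_defi_le x)
    · exact iη
    · refine Eventually.of_forall fun x => ?_
      exact ((tendsto_psi (hlim x)).mul (tendsto_defi (hlim x) (h1 x))).mul_const _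
  have L2 : Tendsto (fun t => ∫ x, psi (F t) x ^ 2 * ∑ j, pd j η x ^ 2) atTop
      (𝓝 (∫ x, psi U x ^ 2 * ∑ j, pd j η x ^ 2)) := by
    apply tendsto_integral_filter_of_dominated_convergence (fun x => ∑ j, pd j η x ^ 2)
    · refine Eventually.of_forall fun t => Continuous.aestronglyMeasurable ?_
      exact ((hF t).psi_contDiff.continuous.pow 2).mul
        (continuous_finsetSum _ fun j _ => (continuous_pd hη).pow 2)
    · refine Eventually.of_forall fun t => Eventually.of_forall fun x => ?_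
      have h0 : 0 ≤ ∑ j, pd j η x ^ 2 := Finset.sum_nonneg fun _ _ => sq_nonneg _
      rw [Real.norm_eq_abs, abs_of_nonneg (mul_nonneg (sq_nonneg _) h0)]
      exact mul_le_of_le_one_left h0 ((hF t).psi_sq_le x)
    · exact iD
    · refine Eventually.of_forall fun x => ?_
      exact ((tendsto_psi (hlim x)).pow 2).mul_const _
  exact le_of_tendsto_of_tendsto' (L1.const_mul 2) L2 fun t => (hF t).ineq η hη hc

/-- Sequential compactness of the set of solutions for pointwise convergence. -/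
theorem exists_subseq (F : ℕ → (Fin n → ℝ) → ℝ) (hF : ∀ k, Sol (F k)) :
    ∃ φ : ℕ → ℕ, StrictMono φ ∧ ∃ U : (Fin n → ℝ) → ℝ,
      ∀ x, Tendsto (fun k => F (φ k) x) atTop (𝓝 (U x)) := by
  set d : ℕ → (Fin n → ℝ) := TopologicalSpace.denseSeq (Fin n → ℝ) with hd
  set K : Set (ℕ → ℝ) := Set.pi Set.univ (fun _ => Set.Icc (-1:ℝ) 1) with hK
  have hKc : IsCompact K := isCompact_univ_pi fun _ => isCompact_Icc
  set G : ℕ → (ℕ → ℝ) := fun k m => F k (d m) with hG
  have hGK : ∀ k, G k ∈ K := by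
    intro k m _
    exact abs_le.mp ((hF k).bd _)
  obtain ⟨a, -, φ, hφ, hlim⟩ := hKc.tendsto_subseq hGK
  refine ⟨φ, hφ, ?_⟩
  have hlim' : ∀ m, Tendsto (fun k => F (φ k) (d m)) atTop (𝓝 (a m)) := by
    intro m
    exact (tendsto_pi_nhds.mp hlim) m
  have hex : ∀ x, ∃ y, Tendsto (fun k => F (φ k) x) atTop (𝓝 y) := by
    intro x
    apply cauchySeq_tendsto_of_complete
    rw [Metric.cauchySeq_iff]
    intro ε hε
    set L : ℝ := n * (n + 1) with hL
    have hL0 : 0 ≤ L := by (clear * -; positivity)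
    obtain ⟨m, hm⟩ := (TopologicalSpace.denseRange_denseSeq (Fin n → ℝ)).exists_dist_lt x
      (ε := ε / (4 * (L + 1))) (by (clear * - hε; positivity))
    have hclose : ∀ k, |F k x - F k (d m)| ≤ ε / 4 := by
      intro k
      have h1 := (hF k).diff_le (d m) (x - d m)
      rw [show d m + (x - d m) = x by abel] at h1
      rw [dist_eq_norm] at hm
      calc |F k x - F k (d m)| ≤ L * ‖x - d m‖ := h1
        _ ≤ (L + 1) * (ε / (4 * (L + 1))) := by
            apply mul_le_mul (by linarith only []) hm.le (norm_nonneg _) (by (clear * -; positivity))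
        _ = ε / 4 := by (clear * - hL0 hε; field_simp)
    have h2 := (hlim' m).cauchySeq
    rw [Metric.cauchySeq_iff] at h2
    obtain ⟨T, hT⟩ := h2 (ε / 4) (by positivity)
    refine ⟨T, fun k hk l hl => ?_⟩
    have a1 := hT k hk l hl
    have a2 := hclose (φ k)
    have a3 := hclose (φ l)
    rw [Real.dist_eq] at *
    rw [abs_lt] at *
    rw [abs_le] at a2 a3
    constructor <;> (clear * - ε F φ k x l d m hε a1 a2 a3; linarith only [a1, a2, a3])
  choose U hU using hex
  exact ⟨U, hU⟩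

/-- If the deficit is small on a large box, then the energy is almost bounded by the total
variation of the cutoff. -/
theorem energy_of_small_deficit (hχ : ContDiff ℝ 1 χ) (hc : HasCompactSupport χ)
    {ε : ℝ} (hε : 0 < ε) :
    ∃ N : ℕ, ∀ u : (Fin n → ℝ) → ℝ, Sol u →
      ∫ x in box n N, psi u x * defi u x ≤ 1 / ((N : ℝ) + 1) →
      ∫ x, psi u x ^ 2 * χ x ≤ (∫ x, ∑ j, |pd j χ x|) + ε := by
  by_contra hcon
  push Not at hcon
  choose F hFS hFd hFe using hcon
  obtain ⟨φ, hφ, U, hlim⟩ := exists_subseq F hFS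
  obtain ⟨hU, h1, -⟩ := Sol.of_tendsto (fun k => hFS (φ k)) hlim
  -- the deficit of the limit vanishes
  have hbox : ∀ m : ℕ, ∫ x in box n m, psi U x * defi U x ≤ 0 := by
    intro m
    have L1 : Tendsto (fun k => ∫ x in box n m, psi (F (φ k)) x * defi (F (φ k)) x) atTop
        (𝓝 (∫ x in box n m, psi U x * defi U x)) := by
      apply tendsto_integral_filter_of_dominated_convergence (fun _ => (1:ℝ))
      · exact Eventually.of_forall fun k => (hFS (φ k)).psi_defi_continuous.aestronglyMeasurable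
      · refine Eventually.of_forall fun k => Eventually.of_forall fun x => ?_
        rw [Real.norm_eq_abs, abs_of_nonneg ((hFS (φ k)).psi_mul_defi_nonneg x)]
        exact (hFS (φ k)).psi_mul_defi_le x
      · exact integrableOn_const (isCompact_box _).measure_lt_top.ne
      · refine Eventually.of_forall fun x => ?_
        exact (tendsto_psi (hlim x)).mul (tendsto_defi (hlim x) (h1 x))
    have L2 : Tendsto (fun k => 1 / (((φ k : ℕ) : ℝ) + 1)) atTop (𝓝 0) :=
      tendsto_one_div_add_atTop_nhds_zero_nat.comp hφ.tendsto_atTop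
    refine le_of_tendsto_of_tendsto L1 L2 ?_
    filter_upwards [hφ.tendsto_atTop.eventually_ge_atTop m] with k hk
    refine le_trans ?_ (hFd (φ k))
    apply setIntegral_mono_set
    · exact (hFS (φ k)).psi_defi_continuous.continuousOn.integrableOn_compact (isCompact_box _)
    · exact Eventually.of_forall fun x => (hFS (φ k)).psi_mul_defi_nonneg x
    · apply LE.le.eventuallyLE
      intro x hx
      rw [mem_box] at hx ⊢
      intro i
      exact (hx i).trans (by exact_mod_cast hk)
  have hD : ∀ x, defi U x = 0 := by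
    intro x
    obtain ⟨m, hm⟩ := exists_nat_gt ‖x‖
    have hzero : ∫ x in box n m, psi U x * defi U x = 0 :=
      le_antisymm (hbox m) (integral_nonneg fun x => hU.psi_mul_defi_nonneg x)
    have hxm : x ∈ interior (box n m) := by
      unfold box
      rw [← Set.pi_univ_Icc]
      rw [interior_pi_set Set.finite_univ]
      intro i _
      rw [interior_Icc]
      have := (norm_le_pi_norm x i).trans_lt hm
      rw [Real.norm_eq_abs, abs_lt] at this
      exact this
    have h2 : psi U x * defi U x = 0 := by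
      have h3 := (setIntegral_eq_zero_iff_of_nonneg_ae (μ := volume) (s := box n m)
        (Eventually.of_forall fun x => hU.psi_mul_defi_nonneg x)
        (hU.psi_defi_continuous.continuousOn.integrableOn_compact (isCompact_box _))).mp hzero
      by_contra hne
      have hopen : IsOpen {y | psi U y * defi U y ≠ 0} :=
        isOpen_ne_fun hU.psi_defi_continuous continuous_const
      have hne' : (interior (box n m) ∩ {y | psi U y * defi U y ≠ 0}).Nonempty := ⟨x, hxm, hne⟩
      have hpos := (isOpen_interior.inter hopen).measure_pos volume hne'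
      rw [Filter.EventuallyEq, ae_restrict_iff' (isCompact_box _).measurableSet] at h3
      have : volume (interior (box n m) ∩ {y | psi U y * defi U y ≠ 0}) = 0 := by
        apply measure_mono_null _ h3
        intro y hy hy'
        exact hy.2 (hy' (interior_subset hy.1))
      exact absurd this hpos.ne'
    rcases mul_eq_zero.mp h2 with h3 | h3
    · have h4 := defi_le U x
      rw [h3] at h4
      exact le_antisymm (by linarith only [h4]) (hU.defi_nonneg x)
    · exact h3
  have hen := hU.energy_of_defi_zero hD hχ hc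
  have L3 : Tendsto (fun k => ∫ x, psi (F (φ k)) x ^ 2 * χ x) atTop
      (𝓝 (∫ x, psi U x ^ 2 * χ x)) := by
    apply tendsto_integral_filter_of_dominated_convergence (fun x => |χ x|)
    · refine Eventually.of_forall fun k => Continuous.aestronglyMeasurable ?_
      exact ((hFS (φ k)).psi_contDiff.continuous.pow 2).mul hχ.continuous
    · refine Eventually.of_forall fun k => Eventually.of_forall fun x => ?_
      rw [norm_mul, Real.norm_eq_abs, Real.norm_eq_abs, abs_of_nonneg (sq_nonneg _)]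
      exact mul_le_of_le_one_left (abs_nonneg _) ((hFS (φ k)).psi_sq_le x)
    · exact (hχ.continuous.integrable_of_hasCompactSupport hc).abs
    · refine Eventually.of_forall fun x => ?_
      exact ((tendsto_psi (hlim x)).pow 2).mul_const _
  have hge : (∫ x, ∑ j, |pd j χ x|) + ε ≤ ∫ x, psi U x ^ 2 * χ x :=
    ge_of_tendsto L3 (Eventually.of_forall fun k => (hFe (φ k)).le)
  linarith

end Vale.Agent.P134
end
end

section

section

open MeasureTheory Filter Topology

namespace Vale.Agent.P134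

variable {n : ℕ} {u U w η χ : (Fin n → ℝ) → ℝ} {x : Fin n → ℝ} {i j : Fin n} {q : Fin n}
  {Λ S : Finset (Fin n)} {M R : ℝ}

/-- Box with half-sides `M` in the directions of `Λ` and `R` in the other directions. -/
def bxL (Λ : Finset (Fin n)) (M R : ℝ) : Set (Fin n → ℝ) :=
  Set.Icc (fun i => -(if i ∈ Λ then M else R)) (fun i => if i ∈ Λ then M else R)

lemma mem_bxL : x ∈ bxL Λ M R ↔ ∀ i, |x i| ≤ if i ∈ Λ then M else R := by
  simp only [bxL, Set.mem_Icc, Pi.le_def, abs_le]
  exact ⟨fun h i => ⟨h.1 i, h.2 i⟩, fun h => ⟨fun i => (h i).1, fun i => (h i).2⟩⟩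

lemma isCompact_bxL : IsCompact (bxL Λ M R) := isCompact_Icc

lemma prod_ite_mem_const (a b : ℝ) :
    ∏ i : Fin n, (if i ∈ Λ then a else b) = a ^ Λ.card * b ^ (Λᶜ).card := by
  rw [Finset.prod_ite, Finset.prod_const, Finset.prod_const]
  congr 2
  · congr 1
    ext i; simp only [Finset.subset_univ, Finset.filter_mem_eq_of_subset]
  · congr 1
    ext i; simp only [Finset.mem_filter, Finset.mem_univ, true_and, Finset.mem_compl]

lemma volume_bxL (hM : 0 ≤ M) (hR : 0 ≤ R) :
    (volume (bxL Λ M R)).toReal = (2 * M) ^ Λ.card * (2 * R) ^ (Λᶜ).card := by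
  unfold bxL
  rw [Real.volume_Icc_pi_toReal (fun i => by
    simp only []
    split_ifs <;> linarith)]
  rw [← prod_ite_mem_const]
  refine Finset.prod_congr rfl fun i _ => ?_
  split_ifs <;> ring

lemma bxL_subset {M' R' : ℝ} (hM : M ≤ M') (hR : R ≤ R') : bxL Λ M R ⊆ bxL Λ M' R' := by
  intro x hx
  rw [mem_bxL] at *
  intro i
  refine (hx i).trans ?_
  split_ifs
  · exact hM
  · exact hR

lemma rho_le_of_abs {S : Finset (Fin n)} {r : ℝ} (h : ∀ i ∈ S, |x i| ≤ r) :
    rho S x ≤ (n * r) ^ 2 := by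
  unfold rho
  have h1 : ∀ i ∈ S, x i ^ 2 ≤ r ^ 2 := fun i hi =>
    sq_le_sq' (abs_le.mp (h i hi)).1 (abs_le.mp (h i hi)).2
  refine (Finset.sum_le_sum h1).trans ?_
  rw [Finset.sum_const, nsmul_eq_mul, mul_pow]
  apply mul_le_mul_of_nonneg_right _ (sq_nonneg _)
  have h2 : S.card ≤ n := by simpa only [Fintype.card_fin] using Finset.card_le_univ S
  have h3 : (S.card : ℝ) ≤ n := by exact_mod_cast h2
  rcases Nat.eq_zero_or_pos n with h0 | h0
  · subst h0
    have : S.card = 0 := Nat.le_zero.mp h2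
    simp [this]
  · have h4 : (1:ℝ) ≤ n := by exact_mod_cast h0
    (clear * - n S h4 h3; nlinarith)

lemma cutb_eq_one {S : Finset (Fin n)} {r : ℝ} (hr : 0 < r) (hn : 0 < n)
    (h : ∀ i ∈ S, |x i| ≤ r) : cutb S (n * r) x = 1 := by
  have hn' : (0:ℝ) < n := by exact_mod_cast hn
  unfold cutb
  apply th_one
  rw [div_le_one (by positivity)]
  exact rho_le_of_abs h

lemma cutb_eq_zero_of_abs {S : Finset (Fin n)} {r : ℝ} (hr : 0 < r) {i : Fin n} (hi : i ∈ S)
    (h : 2 * r < |x i|) : cutb S r x = 0 := by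
  apply cutb_eq_zero hr
  have h1 : (2 * r) ^ 2 < x i ^ 2 := by
    rw [← sq_abs (x i)]
    exact pow_lt_pow_left₀ h (by positivity) (by norm_num)
  have h2 := sq_le_rho hi x
  nlinarith only [h1, h2]

lemma pd_cutb_support {S : Finset (Fin n)} {r : ℝ} (hr : 0 < r)
    (h : pd i (cutb S r) x ≠ 0) : i ∈ S ∧ r ^ 2 ≤ rho S x ∧ rho S x ≤ 2 * r ^ 2 := by
  have hr2 : 0 < r ^ 2 := by positivity
  rw [pd_cutb] at h
  refine ⟨?_, ?_, ?_⟩
  · by_contra hi
    simp [hi] at h
  · by_contra hlt
    push Not at hlt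
    have : rho S x / r ^ 2 < 1 := (div_lt_one hr2).mpr hlt
    rw [th_deriv_of_lt this, zero_mul] at h
    exact h rfl
  · by_contra hlt
    push Not at hlt
    have : 2 < rho S x / r ^ 2 := (lt_div_iff₀ hr2).mpr hlt
    rw [th_deriv_of_gt this, zero_mul] at h
    exact h rfl

lemma abs_le_of_rho_le {S : Finset (Fin n)} {r : ℝ} (hr : 0 ≤ r) (hi : i ∈ S)
    (h : rho S x ≤ 2 * r ^ 2) : |x i| ≤ 2 * r := by
  have h2 := sq_le_rho hi x
  apply abs_le_of_sq_le_sq _ (by positivity)
  nlinarith [sq_nonneg r]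

/-- Averaged cutoff in the short directions. -/
noncomputable def zet (K : Finset (Fin n)) (ρ : ℝ) (J : ℕ) (x : Fin n → ℝ) : ℝ :=
  (J : ℝ)⁻¹ * ∑ k ∈ Finset.range J, cutb K (n * (2 ^ k * ρ)) x

/-- The full cutoff. -/
noncomputable def etaL (Λ : Finset (Fin n)) (M ρ : ℝ) (J : ℕ) (x : Fin n → ℝ) : ℝ :=
  cutb Λ (n * M) x * zet Λᶜ ρ J x

lemma zet_contDiff (K : Finset (Fin n)) (ρ : ℝ) (J : ℕ) : ContDiff ℝ 1 (zet K ρ J) := by
  unfold zet
  exact contDiff_const.mul (ContDiff.sum fun k _ => cutb_contDiff K _)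

lemma etaL_contDiff (Λ : Finset (Fin n)) (M ρ : ℝ) (J : ℕ) : ContDiff ℝ 1 (etaL Λ M ρ J) :=
  (cutb_contDiff Λ _).mul (zet_contDiff _ _ _)

lemma zet_nonneg (K : Finset (Fin n)) (ρ : ℝ) (J : ℕ) (x : Fin n → ℝ) : 0 ≤ zet K ρ J x :=
  mul_nonneg (by positivity) (Finset.sum_nonneg fun k _ => cutb_nonneg _ _ _)

lemma zet_le_one (K : Finset (Fin n)) (ρ : ℝ) (J : ℕ) (x : Fin n → ℝ) : zet K ρ J x ≤ 1 := by
  unfold zet
  rcases Nat.eq_zero_or_pos J with h0 | h0
  · subst h0; simp only [CharP.cast_eq_zero, inv_zero, Finset.range_zero, Finset.sum_empty, mul_zero, zero_le_one]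
  have hJ : (0:ℝ) < J := by exact_mod_cast h0
  rw [inv_mul_le_iff₀ hJ, mul_one]
  calc ∑ k ∈ Finset.range J, cutb K (n * (2 ^ k * ρ)) x ≤ ∑ k ∈ Finset.range J, (1:ℝ) :=
        Finset.sum_le_sum fun k _ => cutb_le_one _ _ _
    _ = J := by simp

lemma zet_eq_one {K : Finset (Fin n)} {ρ : ℝ} (hρ : 0 < ρ) {J : ℕ} (hJ : 0 < J) (hn : 0 < n)
    (h : ∀ i ∈ K, |x i| ≤ ρ) : zet K ρ J x = 1 := by
  unfold zet
  have h1 : ∀ k ∈ Finset.range J, cutb K (n * (2 ^ k * ρ)) x = 1 := by
    intro k _
    apply cutb_eq_one (by positivity) hn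
    intro i hi
    refine (h i hi).trans ?_
    have : (1:ℝ) ≤ 2 ^ k := one_le_pow₀ (by norm_num)
    (clear * - ρ k hρ this; nlinarith)
  rw [Finset.sum_congr rfl h1]
  have : (0:ℝ) < J := by exact_mod_cast hJ
  simp [this.ne']

lemma etaL_eq_one (hM : 0 < M) {ρ : ℝ} (hρ : 0 < ρ) {J : ℕ} (hJ : 0 < J) (hn : 0 < n)
    (h : x ∈ bxL Λ M ρ) : etaL Λ M ρ J x = 1 := by
  rw [mem_bxL] at h
  unfold etaL
  rw [cutb_eq_one hM hn, zet_eq_one hρ hJ hn, mul_one]
  · intro i hi
    have := h i
    rwa [if_neg (by simpa using hi)] at this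
  · intro i hi
    have := h i
    rwa [if_pos hi] at this

lemma etaL_eq_zero (hM : 0 < M) {ρ : ℝ} (hρ : 0 < ρ) {J : ℕ} (hn : 0 < n)
    (h : x ∉ bxL Λ (2 * (n * M)) (2 * (n * (2 ^ J * ρ)))) : etaL Λ M ρ J x = 0 := by
  have hn' : (0:ℝ) < n := by exact_mod_cast hn
  rw [mem_bxL] at h
  push Not at h
  obtain ⟨i, hi⟩ := h
  unfold etaL
  by_cases hiL : i ∈ Λ
  · rw [if_pos hiL] at hi
    rw [cutb_eq_zero_of_abs (by positivity) hiL hi, zero_mul]
  · rw [if_neg hiL] at hi
    have : zet Λᶜ ρ J x = 0 := by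
      unfold zet
      rw [Finset.sum_eq_zero, mul_zero]
      intro k hk
      apply cutb_eq_zero_of_abs (by positivity) (i := i) (by simpa using hiL)
      refine lt_of_le_of_lt ?_ hi
      have : (2:ℝ) ^ k ≤ 2 ^ J := pow_le_pow_right₀ (by norm_num) (Finset.mem_range.mp hk).le
      (clear * - this hρ hn; gcongr)
    rw [this, mul_zero]

lemma etaL_hasCompactSupport (hM : 0 < M) {ρ : ℝ} (hρ : 0 < ρ) {J : ℕ} (hn : 0 < n) :
    HasCompactSupport (etaL Λ M ρ J) :=
  HasCompactSupport.intro isCompact_bxL fun _ hx => etaL_eq_zero hM hρ hn hx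

lemma pd_zet {K : Finset (Fin n)} {ρ : ℝ} {J : ℕ} :
    pd i (zet K ρ J) x = (J : ℝ)⁻¹ * ∑ k ∈ Finset.range J, pd i (cutb K (n * (2 ^ k * ρ))) x := by
  unfold zet
  have hd : ∀ k ∈ Finset.range J, DifferentiableAt ℝ (cutb K (n * (2 ^ k * ρ))) x := fun k _ =>
    (cutb_contDiff K _).differentiable (by norm_num) x
  have hd2 : DifferentiableAt ℝ (fun y => ∑ k ∈ Finset.range J, cutb K (n * (2 ^ k * ρ)) y) x :=
    DifferentiableAt.fun_sum hd
  rw [pd_mul (f := fun _ => (J : ℝ)⁻¹) (by fun_prop) hd2, pd_const, pd_sum _ hd]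
  ring

lemma pd_zet_sq {K : Finset (Fin n)} {ρ : ℝ} (hρ : 0 < ρ) {J : ℕ} (hn : 0 < n) :
    pd i (zet K ρ J) x ^ 2
      = (J : ℝ)⁻¹ ^ 2 * ∑ k ∈ Finset.range J, pd i (cutb K (n * (2 ^ k * ρ))) x ^ 2 := by
  have hn' : (0:ℝ) < n := by exact_mod_cast hn
  rw [pd_zet, mul_pow]
  congr 1
  rw [sq, Finset.sum_mul_sum]
  refine Finset.sum_congr rfl fun k hk => ?_
  rw [Finset.sum_eq_single k]
  · ring
  · intro l _ hlk
    by_contra hne
    have h1 := left_ne_zero_of_mul hne
    have h2 := right_ne_zero_of_mul hne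
    have s1 := pd_cutb_support (by positivity) h1
    have s2 := pd_cutb_support (by positivity) h2
    have key : ∀ a b : ℕ, a < b → ¬ ((n * (2 ^ b * ρ)) ^ 2 ≤ 2 * (n * (2 ^ a * ρ)) ^ 2) := by
      intro a b hab hle
      have h3 : (2:ℝ) * 2 ^ a ≤ 2 ^ b := by
        rw [← pow_succ']; exact pow_le_pow_right₀ (by norm_num) hab
      have h4 : (2 * (n * (2 ^ a * ρ))) ≤ n * (2 ^ b * ρ) := by
        calc 2 * ((n:ℝ) * (2 ^ a * ρ)) = n * ((2 * 2 ^ a) * ρ) := by ring
          _ ≤ n * (2 ^ b * ρ) := by (clear * - h3 hρ hn; gcongr)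
      have h5 : (2 * ((n:ℝ) * (2 ^ a * ρ))) ^ 2 ≤ (n * (2 ^ b * ρ)) ^ 2 := by (clear * - hn hρ h4; gcongr)
      have h6 : (0:ℝ) < (n * (2 ^ a * ρ)) ^ 2 := by positivity
      (clear * - n b ρ a hle h5 h6; linarith)
    rcases lt_or_gt_of_ne hlk with h3 | h3
    · exact key l k h3 (s1.2.1.trans s2.2.2)
    · exact key k l h3 (s2.2.1.trans s1.2.2)
  · intro h; exact absurd hk h

lemma pd_etaL_sq {ρ : ℝ} (hM : 0 < M) (hρ : 0 < ρ) {J : ℕ} (hn : 0 < n) :
    pd i (etaL Λ M ρ J) x ^ 2 = cutb Λ (n * M) x ^ 2 * pd i (zet Λᶜ ρ J) x ^ 2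
      + zet Λᶜ ρ J x ^ 2 * pd i (cutb Λ (n * M)) x ^ 2 := by
  have hn' : (0:ℝ) < n := by exact_mod_cast hn
  have d1 : DifferentiableAt ℝ (cutb Λ (n * M)) x :=
    (cutb_contDiff Λ _).differentiable (by norm_num) x
  have d2 : DifferentiableAt ℝ (zet Λᶜ ρ J) x :=
    (zet_contDiff Λᶜ ρ J).differentiable (by norm_num) x
  have h1 : pd i (etaL Λ M ρ J) x = cutb Λ (n * M) x * pd i (zet Λᶜ ρ J) x
      + zet Λᶜ ρ J x * pd i (cutb Λ (n * M)) x := by
    unfold etaL; exact pd_mul d1 d2
  have hcross : pd i (zet Λᶜ ρ J) x * pd i (cutb Λ (n * M)) x = 0 := by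
    by_contra hne
    have a1 := left_ne_zero_of_mul hne
    have a2 := right_ne_zero_of_mul hne
    have b2 := (pd_cutb_support (by positivity) a2).1
    rw [pd_zet] at a1
    apply a1
    rw [Finset.sum_eq_zero, mul_zero]
    intro k _
    by_contra h3
    have b1 := (pd_cutb_support (by positivity) h3).1
    rw [Finset.mem_compl] at b1
    exact b1 b2
  rw [h1]
  linear_combination (2 * cutb Λ (n * M) x * zet Λᶜ ρ J x) * hcross

/-- Real-valued indicator. -/
noncomputable def ind (A : Set (Fin n → ℝ)) (x : Fin n → ℝ) : ℝ := A.indicator (fun _ => (1:ℝ)) x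

lemma ind_nonneg (A : Set (Fin n → ℝ)) (x : Fin n → ℝ) : 0 ≤ ind A x :=
  Set.indicator_nonneg (fun _ _ => zero_le_one) x

lemma ind_mem {A : Set (Fin n → ℝ)} (h : x ∈ A) : ind A x = 1 := by
  unfold ind; exact Set.indicator_of_mem h _

lemma ind_notMem {A : Set (Fin n → ℝ)} (h : x ∉ A) : ind A x = 0 := by
  unfold ind; exact Set.indicator_of_notMem h _

lemma sum_pd_etaL_sq_le {C : ℝ} (hC : ∀ t, |deriv th t| ≤ C) {ρ : ℝ} (hM : 0 < M) (hρ : 0 < ρ)
    {J : ℕ} (hn : 0 < n) (x : Fin n → ℝ) :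
    ∑ i, pd i (etaL Λ M ρ J) x ^ 2
      ≤ (∑ k ∈ Finset.range J, ((J : ℝ)⁻¹ ^ 2 * (9 * C ^ 2 / (n * (2 ^ k * ρ) ^ 2)))
            * ind (bxL Λ (2 * (n * M)) (2 * (n * (2 ^ k * ρ)))) x)
        + 9 * C ^ 2 / (n * M ^ 2) * ind (bxL Λ (2 * (n * M)) (2 * (n * (2 ^ J * ρ)))) x := by
  have hn' : (0:ℝ) < n := by exact_mod_cast hn
  have hC0 : 0 ≤ C := (abs_nonneg _).trans (hC 0)
  simp_rw [pd_etaL_sq hM hρ hn]
  rw [Finset.sum_add_distrib]
  apply add_le_add
  · -- short directions
    have h1 : ∀ i : Fin n, cutb Λ (n * M) x ^ 2 * pd i (zet Λᶜ ρ J) x ^ 2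
        ≤ ∑ k ∈ Finset.range J, ((J : ℝ)⁻¹ ^ 2 * (9 * C ^ 2 / (n ^ 2 * (2 ^ k * ρ) ^ 2)))
            * ind (bxL Λ (2 * (n * M)) (2 * (n * (2 ^ k * ρ)))) x := by
      intro i
      rw [pd_zet_sq hρ hn, ← mul_assoc, Finset.mul_sum]
      apply Finset.sum_le_sum
      intro k _
      have hr : (0:ℝ) < n * (2 ^ k * ρ) := by positivity
      by_cases hx : x ∈ bxL Λ (2 * (n * M)) (2 * (n * (2 ^ k * ρ)))
      · rw [ind_mem hx, mul_one]
        have b1 := pd_cutb_bound (i := i) (x := x) hC Λᶜ hr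
        have b2 : pd i (cutb Λᶜ (n * (2 ^ k * ρ))) x ^ 2 ≤ (3 * C / (n * (2 ^ k * ρ))) ^ 2 :=
          sq_le_sq' (abs_le.mp b1).1 (abs_le.mp b1).2
        have b3 : cutb Λ (n * M) x ^ 2 ≤ 1 :=
          pow_le_one₀ (cutb_nonneg _ _ _) (cutb_le_one _ _ _)
        have b4 : (3 * C / (n * (2 ^ k * ρ))) ^ 2 = 9 * C ^ 2 / (n ^ 2 * (2 ^ k * ρ) ^ 2) := by
          rw [div_pow, mul_pow, mul_pow]; ring
        rw [b4] at b2
        calc cutb Λ (n * M) x ^ 2 * (J : ℝ)⁻¹ ^ 2 * pd i (cutb Λᶜ (n * (2 ^ k * ρ))) x ^ 2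
            ≤ 1 * (J : ℝ)⁻¹ ^ 2 * (9 * C ^ 2 / (n ^ 2 * (2 ^ k * ρ) ^ 2)) := by (clear * - b3 b2; gcongr)
          _ = _ := by ring
      · rw [ind_notMem hx, mul_zero]
        have : cutb Λ (n * M) x ^ 2 * (J : ℝ)⁻¹ ^ 2 * pd i (cutb Λᶜ (n * (2 ^ k * ρ))) x ^ 2 = 0 := by
          rw [mem_bxL] at hx
          push Not at hx
          obtain ⟨l, hl⟩ := hx
          by_cases hlL : l ∈ Λ
          · rw [if_pos hlL] at hl
            rw [cutb_eq_zero_of_abs (by positivity) hlL hl]; ring
          · rw [if_neg hlL] at hl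
            by_cases hp : pd i (cutb Λᶜ (n * (2 ^ k * ρ))) x = 0
            · rw [hp]; ring
            · exfalso
              have := (pd_cutb_support hr hp).2.2
              have h5 := abs_le_of_rho_le hr.le (i := l) (by simpa using hlL) this
              linarith only [hl, h5]
        rw [this]
    calc ∑ i : Fin n, cutb Λ (n * M) x ^ 2 * pd i (zet Λᶜ ρ J) x ^ 2
        ≤ ∑ _i : Fin n, ∑ k ∈ Finset.range J, ((J : ℝ)⁻¹ ^ 2 * (9 * C ^ 2 / (n ^ 2 * (2 ^ k * ρ) ^ 2)))
            * ind (bxL Λ (2 * (n * M)) (2 * (n * (2 ^ k * ρ)))) x :=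
          Finset.sum_le_sum fun i _ => h1 i
      _ = _ := by
          rw [Finset.sum_const, Finset.card_univ, Fintype.card_fin, nsmul_eq_mul, Finset.mul_sum]
          refine Finset.sum_congr rfl fun k _ => ?_
          have : (0:ℝ) < 2 ^ k * ρ := by positivity
          (clear * - hρ hn; field_simp)
  · -- long directions
    have hr : (0:ℝ) < n * M := by positivity
    have h1 : ∀ i : Fin n, zet Λᶜ ρ J x ^ 2 * pd i (cutb Λ (n * M)) x ^ 2
        ≤ 9 * C ^ 2 / (n ^ 2 * M ^ 2) * ind (bxL Λ (2 * (n * M)) (2 * (n * (2 ^ J * ρ)))) x := by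
      intro i
      by_cases hx : x ∈ bxL Λ (2 * (n * M)) (2 * (n * (2 ^ J * ρ)))
      · rw [ind_mem hx, mul_one]
        have b1 := pd_cutb_bound (i := i) (x := x) hC Λ hr
        have b2 : pd i (cutb Λ (n * M)) x ^ 2 ≤ (3 * C / (n * M)) ^ 2 :=
          sq_le_sq' (abs_le.mp b1).1 (abs_le.mp b1).2
        have b3 : zet Λᶜ ρ J x ^ 2 ≤ 1 :=
          pow_le_one₀ (zet_nonneg _ _ _ _) (zet_le_one _ _ _ _)
        have b4 : (3 * C / (n * M)) ^ 2 = 9 * C ^ 2 / (n ^ 2 * M ^ 2) := by
          rw [div_pow, mul_pow, mul_pow]; ring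
        rw [b4] at b2
        calc zet Λᶜ ρ J x ^ 2 * pd i (cutb Λ (n * M)) x ^ 2
            ≤ 1 * (9 * C ^ 2 / (n ^ 2 * M ^ 2)) := by (clear * - b3 b2; gcongr)
          _ = _ := by ring
      · rw [ind_notMem hx, mul_zero]
        have : zet Λᶜ ρ J x ^ 2 * pd i (cutb Λ (n * M)) x ^ 2 = 0 := by
          rw [mem_bxL] at hx
          push Not at hx
          obtain ⟨l, hl⟩ := hx
          by_cases hlL : l ∈ Λ
          · rw [if_pos hlL] at hl
            by_cases hp : pd i (cutb Λ (n * M)) x = 0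
            · rw [hp]; ring
            · exfalso
              have := (pd_cutb_support hr hp).2.2
              have h5 := abs_le_of_rho_le hr.le hlL this
              linarith only [hl, h5]
          · rw [if_neg hlL] at hl
            have : zet Λᶜ ρ J x = 0 := by
              unfold zet
              rw [Finset.sum_eq_zero, mul_zero]
              intro k hk
              apply cutb_eq_zero_of_abs (by positivity) (i := l) (by simpa using hlL)
              refine lt_of_le_of_lt ?_ hl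
              have : (2:ℝ) ^ k ≤ 2 ^ J := pow_le_pow_right₀ (by norm_num) (Finset.mem_range.mp hk).le
              (clear * - this hρ hn; gcongr)
            rw [this]; ring
        rw [this]
    calc ∑ i : Fin n, zet Λᶜ ρ J x ^ 2 * pd i (cutb Λ (n * M)) x ^ 2
        ≤ ∑ _i : Fin n, 9 * C ^ 2 / (n ^ 2 * M ^ 2)
            * ind (bxL Λ (2 * (n * M)) (2 * (n * (2 ^ J * ρ)))) x :=
          Finset.sum_le_sum fun i _ => h1 i
      _ = _ := by
          rw [Finset.sum_const, Finset.card_univ, Fintype.card_fin, nsmul_eq_mul]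
          (clear * - hM hn; field_simp)

lemma integral_mul_ind {F : (Fin n → ℝ) → ℝ} {A : Set (Fin n → ℝ)} (hA : MeasurableSet A) :
    ∫ x, F x * ind A x = ∫ x in A, F x := by
  rw [← integral_indicator hA]
  congr 1
  ext x
  unfold ind
  by_cases hx : x ∈ A
  · rw [Set.indicator_of_mem hx, Set.indicator_of_mem hx, mul_one]
  · rw [Set.indicator_of_notMem hx, Set.indicator_of_notMem hx, mul_zero]

/-- The logarithmic cutoff estimate. -/
theorem cutoff_estimate : ∃ C : ℝ, 0 < C ∧ ∀ (u : (Fin n → ℝ) → ℝ), DStab u → 0 < n →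
    ∀ (Λ : Finset (Fin n)) (M ρ : ℝ) (J : ℕ) (A : ℝ), 0 < M → 0 < ρ → 0 < J → 0 ≤ A →
      (∀ k ≤ J, ∫ x in bxL Λ (2 * (n * M)) (2 * (n * (2 ^ k * ρ))), psi u x ^ 2
        ≤ A * (2 ^ k * ρ) ^ 2) →
      ∫ x in bxL Λ M ρ, psi u x * defi u x ≤ C * A * ((J : ℝ)⁻¹ + (2 ^ J * ρ) ^ 2 / M ^ 2) := by
  obtain ⟨C, hC1, hC⟩ := exists_th_bound
  refine ⟨9 * C ^ 2, by positivity, ?_⟩
  intro u hu hn Λ M ρ J A hM hρ hJ hA0 hA
  have hn' : (0:ℝ) < n := by exact_mod_cast hn
  have hn1 : (1:ℝ) ≤ n := by exact_mod_cast hn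
  have hJ' : (0:ℝ) < J := by exact_mod_cast hJ
  have hη := etaL_contDiff Λ M ρ J
  have hcη : HasCompactSupport (etaL Λ M ρ J) := etaL_hasCompactSupport hM hρ hn
  have h1 := hu.ineq _ hη hcη
  have hcont : Continuous (fun x => psi u x * defi u x) := hu.psi_defi_continuous
  have hcψ : Continuous (fun x => psi u x ^ 2) := hu.psi_contDiff.continuous.pow 2
  -- lower bound
  have hlow : ∫ x in bxL Λ M ρ, psi u x * defi u x
      ≤ ∫ x, psi u x * defi u x * etaL Λ M ρ J x ^ 2 := by
    rw [← integral_mul_ind isCompact_bxL.measurableSet]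
    apply integral_mono_of_nonneg
    · exact Eventually.of_forall fun x => mul_nonneg (hu.psi_mul_defi_nonneg x) (ind_nonneg _ _)
    · exact (hcont.mul (hη.continuous.pow 2)).integrable_of_hasCompactSupport
        (hcs_sq hcη).mul_left
    · refine Eventually.of_forall fun x => ?_
      apply mul_le_mul_of_nonneg_left _ (hu.psi_mul_defi_nonneg x)
      by_cases hx : x ∈ bxL Λ M ρ
      · rw [ind_mem hx, etaL_eq_one hM hρ hJ hn hx]; norm_num
      · rw [ind_notMem hx]; (clear * -; positivity)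
  -- upper bound
  have hint : ∀ A : Set (Fin n → ℝ), IsCompact A → Integrable (fun x => psi u x ^ 2 * ind A x) := by
    intro A hAc
    have : (fun x => psi u x ^ 2 * ind A x) = A.indicator (fun x => psi u x ^ 2) := by
      ext x
      by_cases hx : x ∈ A
      · rw [ind_mem hx, Set.indicator_of_mem hx, mul_one]
      · rw [ind_notMem hx, Set.indicator_of_notMem hx, mul_zero]
    rw [this]
    exact (hcψ.continuousOn.integrableOn_compact hAc).integrable_indicator hAc.measurableSet
  set a : ℕ → ℝ := fun k => (J : ℝ)⁻¹ ^ 2 * (9 * C ^ 2 / (n * (2 ^ k * ρ) ^ 2)) with ha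
  set b : ℝ := 9 * C ^ 2 / (n * M ^ 2) with hb
  set B : ℕ → Set (Fin n → ℝ) := fun k => bxL Λ (2 * (n * M)) (2 * (n * (2 ^ k * ρ))) with hB
  have ha0 : ∀ k, 0 ≤ a k := fun k => by rw [ha]; (clear * - hJ hC1 hn hρ; positivity)
  have hb0 : 0 ≤ b := by rw [hb]; positivity
  have hup : ∫ x, psi u x ^ 2 * ∑ j, pd j (etaL Λ M ρ J) x ^ 2
      ≤ (∑ k ∈ Finset.range J, a k * ∫ x in B k, psi u x ^ 2)
        + b * ∫ x in B J, psi u x ^ 2 := by
    have hrhs : (∑ k ∈ Finset.range J, a k * ∫ x in B k, psi u x ^ 2)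
        + b * ∫ x in B J, psi u x ^ 2
        = ∫ x, ((∑ k ∈ Finset.range J, a k * (psi u x ^ 2 * ind (B k) x))
          + b * (psi u x ^ 2 * ind (B J) x)) := by
      rw [integral_add (integrable_finsetSum _ fun k _ => (hint _ isCompact_bxL).const_mul _)
        ((hint _ isCompact_bxL).const_mul _),
        integral_finsetSum _ fun k _ => (hint _ isCompact_bxL).const_mul _]
      simp_rw [integral_const_mul]
      rw [integral_mul_ind isCompact_bxL.measurableSet]
      congr 1
      refine Finset.sum_congr rfl fun k _ => ?_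
      rw [integral_mul_ind isCompact_bxL.measurableSet]
    rw [hrhs]
    apply integral_mono_of_nonneg
    · exact Eventually.of_forall fun x => mul_nonneg (sq_nonneg _)
        (Finset.sum_nonneg fun _ _ => sq_nonneg _)
    · exact (integrable_finsetSum _ fun k _ => (hint _ isCompact_bxL).const_mul _).add
        ((hint _ isCompact_bxL).const_mul _)
    · refine Eventually.of_forall fun x => ?_
      have h2 := sum_pd_etaL_sq_le (Λ := Λ) hC hM hρ (J := J) hn x
      have h3 := mul_le_mul_of_nonneg_left h2 (sq_nonneg (psi u x))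
      refine h3.trans (le_of_eq ?_)
      rw [mul_add, Finset.mul_sum]
      congr 1
      · refine Finset.sum_congr rfl fun k _ => ?_
        ring
      · ring
  have hsum : (∑ k ∈ Finset.range J, a k * ∫ x in B k, psi u x ^ 2)
      ≤ 9 * C ^ 2 * A * (J : ℝ)⁻¹ := by
    have h4 : ∀ k ∈ Finset.range J, a k * ∫ x in B k, psi u x ^ 2
        ≤ (J : ℝ)⁻¹ ^ 2 * (9 * C ^ 2 * A) := by
      intro k hk
      have h5 := hA k (Finset.mem_range.mp hk).le
      have h6 : (0:ℝ) < 2 ^ k * ρ := by positivity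
      calc a k * ∫ x in B k, psi u x ^ 2 ≤ a k * (A * (2 ^ k * ρ) ^ 2) :=
            mul_le_mul_of_nonneg_left h5 (ha0 k)
        _ = (J : ℝ)⁻¹ ^ 2 * (9 * C ^ 2 * A) * (n : ℝ)⁻¹ := by
            rw [ha]; (clear * - hρ hn hC1 hJ; field_simp)
        _ ≤ (J : ℝ)⁻¹ ^ 2 * (9 * C ^ 2 * A) * 1 := by
            apply mul_le_mul_of_nonneg_left (inv_le_one_of_one_le₀ hn1) (by (clear * - hJ hC1 hA0; positivity))
        _ = _ := mul_one _
    refine (Finset.sum_le_sum h4).trans (le_of_eq ?_)
    rw [Finset.sum_const, Finset.card_range, nsmul_eq_mul]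
    (clear * - hC1 hJ; field_simp)
  have hlast : b * ∫ x in B J, psi u x ^ 2 ≤ 9 * C ^ 2 * A * ((2 ^ J * ρ) ^ 2 / M ^ 2) := by
    have h5 := hA J le_rfl
    calc b * ∫ x in B J, psi u x ^ 2 ≤ b * (A * (2 ^ J * ρ) ^ 2) :=
          mul_le_mul_of_nonneg_left h5 hb0
      _ = 9 * C ^ 2 * A * ((2 ^ J * ρ) ^ 2 / M ^ 2) * (n : ℝ)⁻¹ := by
          rw [hb]; (clear * - hρ hM hn hC1; field_simp)
      _ ≤ 9 * C ^ 2 * A * ((2 ^ J * ρ) ^ 2 / M ^ 2) * 1 := by
          apply mul_le_mul_of_nonneg_left (inv_le_one_of_one_le₀ hn1) (by (clear * - hC1 hA0 hρ hM; positivity))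
      _ = _ := mul_one _
  have hnn : 0 ≤ ∫ x in bxL Λ M ρ, psi u x * defi u x :=
    integral_nonneg fun x => hu.psi_mul_defi_nonneg x
  calc ∫ x in bxL Λ M ρ, psi u x * defi u x
      ≤ 2 * ∫ x, psi u x * defi u x * etaL Λ M ρ J x ^ 2 := by (clear * - n Λ M ρ u J hlow hnn; linarith only [hlow, hnn])
    _ ≤ _ := h1
    _ ≤ _ := hup
    _ ≤ 9 * C ^ 2 * A * (J : ℝ)⁻¹ + 9 * C ^ 2 * A * ((2 ^ J * ρ) ^ 2 / M ^ 2) :=
        add_le_add hsum hlast
    _ = _ := by ring

end Vale.Agent.P134
end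
end

section

section

open MeasureTheory Filter Topology

namespace Vale.Agent.P134

variable {n : ℕ} {u U w η χ : (Fin n → ℝ) → ℝ} {x : Fin n → ℝ} {i j : Fin n} {q : Fin n}
  {Λ S : Finset (Fin n)} {M R : ℝ}

lemma integrable_mul_ind {f : (Fin n → ℝ) → ℝ} (hf : Continuous f) {A : Set (Fin n → ℝ)}
    (hA : IsCompact A) : Integrable (fun x => f x * ind A x) := by
  have : (fun x => f x * ind A x) = A.indicator f := by
    ext x
    by_cases hx : x ∈ A
    · rw [ind_mem hx, Set.indicator_of_mem hx, mul_one]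
    · rw [ind_notMem hx, Set.indicator_of_notMem hx, mul_zero]
  rw [this]
  exact (hf.continuousOn.integrableOn_compact hA).integrable_indicator hA.measurableSet

lemma setIntegral_shift_le {f : (Fin n → ℝ) → ℝ} (hf : Continuous f) (hf0 : ∀ x, 0 ≤ f x)
    {A A' : Set (Fin n → ℝ)} (hA : IsCompact A) (hA' : IsCompact A') (y : Fin n → ℝ)
    (h : ∀ x ∈ A, x + y ∈ A') : ∫ x in A, f (x + y) ≤ ∫ x in A', f x := by
  rw [← integral_mul_ind hA.measurableSet, ← integral_mul_ind hA'.measurableSet]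
  have e : ∫ x, f (x + y) * ind A x = ∫ z, f z * ind A (z - y) := by
    have h1 := integral_add_right_eq_self (μ := (volume : Measure (Fin n → ℝ)))
      (fun z => f z * ind A (z - y)) y
    rw [← h1]
    simp
  rw [e]
  apply integral_mono_of_nonneg
  · exact Eventually.of_forall fun x => mul_nonneg (hf0 x) (ind_nonneg _ _)
  · exact integrable_mul_ind hf hA'
  · refine Eventually.of_forall fun x => ?_
    apply mul_le_mul_of_nonneg_left _ (hf0 x)
    by_cases hx : x - y ∈ A
    · have := h _ hx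
      rw [sub_add_cancel] at this
      rw [ind_mem hx, ind_mem this]
    · rw [ind_notMem hx]; exact ind_nonneg _ _

lemma setIntegral_shift_ge {f : (Fin n → ℝ) → ℝ} (hf : Continuous f) (hf0 : ∀ x, 0 ≤ f x)
    {A A' : Set (Fin n → ℝ)} (hA : IsCompact A) (hA' : IsCompact A') (y : Fin n → ℝ)
    (h : ∀ x ∈ A, x - y ∈ A') : ∫ x in A, f x ≤ ∫ x in A', f (x + y) := by
  have h1 := setIntegral_shift_le (f := fun x => f (x + y)) (by fun_prop) (fun x => hf0 _) hA hA'
    (-y) (fun x hx => by simpa [sub_eq_add_neg] using h x hx)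
  simpa only [ge_iff_le, neg_add_cancel_right] using h1

lemma conv_swap {f : (Fin n → ℝ) → ℝ} (hf : Continuous f)
    {A B : Set (Fin n → ℝ)} (hA : IsCompact A) (hB : IsCompact B) :
    ∫ x in A, ∫ y in B, f (x + y) = ∫ y in B, ∫ x in A, f (x + y) := by
  apply integral_integral_swap
  rw [Measure.prod_restrict]
  apply ContinuousOn.integrableOn_compact
  · exact hA.prod hB
  · apply Continuous.continuousOn
    simp only [Function.uncurry_def]
    fun_prop

lemma continuous_setIntegral_shift {f : (Fin n → ℝ) → ℝ} (hf : Continuous f)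
    {B : Set (Fin n → ℝ)} (hB : IsCompact B) :
    Continuous (fun x => ∫ y in B, f (x + y)) := by
  apply continuous_parametric_integral_of_continuous _ hB
  simp only [Function.uncurry_def]
  fun_prop

lemma continuous_setIntegral_shift' {f : (Fin n → ℝ) → ℝ} (hf : Continuous f)
    {B : Set (Fin n → ℝ)} (hB : IsCompact B) :
    Continuous (fun y => ∫ x in B, f (x + y)) := by
  apply continuous_parametric_integral_of_continuous _ hB
  simp only [Function.uncurry_def]
  fun_prop

lemma conv_le {f : (Fin n → ℝ) → ℝ} (hf : Continuous f) (hf0 : ∀ x, 0 ≤ f x)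
    {A B A' : Set (Fin n → ℝ)} (hA : IsCompact A) (hB : IsCompact B) (hA' : IsCompact A')
    (h : ∀ x ∈ A, ∀ y ∈ B, x + y ∈ A') :
    ∫ x in A, ∫ y in B, f (x + y) ≤ (volume B).toReal * ∫ x in A', f x := by
  rw [conv_swap hf hA hB]
  have h1 : ∫ y in B, ∫ x in A, f (x + y) ≤ ∫ y in B, ∫ x in A', f x := by
    apply setIntegral_mono_on
    · have := continuous_setIntegral_shift' hf hA
      exact ContinuousOn.integrableOn_compact hB this.continuousOn
    · exact integrableOn_const hB.measure_lt_top.ne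
    · exact hB.measurableSet
    · intro y hy
      exact setIntegral_shift_le hf hf0 hA hA' y fun x hx => h x hx y hy
  refine h1.trans (le_of_eq ?_)
  rw [setIntegral_const, smul_eq_mul]; rfl

lemma conv_ge {f : (Fin n → ℝ) → ℝ} (hf : Continuous f) (hf0 : ∀ x, 0 ≤ f x)
    {A B A' : Set (Fin n → ℝ)} (hA : IsCompact A) (hB : IsCompact B) (hA' : IsCompact A')
    (h : ∀ x ∈ A, ∀ y ∈ B, x - y ∈ A') :
    (volume B).toReal * ∫ x in A, f x ≤ ∫ x in A', ∫ y in B, f (x + y) := by
  rw [conv_swap hf hA' hB]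
  have h1 : ∫ y in B, ∫ x in A, f x ≤ ∫ y in B, ∫ x in A', f (x + y) := by
    apply setIntegral_mono_on
    · exact integrableOn_const hB.measure_lt_top.ne
    · have := continuous_setIntegral_shift' hf hA'
      exact ContinuousOn.integrableOn_compact hB this.continuousOn
    · exact hB.measurableSet
    · intro y hy
      exact setIntegral_shift_ge hf hf0 hA hA' y fun x hx => h x hx y hy
  refine le_trans (le_of_eq ?_) h1
  rw [setIntegral_const, smul_eq_mul]; rfl

end Vale.Agent.P134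
end
end

section

section

open MeasureTheory Filter Topology

namespace Vale.Agent.P134

variable {n : ℕ} {u U w η χ : (Fin n → ℝ) → ℝ} {x : Fin n → ℝ} {i j : Fin n} {q : Fin n}
  {Λ S : Finset (Fin n)} {M R : ℝ}

/-- Quadratic growth (in the short directions) of the averaged energy. -/
def Growth (u : (Fin n → ℝ) → ℝ) (Λ : Finset (Fin n)) : Prop :=
  ∃ K : ℝ, 0 ≤ K ∧ ∀ ρ : ℝ, 1 ≤ ρ → ∃ M0 : ℝ, ∀ M : ℝ, M0 ≤ M →
    ∫ x in bxL Λ M ρ, psi u x ^ 2 ≤ K * M ^ Λ.card * ρ ^ 2

/-- Vanishing mean deficit. -/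
def MeanDef (u : (Fin n → ℝ) → ℝ) (Λ : Finset (Fin n)) : Prop :=
  ∀ ρ ε : ℝ, 0 < ε → ∃ M0 : ℝ, ∀ M : ℝ, M0 ≤ M →
    ∫ x in bxL Λ M ρ, psi u x * defi u x ≤ ε * M ^ Λ.card

theorem meanDef_of_growth (hu : DStab u) (hn : 0 < n) (h : Growth u Λ) : MeanDef u Λ := by
  intro ρ ε hε
  obtain ⟨C, hC0, hC⟩ := cutoff_estimate (n := n)
  obtain ⟨K, hK0, hK⟩ := h
  have hn' : (0:ℝ) < n := by exact_mod_cast hn
  have hn1 : (1:ℝ) ≤ n := by exact_mod_cast hn
  set r : ℝ := max ρ 1 with hr
  have hr1 : 1 ≤ r := le_max_right _ _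
  have hr0 : 0 < r := by linarith only [hr1]
  set a : ℝ := C * (K * (2 * n) ^ (Λ.card + 2)) with ha
  have ha0 : 0 ≤ a := by (clear * - hC0 hK0 hn; positivity)
  obtain ⟨J0, hJ0⟩ := exists_nat_ge (2 * a / ε)
  set J : ℕ := J0 + 1 with hJ
  have hJpos : 0 < J := Nat.succ_pos _
  have hJ' : (0:ℝ) < J := by exact_mod_cast hJpos
  have hJa : a * (J : ℝ)⁻¹ ≤ ε / 2 := by
    have h1 : 2 * a / ε ≤ J := hJ0.trans (by rw [hJ]; push_cast; linarith only [])
    rw [div_le_iff₀ hε] at h1
    rw [mul_inv_le_iff₀ hJ']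
    linarith only [h1]
  have hrad : ∀ k : ℕ, 1 ≤ 2 * (n * (2 ^ k * r)) := by
    intro k
    have h2 : (1:ℝ) ≤ 2 ^ k := one_le_pow₀ (by norm_num)
    have h3 : (1:ℝ) ≤ 2 ^ k * r := one_le_mul_of_one_le_of_one_le h2 hr1
    have h4 : (1:ℝ) ≤ n * (2 ^ k * r) := one_le_mul_of_one_le_of_one_le hn1 h3
    linarith only [h4]
  choose f hf using fun k : ℕ => hK (2 * (n * (2 ^ k * r))) (hrad k)
  refine ⟨(∑ k ∈ Finset.range (J + 1), |f k|) + 1 + 2 * a * (2 ^ J * r) ^ 2 / ε, fun M hM => ?_⟩
  have hs0 : 0 ≤ ∑ k ∈ Finset.range (J + 1), |f k| := Finset.sum_nonneg fun _ _ => abs_nonneg _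
  have hb0 : 0 ≤ 2 * a * (2 ^ J * r) ^ 2 / ε := by (clear * - hC0 hK0 hn hε; positivity)
  have hM1 : 1 ≤ M := by linarith only [hM, hs0, hb0]
  have hM0 : 0 < M := by linarith only [hM, hs0, hb0]
  have hfk : ∀ k ≤ J, f k ≤ 2 * (n * M) := by
    intro k hk
    have h1 : |f k| ≤ ∑ k ∈ Finset.range (J + 1), |f k| :=
      Finset.single_le_sum (f := fun k => |f k|) (fun _ _ => abs_nonneg _)
        (Finset.mem_range.mpr (Nat.lt_succ_of_le hk))
    have h2 : f k ≤ M := (le_abs_self _).trans (by (clear * - f k M J a r ε C K n Λ J0 hM hb0 h1; linarith))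
    have h3 : M ≤ n * M := le_mul_of_one_le_left hM0.le hn1
    (clear * - f k n M J a r ε C K Λ J0 hM hs0 hb0 h2 h3; linarith)
  have hest := hC u hu hn Λ M r J (K * (2 * n) ^ (Λ.card + 2) * M ^ Λ.card) hM0 hr0 hJpos
    (by (clear * - hK0 hn hM1; positivity)) (fun k hk => by
      refine (hf k _ (hfk k hk)).trans (le_of_eq ?_)
      rw [pow_add, mul_pow (2:ℝ) n 2, mul_pow, mul_pow, mul_pow]
      ring)
  have hMa : a * ((2 ^ J * r) ^ 2 / M ^ 2) ≤ ε / 2 := by
    have h1 : 2 * a * (2 ^ J * r) ^ 2 / ε ≤ M ^ 2 := by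
      have : M ≤ M ^ 2 := by (clear * - M J f a r ε C K n Λ J0 hM hs0 hb0; nlinarith only [hM, hs0, hb0])
      (clear * - a J r ε M f C K n Λ J0 hM hs0 this; linarith)
    rw [div_le_iff₀ hε] at h1
    have hM2 : 0 < M ^ 2 := by positivity
    rw [← mul_div_assoc, div_le_iff₀ hM2]
    (clear * - a J r ε M C K n Λ J0 h1; linarith)
  calc ∫ x in bxL Λ M ρ, psi u x * defi u x ≤ ∫ x in bxL Λ M r, psi u x * defi u x := by
        apply setIntegral_mono_set
        · exact hu.psi_defi_continuous.continuousOn.integrableOn_compact isCompact_bxL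
        · exact Eventually.of_forall fun x => hu.psi_mul_defi_nonneg x
        · exact LE.le.eventuallyLE (bxL_subset le_rfl (le_max_left _ _))
    _ ≤ _ := hest
    _ = (a * (J : ℝ)⁻¹ + a * ((2 ^ J * r) ^ 2 / M ^ 2)) * M ^ Λ.card := by rw [ha]; ring
    _ ≤ (ε / 2 + ε / 2) * M ^ Λ.card := by (clear * - hJa hMa hM1; gcongr)
    _ = ε * M ^ Λ.card := by ring

lemma growth_of_card (hu : Sol u) (hΛ : (Λᶜ).card ≤ 2) : Growth u Λ := by
  refine ⟨2 ^ Λ.card * 2 ^ (Λᶜ).card, by positivity, fun ρ hρ => ⟨0, fun M hM => ?_⟩⟩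
  have hc : Continuous (fun x => psi u x ^ 2) := hu.psi_contDiff.continuous.pow 2
  calc ∫ x in bxL Λ M ρ, psi u x ^ 2 ≤ ∫ _x in bxL Λ M ρ, (1:ℝ) := by
        apply setIntegral_mono_on
        · exact hc.continuousOn.integrableOn_compact isCompact_bxL
        · exact integrableOn_const isCompact_bxL.measure_lt_top.ne
        · exact isCompact_bxL.measurableSet
        · intro x _
          exact hu.psi_sq_le x
    _ = (2 * M) ^ Λ.card * (2 * ρ) ^ (Λᶜ).card := by
        rw [setIntegral_const, smul_eq_mul, mul_one, ← volume_bxL hM (by linarith only [hρ])]; rfl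
    _ ≤ (2 * M) ^ Λ.card * (2 ^ (Λᶜ).card * ρ ^ 2) := by
        rw [mul_pow 2 ρ]
        gcongr
    _ = _ := by rw [mul_pow]; ring

/-- Local energy estimate with an error controlled by the deficit. -/
lemma local_energy (hn : 0 < n) : ∃ C : ℝ, 0 < C ∧ ∀ R : ℝ, 0 < R → ∃ N : ℕ,
    ∀ v : (Fin n → ℝ) → ℝ, Sol v → ∫ y in box n R, psi v y ^ 2
      ≤ C * R ^ n / R + (2 * R) ^ n * ((N : ℝ) + 1) * ∫ y in box n N, psi v y * defi v y := by
  obtain ⟨C, hC1, hC⟩ := exists_th_bound
  have hn' : (0:ℝ) < n := by exact_mod_cast hn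
  refine ⟨3 * C * (4 * n) ^ n + 1, by positivity, fun R hR => ?_⟩
  set χ : (Fin n → ℝ) → ℝ := cutb Finset.univ (n * R) with hχ
  have hχ1 : ContDiff ℝ 1 χ := cutb_contDiff _ _
  have hsupp : ∀ x, x ∉ box n (2 * (n * R)) → χ x = 0 := by
    intro x hx
    rw [mem_box] at hx
    push Not at hx
    obtain ⟨i, hi⟩ := hx
    exact cutb_eq_zero_of_abs (by positivity) (Finset.mem_univ i) hi
  have hcχ : HasCompactSupport χ := HasCompactSupport.intro (isCompact_box _) hsupp
  obtain ⟨N, hN⟩ := energy_of_small_deficit hχ1 hcχ (ε := R ^ n / R) (by positivity)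
  refine ⟨N, fun v hv => ?_⟩
  have hcont : Continuous (fun x => psi v x ^ 2) := hv.psi_contDiff.continuous.pow 2
  have hg0 : 0 ≤ ∫ y in box n N, psi v y * defi v y :=
    integral_nonneg fun x => hv.psi_mul_defi_nonneg x
  by_cases hcase : ∫ x in box n N, psi v x * defi v x ≤ 1 / ((N : ℝ) + 1)
  · have h1 := hN v hv hcase
    have hgrad : ∫ x, ∑ j, |pd j χ x| ≤ 3 * C * (4 * n) ^ n * R ^ n / R := by
      have hptw : ∀ x, ∑ j, |pd j χ x| ≤ (3 * C / R) * ind (box n (2 * (n * R))) x := by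
        intro x
        by_cases hx : x ∈ box n (2 * (n * R))
        · rw [ind_mem hx, mul_one]
          have h2 : ∀ j ∈ (Finset.univ : Finset (Fin n)), |pd j χ x| ≤ 3 * C / (n * R) :=
            fun j _ => pd_cutb_bound hC _ (by positivity)
          refine (Finset.sum_le_sum h2).trans (le_of_eq ?_)
          rw [Finset.sum_const, Finset.card_univ, Fintype.card_fin, nsmul_eq_mul]
          field_simp
        · rw [ind_notMem hx, mul_zero]
          apply le_of_eq
          apply Finset.sum_eq_zero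
          intro j _
          rw [pd_eq_zero_of_notMem_tsupport, abs_zero]
          intro hmem
          apply hx
          have : tsupport χ ⊆ box n (2 * (n * R)) := by
            apply closure_minimal _ (isCompact_box _).isClosed
            intro y hy
            by_contra hy'
            exact hy (hsupp y hy')
          exact this hmem
      calc ∫ x, ∑ j, |pd j χ x| ≤ ∫ x, (3 * C / R) * ind (box n (2 * (n * R))) x := by
            apply integral_mono_of_nonneg
            · exact Eventually.of_forall fun x => Finset.sum_nonneg fun _ _ => abs_nonneg _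
            · exact integrable_mul_ind continuous_const (isCompact_box _)
            · exact Eventually.of_forall hptw
        _ = (3 * C / R) * (2 * (2 * (n * R))) ^ n := by
            rw [integral_mul_ind (F := fun _ => 3 * C / R) (isCompact_box _).measurableSet,
              setIntegral_const, smul_eq_mul, ← volume_box (n := n) (r := 2 * (n * R))
                (by positivity), mul_comm]; rfl
        _ = 3 * C * (4 * n) ^ n * R ^ n / R := by
            rw [show 2 * (2 * ((n:ℝ) * R)) = (4 * n) * R by ring, mul_pow (4 * (n:ℝ)) R]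
            ring
    have hlow : ∫ y in box n R, psi v y ^ 2 ≤ ∫ x, psi v x ^ 2 * χ x := by
      rw [← integral_mul_ind (isCompact_box _).measurableSet]
      apply integral_mono_of_nonneg
      · exact Eventually.of_forall fun x => mul_nonneg (sq_nonneg _) (ind_nonneg _ _)
      · exact (hcont.mul hχ1.continuous).integrable_of_hasCompactSupport hcχ.mul_left
      · refine Eventually.of_forall fun x => ?_
        apply mul_le_mul_of_nonneg_left _ (sq_nonneg _)
        by_cases hx : x ∈ box n R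
        · rw [ind_mem hx]
          rw [mem_box] at hx
          rw [hχ, cutb_eq_one hR hn fun i _ => hx i]
        · rw [ind_notMem hx]; exact cutb_nonneg _ _ _
    have h3 : 0 ≤ (2 * R) ^ n * ((N : ℝ) + 1) * ∫ y in box n N, psi v y * defi v y := by
      (clear * - hR hg0; positivity)
    have h4 : (3 * C * (4 * n) ^ n + 1) * R ^ n / R
        = 3 * C * (4 * n) ^ n * R ^ n / R + R ^ n / R := by ring
    rw [h4]
    (clear * - n R v C N χ h1 hgrad hlow h3; linarith)
  · push Not at hcase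
    have hvol : ∫ y in box n R, psi v y ^ 2 ≤ (2 * R) ^ n := by
      calc ∫ y in box n R, psi v y ^ 2 ≤ ∫ _y in box n R, (1:ℝ) := by
            apply setIntegral_mono_on
            · exact hcont.continuousOn.integrableOn_compact (isCompact_box _)
            · exact integrableOn_const (isCompact_box _).measure_lt_top.ne
            · exact (isCompact_box _).measurableSet
            · intro x _
              exact hv.psi_sq_le x
        _ = (2 * R) ^ n := by
            rw [setIntegral_const, smul_eq_mul, mul_one, ← volume_box (n := n) hR.le]; rfl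
    have h5 : 1 ≤ ((N : ℝ) + 1) * ∫ y in box n N, psi v y * defi v y := by
      rw [div_lt_iff₀ (by (clear * -; positivity))] at hcase
      linarith only [hcase]
    have h6 : (2 * R) ^ n * 1 ≤ (2 * R) ^ n * (((N : ℝ) + 1) * ∫ y in box n N, psi v y * defi v y) :=
      mul_le_mul_of_nonneg_left h5 (by positivity)
    have h7 : 0 ≤ (3 * C * (4 * n) ^ n + 1) * R ^ n / R := by (clear * - hC1 hn hR; positivity)
    calc _ ≤ (2 * R) ^ n := hvol
      _ = (2 * R) ^ n * 1 := by ring
      _ ≤ _ := h6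
      _ = (2 * R) ^ n * ((N : ℝ) + 1) * ∫ y in box n N, psi v y * defi v y := by ring
      _ ≤ _ := by linarith only [h7]

theorem growth_of_meanDef (hu : Sol U) (hn : 0 < n) (hcard : (Λᶜ).card ≤ 3)
    (h : MeanDef U Λ) : Growth U Λ := by
  obtain ⟨C, hC0, hC⟩ := local_energy hn
  refine ⟨C * 4 ^ Λ.card * 4 ^ (Λᶜ).card + 2 ^ Λ.card, by positivity, fun R hR1 => ?_⟩
  have hR : 0 < R := by linarith only [hR1]
  obtain ⟨N, hN⟩ := hC R hR
  have hN0 : (0:ℝ) ≤ N := Nat.cast_nonneg _
  obtain ⟨M0, hM0⟩ := h (2 * R + N) (1 / (((N : ℝ) + 1) * (2 * N) ^ n + 1)) (by (clear * -; positivity))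
  refine ⟨max M0 (R + N), fun M hM => ?_⟩
  have hMRN : R + N ≤ M := (le_max_right _ _).trans hM
  have hMM0 : M0 ≤ M := (le_max_left _ _).trans hM
  have hM1 : 0 < M := by linarith only [hR1, hMRN]
  set f : (Fin n → ℝ) → ℝ := fun x => psi U x ^ 2 with hf
  set g : (Fin n → ℝ) → ℝ := fun x => psi U x * defi U x with hg
  have hfc : Continuous f := hu.psi_contDiff.continuous.pow 2
  have hgc : Continuous g := hu.psi_defi_continuous
  have hf0 : ∀ x, 0 ≤ f x := fun x => sq_nonneg _
  have hg0 : ∀ x, 0 ≤ g x := fun x => hu.psi_mul_defi_nonneg x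
  have hloc : ∀ x, ∫ y in box n R, f (x + y)
      ≤ C * R ^ n / R + (2 * R) ^ n * ((N : ℝ) + 1) * ∫ y in box n N, g (x + y) := by
    intro x
    have h1 := hN (fun y => U (y + x)) (hu.shift x)
    have e1 : ∀ y, psi (fun y => U (y + x)) y = psi U (x + y) := by
      intro y; unfold psi; rw [add_comm x y]
    have e2 : ∀ y, defi (fun y => U (y + x)) y = defi U (x + y) := by
      intro y
      unfold defi
      rw [e1]
      simp_rw [pd_shift_fun, add_comm x y]
    simp_rw [e1, e2] at h1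
    exact h1
  set A' : Set (Fin n → ℝ) := bxL Λ (M + R) (2 * R) with hA'
  have hcA' : IsCompact A' := isCompact_bxL
  have hconv1 : (volume (box n R)).toReal * ∫ x in bxL Λ M R, f x
      ≤ ∫ x in A', ∫ y in box n R, f (x + y) := by
    apply conv_ge hfc hf0 isCompact_bxL (isCompact_box _) hcA'
    intro x hx y hy
    rw [mem_bxL] at hx ⊢
    rw [mem_box] at hy
    intro i
    have h1 := hx i
    have h2 := hy i
    rw [Pi.sub_apply]
    refine (abs_sub _ _).trans ?_
    split_ifs at h1 ⊢ <;> linarith only [h2, h1]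
  have hconv2 : ∫ x in A', ∫ y in box n N, g (x + y)
      ≤ (volume (box n N)).toReal * ∫ x in bxL Λ (M + R + N) (2 * R + N), g x := by
    apply conv_le hgc hg0 hcA' (isCompact_box _) isCompact_bxL
    intro x hx y hy
    rw [hA', mem_bxL] at hx
    rw [mem_bxL]
    rw [mem_box] at hy
    intro i
    have h1 := hx i
    have h2 := hy i
    rw [Pi.add_apply]
    refine (abs_add_le _ _).trans ?_
    split_ifs at h1 ⊢ <;> linarith only [h2, h1]
  have hmid : ∫ x in A', ∫ y in box n R, f (x + y)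
      ≤ C * R ^ n / R * ((2 * (M + R)) ^ Λ.card * (2 * (2 * R)) ^ (Λᶜ).card)
        + (2 * R) ^ n * ((N : ℝ) + 1) * ∫ x in A', ∫ y in box n N, g (x + y) := by
    have hci : IntegrableOn (fun x => ∫ y in box n N, g (x + y)) A' :=
      (continuous_setIntegral_shift hgc (isCompact_box _)).continuousOn.integrableOn_compact hcA'
    calc ∫ x in A', ∫ y in box n R, f (x + y)
        ≤ ∫ x in A', (C * R ^ n / R
          + (2 * R) ^ n * ((N : ℝ) + 1) * ∫ y in box n N, g (x + y)) := by
          apply setIntegral_mono_on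
          · exact (continuous_setIntegral_shift hfc
              (isCompact_box _)).continuousOn.integrableOn_compact hcA'
          · exact (integrableOn_const hcA'.measure_lt_top.ne).add (hci.const_mul _)
          · exact hcA'.measurableSet
          · intro x _
            exact hloc x
      _ = _ := by
          have hk : Integrable (fun _ : Fin n → ℝ => C * R ^ n / R) (volume.restrict A') :=
            integrableOn_const hcA'.measure_lt_top.ne
          have hk2 : Integrable (fun x => (2 * R) ^ n * ((N : ℝ) + 1) * ∫ y in box n N, g (x + y))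
              (volume.restrict A') := hci.const_mul _
          rw [integral_add hk hk2, integral_const_mul, setIntegral_const, smul_eq_mul,
            ← volume_bxL (Λ := Λ) (M := M + R) (R := 2 * R) (by linarith only [hR1, hMRN]) (by linarith only [hR1])]
          congr 1
          rw [mul_comm]
          rfl
  have hdef := hM0 (M + R + N) (by linarith only [hR1, hMM0])
  rw [volume_box hR.le] at hconv1
  rw [volume_box hN0] at hconv2
  have hR2 : 0 < (2 * R) ^ n := by positivity
  -- combine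
  have hkey : (2 * R) ^ n * ∫ x in bxL Λ M R, f x
      ≤ C * R ^ n / R * ((2 * (M + R)) ^ Λ.card * (2 * (2 * R)) ^ (Λᶜ).card)
        + (2 * R) ^ n * ((N : ℝ) + 1) * ((2 * N) ^ n *
          (1 / (((N : ℝ) + 1) * (2 * N) ^ n + 1) * (M + R + N) ^ Λ.card)) := by
    refine hconv1.trans (hmid.trans ?_)
    gcongr
    refine hconv2.trans ?_
    (clear * - hdef; gcongr)
  have hb1 : (2 * R) ^ n * ((N : ℝ) + 1) * ((2 * N) ^ n *
          (1 / (((N : ℝ) + 1) * (2 * N) ^ n + 1) * (M + R + N) ^ Λ.card))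
      ≤ (2 * R) ^ n * (2 * M) ^ Λ.card := by
    have h1 : ((N : ℝ) + 1) * (2 * N) ^ n * (1 / (((N : ℝ) + 1) * (2 * N) ^ n + 1)) ≤ 1 := by
      rw [mul_one_div, div_le_one (by (clear * -; positivity))]
      (clear * - N n; linarith only [])
    have h2 : (M + R + N) ^ Λ.card ≤ (2 * M) ^ Λ.card := by
      apply pow_le_pow_left₀ (by (clear * - hM1 hR1; positivity))
      (clear * - M R N hMRN; linarith)
    calc (2 * R) ^ n * ((N : ℝ) + 1) * ((2 * N) ^ n *
          (1 / (((N : ℝ) + 1) * (2 * N) ^ n + 1) * (M + R + N) ^ Λ.card))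
        = (2 * R) ^ n * ((((N : ℝ) + 1) * (2 * N) ^ n
          * (1 / (((N : ℝ) + 1) * (2 * N) ^ n + 1))) * (M + R + N) ^ Λ.card) := by ring
      _ ≤ (2 * R) ^ n * (1 * (2 * M) ^ Λ.card) := by (clear * - h1 h2 hM1 hR1; gcongr)
      _ = _ := by ring
  have hb2 : C * R ^ n / R * ((2 * (M + R)) ^ Λ.card * (2 * (2 * R)) ^ (Λᶜ).card)
      ≤ (2 * R) ^ n * (C * 4 ^ Λ.card * 4 ^ (Λᶜ).card * M ^ Λ.card * R ^ 2) := by
    have h1 : (2 * (M + R)) ^ Λ.card ≤ 4 ^ Λ.card * M ^ Λ.card := by
      rw [← mul_pow]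
      apply pow_le_pow_left₀ (by positivity)
      (clear * - M R N hMRN; linarith only [hMRN])
    have h2 : (2 * (2 * R)) ^ (Λᶜ).card ≤ 4 ^ (Λᶜ).card * R ^ 3 := by
      rw [show 2 * (2 * R) = 4 * R by ring, mul_pow]
      (clear * - hR1 hcard; gcongr)
    have h3 : R ^ n ≤ (2 * R) ^ n := by
      apply pow_le_pow_left₀ hR.le
      (clear * - R hR1; linarith)
    calc C * R ^ n / R * ((2 * (M + R)) ^ Λ.card * (2 * (2 * R)) ^ (Λᶜ).card)
        ≤ C * (2 * R) ^ n / R * ((4 ^ Λ.card * M ^ Λ.card) * (4 ^ (Λᶜ).card * R ^ 3)) := by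
          (clear * - h3 hC0 hR1 h1 h2 hM1; gcongr)
      _ = _ := by (clear * - hM1 hR1 hC0; field_simp)
  have hfin : (2 * R) ^ n * ∫ x in bxL Λ M R, f x
      ≤ (2 * R) ^ n * ((C * 4 ^ Λ.card * 4 ^ (Λᶜ).card + 2 ^ Λ.card) * M ^ Λ.card * R ^ 2) := by
    have h1 : (2 * M) ^ Λ.card ≤ 2 ^ Λ.card * M ^ Λ.card * R ^ 2 := by
      rw [mul_pow]
      have : 1 ≤ R ^ 2 := one_le_pow₀ hR1
      exact le_mul_of_one_le_right (by positivity) this
    calc _ ≤ _ := hkey
      _ ≤ (2 * R) ^ n * (C * 4 ^ Λ.card * 4 ^ (Λᶜ).card * M ^ Λ.card * R ^ 2)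
          + (2 * R) ^ n * (2 ^ Λ.card * M ^ Λ.card * R ^ 2) := by
          apply add_le_add hb2 (hb1.trans _)
          (clear * - h1 hR1; gcongr)
      _ = _ := by ring
  exact le_of_mul_le_mul_left hfin hR2

lemma Sol.en_le (hu : Sol u) (x : Fin n → ℝ) : en u x ≤ psi u x ^ 2 / 2 := by
  have h := hu.modica x
  unfold en psi
  linarith

lemma en_ge (u : (Fin n → ℝ) → ℝ) (x : Fin n → ℝ) : psi u x ^ 2 / 4 ≤ en u x := by
  unfold en psi
  have : 0 ≤ ∑ j, pd j u x ^ 2 := Finset.sum_nonneg fun _ _ => sq_nonneg _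
  linarith

/-- Two-block cutoff. -/
noncomputable def cut2 (S : Finset (Fin n)) (M R : ℝ) (x : Fin n → ℝ) : ℝ :=
  cutb S (n * M) x * cutb Sᶜ (n * R) x

lemma cut2_contDiff : ContDiff ℝ 1 (cut2 S M R) := (cutb_contDiff _ _).mul (cutb_contDiff _ _)

lemma cut2_nonneg (x : Fin n → ℝ) : 0 ≤ cut2 S M R x :=
  mul_nonneg (cutb_nonneg _ _ _) (cutb_nonneg _ _ _)

lemma cut2_le_one (x : Fin n → ℝ) : cut2 S M R x ≤ 1 :=
  mul_le_one₀ (cutb_le_one _ _ _) (cutb_nonneg _ _ _) (cutb_le_one _ _ _)

lemma cut2_eq_zero (hM : 0 < M) (hR : 0 < R) (hn : 0 < n)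
    (h : x ∉ bxL S (2 * (n * M)) (2 * (n * R))) : cut2 S M R x = 0 := by
  have hn' : (0:ℝ) < n := by exact_mod_cast hn
  rw [mem_bxL] at h
  push Not at h
  obtain ⟨i, hi⟩ := h
  unfold cut2
  by_cases hiL : i ∈ S
  · rw [if_pos hiL] at hi
    rw [cutb_eq_zero_of_abs (by positivity) hiL hi, zero_mul]
  · rw [if_neg hiL] at hi
    rw [cutb_eq_zero_of_abs (r := n * R) (by positivity) (i := i) (by simpa using hiL) hi,
      mul_zero]

lemma cut2_eq_one (hM : 0 < M) (hR : 0 < R) (hn : 0 < n) (h : x ∈ bxL S M R) :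
    cut2 S M R x = 1 := by
  rw [mem_bxL] at h
  unfold cut2
  rw [cutb_eq_one hM hn, cutb_eq_one hR hn, mul_one]
  · intro i hi
    have := h i
    rwa [if_neg (by simpa using hi)] at this
  · intro i hi
    have := h i
    rwa [if_pos hi] at this

lemma cut2_hasCompactSupport (hM : 0 < M) (hR : 0 < R) (hn : 0 < n) :
    HasCompactSupport (cut2 S M R) :=
  HasCompactSupport.intro isCompact_bxL fun _ hx => cut2_eq_zero hM hR hn hx

lemma pd_cut2_eq_zero (hM : 0 < M) (hR : 0 < R) (hn : 0 < n)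
    (h : x ∉ bxL S (2 * (n * M)) (2 * (n * R))) : pd i (cut2 S M R) x = 0 := by
  apply pd_eq_zero_of_notMem_tsupport
  intro hmem
  apply h
  have : tsupport (cut2 S M R) ⊆ bxL S (2 * (n * M)) (2 * (n * R)) := by
    apply closure_minimal _ isCompact_bxL.isClosed
    intro y hy
    by_contra hy'
    exact hy (cut2_eq_zero hM hR hn hy')
  exact this hmem

lemma pd_cut2_le {C : ℝ} (hC : ∀ t, |deriv th t| ≤ C) (hR : 0 < R) (hRM : R ≤ M)
    (hn : 0 < n) (x : Fin n → ℝ) : |pd i (cut2 S M R) x| ≤ 6 * C / (n * R) := by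
  have hn' : (0:ℝ) < n := by exact_mod_cast hn
  have hM : 0 < M := by linarith only [hR, hRM]
  have hC0 : 0 ≤ C := (abs_nonneg _).trans (hC 0)
  have d1 : DifferentiableAt ℝ (cutb S (n * M)) x :=
    (cutb_contDiff S _).differentiable (by norm_num) x
  have d2 : DifferentiableAt ℝ (cutb Sᶜ (n * R)) x :=
    (cutb_contDiff Sᶜ _).differentiable (by norm_num) x
  have h1 : pd i (cut2 S M R) x = cutb S (n * M) x * pd i (cutb Sᶜ (n * R)) x
      + cutb Sᶜ (n * R) x * pd i (cutb S (n * M)) x := by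
    unfold cut2; exact pd_mul d1 d2
  have b1 : |pd i (cutb Sᶜ (n * R)) x| ≤ 3 * C / (n * R) := pd_cutb_bound hC _ (by positivity)
  have b2 : |pd i (cutb S (n * M)) x| ≤ 3 * C / (n * R) := by
    refine (pd_cutb_bound hC _ (by positivity)).trans ?_
    (clear * - hC0 hn hR hRM; gcongr)
  have c1 : |cutb S (n * M) x| ≤ 1 := by
    rw [abs_of_nonneg (cutb_nonneg _ _ _)]; exact cutb_le_one _ _ _
  have c2 : |cutb Sᶜ (n * R) x| ≤ 1 := by
    rw [abs_of_nonneg (cutb_nonneg _ _ _)]; exact cutb_le_one _ _ _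
  rw [h1]
  refine (abs_add_le _ _).trans ?_
  rw [abs_mul, abs_mul]
  have h0 : 0 ≤ 3 * C / (n * R) := by (clear * - hC0 hn hR; positivity)
  calc |cutb S (n * M) x| * |pd i (cutb Sᶜ (n * R)) x|
        + |cutb Sᶜ (n * R) x| * |pd i (cutb S (n * M)) x|
      ≤ 1 * (3 * C / (n * R)) + 1 * (3 * C / (n * R)) := by (clear * - c1 b1 c2 b2; gcongr)
    _ = 6 * C / (n * R) := by ring

end Vale.Agent.P134
end
end

section

section

open MeasureTheory Filter Topology

namespace Vale.Agent.P134

variable {n : ℕ} {u U V φ ψ η ξ χ : (Fin n → ℝ) → ℝ} {x : Fin n → ℝ} {i j : Fin n}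
  {S : Finset (Fin n)} {p q : Fin n}

lemma Sol.weakLin (hu : Sol u) {C : ℝ} (hC1 : ∀ x i, |pd i u x| ≤ C)
    (hC2 : ∀ x i j, |pd i (pd j u) x| ≤ C) (i : Fin n) :
    WeakLin (fun x => 3 * u x ^ 2 - 1) (pd i u) :=
  fun _ hξ hc => weak_lin hu hC1 hC2 i hξ hc

/-- Lower bound for the weighted integral on a box where the function is bounded below. -/
lemma lower_bound {G : (Fin n → ℝ) → ℝ} (hG : Continuous G) (hG0 : ∀ x, 0 ≤ G x)
    (hS : ∀ i : Fin n, i ∈ S ∨ i = p ∨ i = q)
    {a b : Fin n → ℝ} (hab : a ≤ b) {ε K R α : ℝ} (hR : 0 < R) (hα : 0 < α)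
    (hε : 0 ≤ ε) (hK : 0 ≤ K)
    (hGe : ∀ x ∈ Set.Icc a b, ε ≤ G x) (hρ : ∀ x ∈ Set.Icc a b, rho S x ≤ K)
    (hKR : K ≤ R ^ 2) (hpR : ∀ x ∈ Set.Icc a b, x p ^ 2 ≤ R ^ 2)
    (hqR : ∀ x ∈ Set.Icc a b, x q ^ 2 ≤ R ^ 2) :
    ε * ((1 + K) ^ (-(α + 1)) * ∏ i, (b i - a i))
      ≤ ∫ x, G x * (tst S p q α R x ^ 2 / (1 + rho S x)) := by
  have hmeas : MeasurableSet (Set.Icc a b) := measurableSet_Icc
  have hint : Integrable (fun x => G x * (tst S p q α R x ^ 2 / (1 + rho S x))) := by
    apply Continuous.integrable_of_hasCompactSupport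
    · refine hG.mul ((tst_contDiff.continuous.pow 2).div ?_ fun x => (one_add_rho_pos S x).ne')
      exact continuous_const.add (rho_contDiff (k := 0) S).continuous
    · have hs2 : HasCompactSupport (fun x => tst S p q α R x ^ 2) :=
        hcs_sq (tst_hasCompactSupport hS hR)
      have : HasCompactSupport (fun x => tst S p q α R x ^ 2 / (1 + rho S x)) :=
        hs2.mul_right (f' := fun x => (1 + rho S x)⁻¹)
      exact this.mul_left
  have h0 : ∀ x, 0 ≤ G x * (tst S p q α R x ^ 2 / (1 + rho S x)) := fun x => by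
    have := one_add_rho_pos S x
    have := hG0 x
    (clear hG hS a b hab ε K hR hα hε hK hGe hρ hKR hpR hqR hmeas hint; positivity)
  calc ε * ((1 + K) ^ (-(α + 1)) * ∏ i, (b i - a i))
      = ∫ x in Set.Icc a b, ε * (1 + K) ^ (-(α + 1)) := by
        rw [setIntegral_const, Measure.real, Real.volume_Icc_pi_toReal hab, smul_eq_mul]
        ring
    _ ≤ ∫ x in Set.Icc a b, G x * (tst S p q α R x ^ 2 / (1 + rho S x)) := by
        apply setIntegral_mono_on
        · exact integrableOn_const (by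
            rw [Real.volume_Icc_pi]
            exact ENNReal.prod_ne_top fun i _ => ENNReal.ofReal_ne_top)
        · exact hint.integrableOn
        · exact hmeas
        · intro x hx
          have hpos := one_add_rho_pos S x
          have h1 := hGe x hx
          have h2 := hρ x hx
          have h3 : cut S p q R x = 1 := cut_eq_one hR (h2.trans hKR) (hpR x hx) (hqR x hx)
          have h4 : tst S p q α R x ^ 2 / (1 + rho S x) = (1 + rho S x) ^ (-(α + 1)) := by
            unfold tst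
            rw [h3, one_pow, mul_one]
            unfold wt
            rw [← Real.rpow_natCast, ← Real.rpow_mul hpos.le,
              show -(α + 1) = -(α / 2) * ((2:ℕ):ℝ) - 1 by push_cast; ring,
              Real.rpow_sub_one hpos.ne']
          have h5 : (1 + K) ^ (-(α + 1)) ≤ (1 + rho S x) ^ (-(α + 1)) :=
            Real.rpow_le_rpow_of_nonpos hpos (by linarith only [h2]) (by linarith only [hα])
          rw [h4]
          exact mul_le_mul h1 h5 (by positivity) (hε.trans h1)
    _ ≤ ∫ x, G x * (tst S p q α R x ^ 2 / (1 + rho S x)) :=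
        setIntegral_le_integral hint (Eventually.of_forall h0)

lemma exists_box_lower {G : (Fin n → ℝ) → ℝ} (hG : Continuous G) {x0 : Fin n → ℝ}
    (h0 : 0 < G x0) : ∃ r : ℝ, 0 < r ∧ r ≤ 1 ∧ ∀ x, (∀ i, |x i - x0 i| ≤ r) → G x0 / 2 ≤ G x := by
  have h1 : ∀ᶠ x in 𝓝 x0, G x0 / 2 < G x :=
    (hG.continuousAt).eventually (lt_mem_nhds (by linarith))
  obtain ⟨δ, hδ, hball⟩ := Metric.eventually_nhds_iff.mp h1
  refine ⟨min (δ / 2) 1, by positivity, min_le_right _ _, fun x hx => (hball ?_).le⟩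
  have : dist x x0 ≤ δ / 2 := by
    rw [dist_pi_le_iff (by positivity)]
    intro i
    rw [Real.dist_eq]
    exact (hx i).trans (min_le_left _ _)
  linarith only [hδ, this]

/-- Main vanishing argument: strictly subcritical growth kills `G`. -/
theorem vanish_of_growth {G : (Fin n → ℝ) → ℝ} (hG : Continuous G) (hG0 : ∀ x, 0 ≤ G x)
    (hS : ∀ i : Fin n, i ∈ S ∨ i = p ∨ i = q) {α c M E β : ℝ} (hα : 0 < α) (hc : 0 < c)
    (hβ : β < 2 * α + 2)
    (hgr : ∀ R : ℝ, 1 ≤ R → c * ∫ x, G x * (tst S p q α R x ^ 2 / (1 + rho S x))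
      ≤ M * R ^ (-(2 * α + 2)) * (E * R ^ β)) : ∀ x, G x = 0 := by
  intro x0
  by_contra hne
  have h0 : 0 < G x0 := lt_of_le_of_ne (hG0 x0) (Ne.symm hne)
  obtain ⟨r, hr0, hr1, hbox⟩ := exists_box_lower hG h0
  set a : Fin n → ℝ := fun i => x0 i - r with ha
  set b : Fin n → ℝ := fun i => x0 i + r with hb
  have hab : a ≤ b := fun i => by simp only [ha, hb]; linarith only [hr0]
  have hmem : ∀ x ∈ Set.Icc a b, ∀ i, |x i - x0 i| ≤ r := by
    intro x hx i
    have h1 := hx.1 i
    have h2 := hx.2 i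
    simp only [ha, hb] at h1 h2
    rw [abs_le]; constructor <;> linarith
  set B : ℝ := ‖x0‖ + 1 with hB
  have hB0 : 1 ≤ B := by rw [hB]; linarith [norm_nonneg x0]
  have hxB : ∀ x ∈ Set.Icc a b, ∀ i, x i ^ 2 ≤ B ^ 2 := by
    intro x hx i
    have h1 := hmem x hx i
    have h2 : |x0 i| ≤ ‖x0‖ := norm_le_pi_norm x0 i
    have h3 : |x i| ≤ B := by
      calc |x i| = |(x i - x0 i) + x0 i| := by ring_nf
        _ ≤ |x i - x0 i| + |x0 i| := abs_add_le _ _
        _ ≤ B := by rw [hB]; linarith only [hr1, h1, h2]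
    rw [← sq_abs (x i)]
    exact pow_le_pow_left₀ (abs_nonneg _) h3 2
  set K : ℝ := n * B ^ 2 with hK
  have hK0 : 0 ≤ K := by (clear * -; positivity)
  have hρ : ∀ x ∈ Set.Icc a b, rho S x ≤ K := by
    intro x hx
    unfold rho
    calc ∑ i ∈ S, x i ^ 2 ≤ ∑ i, x i ^ 2 :=
          Finset.sum_le_sum_of_subset_of_nonneg (Finset.subset_univ _) fun _ _ _ => sq_nonneg _
      _ ≤ ∑ _i : Fin n, B ^ 2 := Finset.sum_le_sum fun i _ => hxB x hx i
      _ = K := by simp only [Finset.sum_const, Finset.card_univ, Fintype.card_fin, nsmul_eq_mul, hK]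
  set d : ℝ := c * (G x0 / 2 * ((1 + K) ^ (-(α + 1)) * ∏ i, (b i - a i))) with hd
  have hd0 : 0 < d := by
    have : ∀ i, 0 < b i - a i := fun i => by simp only [ha, hb]; linarith only [hr0]
    have h1 : 0 < ∏ i, (b i - a i) := Finset.prod_pos fun i _ => this i
    (clear * - hc h0 h1; positivity)
  have hmain : ∀ R : ℝ, (n + 1) * B ≤ R → d ≤ M * E * R ^ (β - (2 * α + 2)) := by
    intro R hR
    have hnn : (0:ℝ) ≤ n := Nat.cast_nonneg n
    have hBR : B ≤ R := by (clear * - B R n x0 hR hB0; nlinarith only [hR, hB0])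
    have hR1 : 1 ≤ R := hB0.trans hBR
    have hR0 : 0 < R := by linarith only [hB0, hBR]
    have hKR : K ≤ R ^ 2 := by
      have h1 : ((n + 1) * B) ^ 2 ≤ R ^ 2 := pow_le_pow_left₀ (by (clear * -; positivity)) hR 2
      have h2 : K ≤ ((n + 1) * B) ^ 2 := by
        rw [hK, mul_pow]
        apply mul_le_mul_of_nonneg_right _ (by (clear * -; positivity))
        (clear * - n; nlinarith)
      exact h2.trans h1
    have hBR2 : B ^ 2 ≤ R ^ 2 := pow_le_pow_left₀ (by linarith only [hB0]) hBR 2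
    have h1 := lower_bound hG hG0 hS hab hR0 hα (by positivity : 0 ≤ G x0 / 2) hK0
      (fun x hx => hbox x (hmem x hx)) hρ hKR
      (fun x hx => (hxB x hx p).trans hBR2) (fun x hx => (hxB x hx q).trans hBR2)
    have h2 := hgr R hR1
    have h3 : M * R ^ (-(2 * α + 2)) * (E * R ^ β) = M * E * R ^ (β - (2 * α + 2)) := by
      rw [sub_eq_add_neg, Real.rpow_add hR0]; ring
    rw [h3] at h2
    exact (mul_le_mul_of_nonneg_left h1 hc.le).trans h2
  have hlim : Tendsto (fun R : ℝ => M * E * R ^ (β - (2 * α + 2))) atTop (𝓝 (M * E * 0)) := by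
    apply Tendsto.const_mul
    have := tendsto_rpow_neg_atTop (y := (2 * α + 2) - β) (by linarith only [hβ])
    refine this.congr fun R => ?_
    congr 1; ring
  rw [mul_zero] at hlim
  have h5 : d ≤ 0 := ge_of_tendsto hlim (by
    filter_upwards [eventually_ge_atTop ((n + 1) * B)] with R hR using hmain R hR)
  linarith only [hd0, h5]

/-- Vanishing argument for functions which do not depend on `x q`. -/
theorem vanish_of_growth_tube {G : (Fin n → ℝ) → ℝ} (hG : Continuous G) (hG0 : ∀ x, 0 ≤ G x)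
    (hS : ∀ i : Fin n, i ∈ S ∨ i = p ∨ i = q) (hpq : p ≠ q) (hq : q ∉ S)
    (hinv : ∀ x (t : ℝ), G (x + t • Pi.single q 1) = G x)
    {α c M E β : ℝ} (hα : 0 < α) (hc : 0 < c)
    (hβ : β < 2 * α + 3)
    (hgr : ∀ R : ℝ, 1 ≤ R → c * ∫ x, G x * (tst S p q α R x ^ 2 / (1 + rho S x))
      ≤ M * R ^ (-(2 * α + 2)) * (E * R ^ β)) : ∀ x, G x = 0 := by
  intro x0
  by_contra hne
  have h0 : 0 < G x0 := lt_of_le_of_ne (hG0 x0) (Ne.symm hne)
  obtain ⟨r, hr0, hr1, hbox⟩ := exists_box_lower hG h0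
  set B : ℝ := ‖x0‖ + 1 with hB
  have hB0 : 1 ≤ B := by rw [hB]; linarith only [norm_nonneg x0]
  set K : ℝ := n * B ^ 2 with hK
  have hK0 : 0 ≤ K := by (clear * -; positivity)
  set d0 : ℝ := c * (G x0 / 2 * ((1 + K) ^ (-(α + 1)) * (2 * r) ^ (n - 1))) with hd
  have hd0 : 0 < d0 := by (clear * - hc h0 hr0; positivity)
  have hmain : ∀ R : ℝ, (n + 1) * B ≤ R → d0 * (2 * R) ≤ M * E * R ^ (β - (2 * α + 2)) := by
    intro R hR
    have hnn : (0:ℝ) ≤ n := Nat.cast_nonneg n
    have hBR : B ≤ R := by (clear * - B R n x0 hR hB0; nlinarith only [hR, hB0])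
    have hR1 : 1 ≤ R := hB0.trans hBR
    have hR0 : 0 < R := by linarith only [hB0, hBR]
    set a : Fin n → ℝ := fun i => if i = q then -R else x0 i - r with ha
    set b : Fin n → ℝ := fun i => if i = q then R else x0 i + r with hb
    have hab : a ≤ b := fun i => by
      simp only [ha, hb]; split_ifs <;> linarith only [hB0, hBR, hr0]
    have hmem : ∀ x ∈ Set.Icc a b, ∀ i, i ≠ q → |x i - x0 i| ≤ r := by
      intro x hx i hi
      have h1 := hx.1 i
      have h2 := hx.2 i
      simp only [ha, hb, if_neg hi] at h1 h2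
      rw [abs_le]; constructor <;> linarith only [h1, h2]
    have hmemq : ∀ x ∈ Set.Icc a b, x q ^ 2 ≤ R ^ 2 := by
      intro x hx
      have h1 := hx.1 q
      have h2 := hx.2 q
      simp only [ha, hb, if_true] at h1 h2
      apply sq_le_sq'
      · exact h1
      · exact h2
    have hxB : ∀ x ∈ Set.Icc a b, ∀ i, i ≠ q → x i ^ 2 ≤ B ^ 2 := by
      intro x hx i hi
      have h1 := hmem x hx i hi
      have h2 : |x0 i| ≤ ‖x0‖ := norm_le_pi_norm x0 i
      have h3 : |x i| ≤ B := by
        calc |x i| = |(x i - x0 i) + x0 i| := by ring_nf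
          _ ≤ |x i - x0 i| + |x0 i| := abs_add_le _ _
          _ ≤ B := by rw [hB]; linarith only [hr1, h1, h2]
      rw [← sq_abs (x i)]
      exact pow_le_pow_left₀ (abs_nonneg _) h3 2
    have hρ : ∀ x ∈ Set.Icc a b, rho S x ≤ K := by
      intro x hx
      unfold rho
      calc ∑ i ∈ S, x i ^ 2 ≤ ∑ _i ∈ S, B ^ 2 := Finset.sum_le_sum fun i hi =>
            hxB x hx i (fun h => hq (h ▸ hi))
        _ ≤ ∑ _i : Fin n, B ^ 2 :=
            Finset.sum_le_sum_of_subset_of_nonneg (Finset.subset_univ _) fun _ _ _ => sq_nonneg _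
        _ = K := by simp only [Finset.sum_const, Finset.card_univ, Fintype.card_fin, nsmul_eq_mul, hK]
    have hKR : K ≤ R ^ 2 := by
      have h1 : ((n + 1) * B) ^ 2 ≤ R ^ 2 := pow_le_pow_left₀ (by (clear * -; positivity)) hR 2
      have h2 : K ≤ ((n + 1) * B) ^ 2 := by
        rw [hK, mul_pow]
        apply mul_le_mul_of_nonneg_right _ (by (clear * -; positivity))
        (clear * - n; nlinarith only [])
      exact h2.trans h1
    have hBR2 : B ^ 2 ≤ R ^ 2 := pow_le_pow_left₀ (by linarith only [hB0]) hBR 2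
    have hGe : ∀ x ∈ Set.Icc a b, G x0 / 2 ≤ G x := by
      intro x hx
      rw [← hinv x (x0 q - x q)]
      apply hbox
      intro i
      by_cases hi : i = q
      · subst hi
        simp only [Pi.add_apply, Pi.smul_apply, Pi.single_eq_same, smul_eq_mul, mul_one]
        rw [show x i + (x0 i - x i) - x0 i = 0 by ring, abs_zero]
        exact hr0.le
      · simp only [Pi.add_apply, Pi.smul_apply, Pi.single_eq_of_ne hi, smul_eq_mul, mul_zero,
          add_zero]
        exact hmem x hx i hi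
    have hprod : ∏ i, (b i - a i) = (2 * r) ^ (n - 1) * (2 * R) := by
      rw [← Finset.prod_erase_mul _ _ (Finset.mem_univ q)]
      have e1 : b q - a q = 2 * R := by simp only [ha, hb, if_true]; ring
      have e2 : ∀ i ∈ Finset.univ.erase q, b i - a i = 2 * r := by
        intro i hi
        have hi' := Finset.ne_of_mem_erase hi
        simp only [ha, hb, if_neg hi']; ring
      rw [e1, Finset.prod_congr rfl e2, Finset.prod_const,
        Finset.card_erase_of_mem (Finset.mem_univ q), Finset.card_univ, Fintype.card_fin]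
    have h1 := lower_bound hG hG0 hS hab hR0 hα (by positivity : 0 ≤ G x0 / 2) hK0
      hGe hρ hKR (fun x hx => (hxB x hx p hpq).trans hBR2) hmemq
    have h2 := hgr R hR1
    have h3 : M * R ^ (-(2 * α + 2)) * (E * R ^ β) = M * E * R ^ (β - (2 * α + 2)) := by
      rw [sub_eq_add_neg, Real.rpow_add hR0]; ring
    rw [h3] at h2
    have h4 := (mul_le_mul_of_nonneg_left h1 hc.le).trans h2
    rw [hprod] at h4
    calc d0 * (2 * R) = c * (G x0 / 2 * ((1 + K) ^ (-(α + 1)) * ((2 * r) ^ (n - 1) * (2 * R)))) := by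
          rw [hd]; ring
      _ ≤ _ := h4
  have hmain2 : ∀ R : ℝ, (n + 1) * B ≤ R → 2 * d0 ≤ M * E * R ^ (β - (2 * α + 3)) := by
    intro R hR
    have hnn : (0:ℝ) ≤ n := Nat.cast_nonneg n
    have hBR : B ≤ R := by (clear * - B R n x0 hR hB0; nlinarith only [hR, hB0])
    have hR0 : 0 < R := by linarith only [hB0, hBR]
    have h1 := hmain R hR
    have h2 : R ^ (β - (2 * α + 2)) = R ^ (β - (2 * α + 3)) * R := by
      rw [show β - (2 * α + 2) = (β - (2 * α + 3)) + 1 by ring, Real.rpow_add_one hR0.ne']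
    rw [h2] at h1
    have h3 : (2 * d0) * R ≤ (M * E * R ^ (β - (2 * α + 3))) * R := by (clear * - d0 R M E β α c G x0 K r n h1; linarith)
    exact le_of_mul_le_mul_right h3 hR0
  have hlim : Tendsto (fun R : ℝ => M * E * R ^ (β - (2 * α + 3))) atTop (𝓝 (M * E * 0)) := by
    apply Tendsto.const_mul
    have := tendsto_rpow_neg_atTop (y := (2 * α + 3) - β) (by linarith only [hβ])
    refine this.congr fun R => ?_
    congr 1; ring
  rw [mul_zero] at hlim
  have h5 : 2 * d0 ≤ 0 := ge_of_tendsto hlim (by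
    filter_upwards [eventually_ge_atTop ((n + 1) * B)] with R hR using hmain2 R hR)
  linarith only [hd0, h5]

end Vale.Agent.P134
end
end

section

section

open MeasureTheory Filter Topology

namespace Vale.Agent.P134

variable {n : ℕ} {u U w η χ : (Fin n → ℝ) → ℝ} {x : Fin n → ℝ} {i j : Fin n} {q : Fin n}
  {Λ S : Finset (Fin n)} {M R : ℝ} {e : Fin n → ℝ}

/-- Directional derivative. -/
noncomputable def dd (e : Fin n → ℝ) (u : (Fin n → ℝ) → ℝ) (x : Fin n → ℝ) : ℝ :=
  ∑ i, e i * pd i u x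

lemma dd_eq_fderiv (e : Fin n → ℝ) (u : (Fin n → ℝ) → ℝ) (x : Fin n → ℝ) :
    dd e u x = fderiv ℝ u x e := by
  rw [fderiv_eq_sum_pd]; rfl

lemma hasDerivAt_dd (hf : Differentiable ℝ w) (x e : Fin n → ℝ) (t : ℝ) :
    HasDerivAt (fun s : ℝ => w (x + s • e)) (dd e w (x + t • e)) t := by
  rw [dd_eq_fderiv]
  have h1 : HasDerivAt (fun s : ℝ => x + s • e) e t := by
    have := ((hasDerivAt_id t).smul_const e).const_add x
    simpa using this
  exact (hf (x + t • e)).hasFDerivAt.comp_hasDerivAt t h1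

lemma dd_contDiff (hu : ContDiff ℝ 2 u) : ContDiff ℝ 1 (dd e u) :=
  ContDiff.sum fun i _ => contDiff_const.mul (contDiff_pd_one hu)

lemma pd_dd (hu : ContDiff ℝ 2 u) (j : Fin n) (x : Fin n → ℝ) :
    pd j (dd e u) x = ∑ i, e i * pd j (pd i u) x := by
  have hd : ∀ i ∈ (Finset.univ : Finset (Fin n)), DifferentiableAt ℝ (fun y => e i * pd i u y) x :=
    fun i _ => ((contDiff_pd_one hu).differentiable (by norm_num) x).const_mul _
  unfold dd
  rw [pd_sum Finset.univ (F := fun i y => e i * pd i u y) hd]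
  refine Finset.sum_congr rfl fun i _ => ?_
  rw [pd_mul (f := fun _ => e i) (by fun_prop)
    ((contDiff_pd_one hu).differentiable (by norm_num) x), pd_const]
  ring

lemma Sol.weakLin_dd (hu : Sol u) (e : Fin n → ℝ) :
    WeakLin (fun x => 3 * u x ^ 2 - 1) (dd e u) := by
  obtain ⟨C, hC0, hC1, hC2, -⟩ := hu.exists_bound
  intro ξ hξ hc
  have hw : ∀ i, ∫ x, ∑ j, pd j (pd i u) x * pd j ξ x
      = - ∫ x, (3 * u x ^ 2 - 1) * pd i u x * ξ x := fun i => hu.weakLin hC1 hC2 i ξ hξ hc
  have i1 : ∀ i : Fin n, Integrable (fun x => ∑ j, pd j (pd i u) x * pd j ξ x) := fun i =>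
    integrable_sum_mul (fun j => continuous_pd (contDiff_pd_one hu.c2)) (fun j => continuous_pd hξ)
      (fun j => hasCompactSupport_pd hc)
  have i2 : ∀ i : Fin n, Integrable (fun x => (3 * u x ^ 2 - 1) * pd i u x * ξ x) := fun i =>
    ((((continuous_const.mul (hu.c2.continuous.pow 2)).sub continuous_const).mul
      (contDiff_pd_one hu.c2).continuous).mul hξ.continuous).integrable_of_hasCompactSupport
      hc.mul_left
  calc ∫ x, ∑ j, pd j (dd e u) x * pd j ξ x
      = ∫ x, ∑ i, e i * ∑ j, pd j (pd i u) x * pd j ξ x := by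
        congr 1; ext x
        simp_rw [pd_dd hu.c2, Finset.sum_mul, Finset.mul_sum]
        rw [Finset.sum_comm]
        refine Finset.sum_congr rfl fun i _ => Finset.sum_congr rfl fun j _ => ?_
        ring
    _ = ∑ i, e i * ∫ x, ∑ j, pd j (pd i u) x * pd j ξ x := by
        rw [integral_finsetSum _ fun i _ => (i1 i).const_mul _]
        simp_rw [integral_const_mul]
    _ = ∑ i, e i * (- ∫ x, (3 * u x ^ 2 - 1) * pd i u x * ξ x) := by simp_rw [hw]
    _ = - ∑ i, e i * ∫ x, (3 * u x ^ 2 - 1) * pd i u x * ξ x := by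
        simp_rw [mul_neg, Finset.sum_neg_distrib]
    _ = - ∫ x, ∑ i, e i * ((3 * u x ^ 2 - 1) * pd i u x * ξ x) := by
        rw [integral_finsetSum _ fun i _ => (i2 i).const_mul _]
        simp_rw [integral_const_mul]
    _ = _ := by
        congr 2; ext x
        unfold dd
        rw [Finset.mul_sum, Finset.sum_mul]
        refine Finset.sum_congr rfl fun i _ => ?_
        ring

theorem DStab.of_dir (h : Sol u) (hpos : ∀ x, 0 < dd e u x) : DStab u :=
  DStab.of_weakLin h (dd_contDiff h.c2) hpos (h.weakLin_dd e)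

/-- The limit profile in an arbitrary direction of monotonicity. -/
theorem DStab.exists_profile_dir (h : Sol u) (hpos : ∀ x, 0 < dd e u x) :
    ∃ U : (Fin n → ℝ) → ℝ, DStab U ∧
      (∀ x, Tendsto (fun t : ℝ => u (x + t • e)) atTop (𝓝 (U x))) ∧
      (∀ x i, Tendsto (fun t : ℝ => pd i u (x + t • e)) atTop (𝓝 (pd i U x))) ∧
      (∀ x (t : ℝ), U (x + t • e) = U x) := by
  have du : Differentiable ℝ u := h.c2.differentiable (by norm_num)
  have hmono : ∀ x, Monotone (fun t : ℝ => u (x + t • e)) := by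
    intro x
    apply monotone_of_deriv_nonneg
    · intro s
      exact (hasDerivAt_dd du x e s).differentiableAt
    · intro s
      rw [(hasDerivAt_dd du x e s).deriv]
      exact (hpos _).le
  have hbdd : ∀ x, BddAbove (Set.range (fun t : ℝ => u (x + t • e))) := by
    intro x
    refine ⟨1, ?_⟩
    rintro _ ⟨t, rfl⟩
    exact (abs_le.mp (h.bd _)).2
  set U : (Fin n → ℝ) → ℝ := fun x => ⨆ t : ℝ, u (x + t • e) with hU
  have hlim : ∀ x, Tendsto (fun t : ℝ => u (x + t • e)) atTop (𝓝 (U x)) :=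
    fun x => tendsto_atTop_ciSup (hmono x) (hbdd x)
  obtain ⟨h1, h2, -⟩ := Sol.of_tendsto (ι := ℝ)
    (F := fun t y => u (y + t • e)) (fun t => h.shift _) hlim
  have hDS : DStab u := DStab.of_dir h hpos
  refine ⟨U, DStab.of_tendsto (ι := ℝ) (F := fun t y => u (y + t • e))
    (fun t => hDS.shift _) hlim, hlim, ?_, ?_⟩
  · intro x i
    have := h2 x i
    simpa [pd_shift_fun] using this
  · intro x t
    have h4 : Tendsto (fun s : ℝ => u (x + (s + t) • e)) atTop (𝓝 (U x)) :=
      (hlim x).comp (tendsto_atTop_add_const_right atTop t tendsto_id)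
    have h5 := hlim (x + t • e)
    have e1 : (fun s : ℝ => u (x + t • e + s • e))
        = fun s : ℝ => u (x + (s + t) • e) := by
      funext s
      congr 1
      rw [add_smul]; abel
    rw [e1] at h5
    exact tendsto_nhds_unique h5 h4

lemma integral_dd_en (hu : Sol u) (e : Fin n → ℝ) (hχ : ContDiff ℝ 1 χ)
    (hc : HasCompactSupport χ) :
    ∫ x, dd e (en u) x * χ x = - ∫ x, dd e u x * ∑ j, pd j u x * pd j χ x := by
  have i1 : ∀ i : Fin n, Integrable (fun x => pd i (en u) x * χ x) := fun i =>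
    ((continuous_pd (en_contDiff hu.c2)).mul hχ.continuous).integrable_of_hasCompactSupport
      hc.mul_left
  have i2 : ∀ i : Fin n, Integrable (fun x => pd i u x * ∑ j, pd j u x * pd j χ x) := by
    intro i
    have : (fun x => pd i u x * ∑ j, pd j u x * pd j χ x)
        = fun x => ∑ j, (pd i u x * pd j u x) * pd j χ x := by
      ext x; rw [Finset.mul_sum]
      apply Finset.sum_congr rfl; intro j _; ring
    rw [this]
    exact integrable_sum_mul (fun j => (contDiff_pd_one hu.c2).continuous.mul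
      (contDiff_pd_one hu.c2).continuous)
      (fun j => continuous_pd hχ) (fun j => hasCompactSupport_pd hc)
  calc ∫ x, dd e (en u) x * χ x = ∫ x, ∑ i, e i * (pd i (en u) x * χ x) := by
        congr 1; ext x; unfold dd; rw [Finset.sum_mul]
        refine Finset.sum_congr rfl fun i _ => ?_
        ring
    _ = ∑ i, e i * ∫ x, pd i (en u) x * χ x := by
        rw [integral_finsetSum _ fun i _ => (i1 i).const_mul _]
        simp_rw [integral_const_mul]
    _ = ∑ i, e i * (- ∫ x, pd i u x * ∑ j, pd j u x * pd j χ x) := by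
        refine Finset.sum_congr rfl fun i _ => ?_
        rw [integral_pd_en hu i hχ hc]
    _ = - ∑ i, e i * ∫ x, pd i u x * ∑ j, pd j u x * pd j χ x := by
        simp_rw [mul_neg, Finset.sum_neg_distrib]
    _ = - ∫ x, ∑ i, e i * (pd i u x * ∑ j, pd j u x * pd j χ x) := by
        rw [integral_finsetSum _ fun i _ => (i2 i).const_mul _]
        simp_rw [integral_const_mul]
    _ = _ := by
        congr 2; ext x
        unfold dd
        rw [Finset.sum_mul]
        refine Finset.sum_congr rfl fun i _ => ?_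
        ring

lemma dd_abs_le {C : ℝ} (h : ∀ i, |pd i u x| ≤ C) : |dd e u x| ≤ (∑ i, |e i|) * C := by
  unfold dd
  refine (Finset.abs_sum_le_sum_abs _ _).trans ?_
  rw [Finset.sum_mul]
  refine Finset.sum_le_sum fun i _ => ?_
  rw [abs_mul]
  exact mul_le_mul_of_nonneg_left (h i) (abs_nonneg _)

theorem energy_comparison_dir (hu : Sol u) {C : ℝ} (hC1 : ∀ x i, |pd i u x| ≤ C)
    (hC2 : ∀ x i j, |pd i (pd j u) x| ≤ C) (hC0 : 0 ≤ C) (hpos : ∀ x, 0 < dd e u x) (hU : Sol U)
    (hlim : ∀ x, Tendsto (fun t : ℝ => u (x + t • e)) atTop (𝓝 (U x)))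
    (hlim' : ∀ x i, Tendsto (fun t : ℝ => pd i u (x + t • e)) atTop (𝓝 (pd i U x)))
    (hχ : ContDiff ℝ 1 χ) (hc : HasCompactSupport χ) (hχ0 : ∀ x, 0 ≤ χ x) :
    ∫ x, en u x * χ x ≤ (∫ x, en U x * χ x) + 2 * C * ∫ x, ∑ j, |pd j χ x| := by
  set A : ℝ := ∑ i, |e i| with hA
  have hA0 : 0 ≤ A := Finset.sum_nonneg fun _ _ => abs_nonneg _
  set D : (Fin n → ℝ) → ℝ := fun x => ∑ j, |pd j χ x| with hD
  have hDc : Continuous D := continuous_finsetSum _ fun j _ => (continuous_pd hχ).abs
  have hDs : HasCompactSupport D := by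
    have hs : ∀ j : Fin n, HasCompactSupport (fun x => |pd j χ x|) := fun j =>
      (hasCompactSupport_pd hc).comp_left (g := fun t => |t|) (by simp)
    apply HasCompactSupport.intro' hc.isCompact (isClosed_tsupport χ)
    intro x hx
    simp only [hD]
    apply Finset.sum_eq_zero; intro j _
    rw [pd_eq_zero_of_notMem_tsupport hx, abs_zero]
  have hD0 : ∀ x, 0 ≤ D x := fun x => Finset.sum_nonneg fun _ _ => abs_nonneg _
  have hcen : Continuous (en u) := (en_contDiff hu.c2).continuous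
  have hden : Differentiable ℝ (en u) := (en_contDiff hu.c2).differentiable (by norm_num)
  have hdu : Differentiable ℝ u := hu.c2.differentiable (by norm_num)
  have hcu : Continuous u := hu.c2.continuous
  have hcdd : ∀ {w : (Fin n → ℝ) → ℝ}, ContDiff ℝ 1 w → Continuous (dd e w) := fun hw =>
    continuous_finsetSum _ fun i _ => continuous_const.mul (continuous_pd hw)
  set F : ℝ → (Fin n → ℝ) → ℝ := fun τ x => en u (x + τ • e) * χ x + C * (u (x + τ • e) * D x) with hF
  set F' : ℝ → (Fin n → ℝ) → ℝ := fun τ x =>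
    dd e (en u) (x + τ • e) * χ x + C * (dd e u (x + τ • e) * D x) with hF'
  have hFc : ∀ τ, Continuous (F τ) := fun τ => by
    have h1 : Continuous fun x : Fin n → ℝ => x + τ • e := by fun_prop
    exact ((hcen.comp h1).mul hχ.continuous).add (continuous_const.mul ((hcu.comp h1).mul hDc))
  have hFi : ∀ τ, Integrable (F τ) := fun τ => by
    apply (hFc τ).integrable_of_hasCompactSupport
    exact (hc.mul_left).add (hDs.mul_left.mul_left)
  have hF'c : ∀ τ, Continuous (F' τ) := fun τ => by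
    have h1 : Continuous fun x : Fin n → ℝ => x + τ • e := by fun_prop
    exact (((hcdd (en_contDiff hu.c2)).comp h1).mul hχ.continuous).add
      (continuous_const.mul (((dd_contDiff hu.c2).continuous.comp h1).mul hDc))
  -- bound for the derivative of the energy density
  have hKb : ∀ y, |dd e (en u) y| ≤ A * (n * C ^ 2 + 2 * C) := by
    intro y
    apply dd_abs_le
    intro i
    rw [pd_en hu.c2]
    have h1 : |∑ j, pd j u y * pd i (pd j u) y| ≤ n * C ^ 2 := by
      refine (Finset.abs_sum_le_sum_abs _ _).trans ?_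
      have : ∀ j ∈ (Finset.univ : Finset (Fin n)), |pd j u y * pd i (pd j u) y| ≤ C ^ 2 := by
        intro j _
        rw [abs_mul, sq]
        exact mul_le_mul (hC1 _ _) (hC2 _ _ _) (abs_nonneg _) hC0
      refine (Finset.sum_le_sum this).trans (le_of_eq ?_)
      simp only [Finset.sum_const, Finset.card_univ, Fintype.card_fin, nsmul_eq_mul]
    have h2 : |(u y ^ 3 - u y) * pd i u y| ≤ 2 * C := by
      rw [abs_mul]
      have hb := abs_le.mp (hu.bd y)
      have h3 : |u y ^ 3 - u y| ≤ 2 := by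
        rw [abs_le]
        have : u y ^ 3 - u y = u y * (u y ^ 2 - 1) := by ring
        constructor <;> nlinarith only [hb, mul_nonneg           (by linarith : 0 ≤ 1 - u y) (by linarith : 0 ≤ 1 + u y)]
      exact mul_le_mul h3 (hC1 _ _) (abs_nonneg _) (by norm_num)
    exact (abs_add_le _ _).trans (add_le_add h1 h2)
  have hder : ∀ τ, HasDerivAt (fun τ => ∫ x, F τ x) (∫ x, F' τ x) τ := by
    intro τ
    refine (hasDerivAt_integral_of_dominated_loc_of_deriv_le (μ := volume) (s := Set.univ)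
      (F := F) (F' := F')
      (bound := fun x => A * (n * C ^ 2 + 2 * C) * χ x + C * (A * C * D x)) Filter.univ_mem
      (Eventually.of_forall fun τ => (hFc τ).aestronglyMeasurable) (hFi τ)
      (hF'c τ).aestronglyMeasurable ?_ ?_ ?_).2
    · filter_upwards with x
      intro t _
      simp only [hF']
      rw [Real.norm_eq_abs]
      refine (abs_add_le _ _).trans (add_le_add ?_ ?_)
      · rw [abs_mul, abs_of_nonneg (hχ0 x)]
        exact mul_le_mul_of_nonneg_right (hKb _) (hχ0 x)
      · rw [abs_mul, abs_mul, abs_of_nonneg hC0, abs_of_nonneg (hD0 x)]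
        exact mul_le_mul_of_nonneg_left (mul_le_mul_of_nonneg_right
          (dd_abs_le fun i => hC1 _ i) (hD0 x)) hC0
    · apply Integrable.add
      · exact (hχ.continuous.integrable_of_hasCompactSupport hc).const_mul _
      · exact ((hDc.integrable_of_hasCompactSupport hDs).const_mul _).const_mul _
    · filter_upwards with x
      intro t _
      exact ((hasDerivAt_dd hden x e t).mul_const _).add
        (((hasDerivAt_dd hdu x e t).mul_const _).const_mul _)
  have hnonneg : ∀ τ, 0 ≤ ∫ x, F' τ x := by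
    intro τ
    have hv := hu.translate (τ • e)
    set v : (Fin n → ℝ) → ℝ := fun x => u (x + τ • e) with hvdef
    have pv : ∀ j x, pd j v x = pd j u (x + τ • e) := fun j x => pd_translate _
    have ev : ∀ x, en v x = en u (x + τ • e) := fun x => by
      unfold en; simp_rw [pv, hvdef]
    have ev' : en v = fun x => en u (x + τ • e) := funext ev
    have dv : ∀ x, dd e v x = dd e u (x + τ • e) := fun x => by
      unfold dd; simp_rw [pv]
    have pev : ∀ x, dd e (en v) x = dd e (en u) (x + τ • e) := fun x => by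
      unfold dd
      refine Finset.sum_congr rfl fun i _ => ?_
      rw [ev']
      congr 1
      exact pd_translate _
    have h1 := integral_dd_en hv e hχ hc
    have i1 : Integrable (fun x => dd e (en v) x * χ x) :=
      ((hcdd (en_contDiff hv.c2)).mul hχ.continuous).integrable_of_hasCompactSupport
        hc.mul_left
    have i2 : Integrable (fun x => C * (dd e v x * D x)) :=
      (continuous_const.mul ((dd_contDiff hv.c2).continuous.mul
        hDc)).integrable_of_hasCompactSupport hDs.mul_left.mul_left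
    have i3 : Integrable (fun x => dd e v x * ∑ j, pd j v x * pd j χ x) := by
      have : (fun x => dd e v x * ∑ j, pd j v x * pd j χ x)
          = fun x => ∑ j, (dd e v x * pd j v x) * pd j χ x := by
        ext x; rw [Finset.mul_sum]
        apply Finset.sum_congr rfl; intro j _; ring
      rw [this]
      exact integrable_sum_mul (fun j => (dd_contDiff hv.c2).continuous.mul
        (contDiff_pd_one hv.c2).continuous)
        (fun j => continuous_pd hχ) (fun j => hasCompactSupport_pd hc)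
    have h2 : ∫ x, F' τ x = ∫ x, (C * (dd e v x * D x) - dd e v x * ∑ j, pd j v x * pd j χ x) := by
      have h3 : ∫ x, F' τ x = (∫ x, dd e (en v) x * χ x) + ∫ x, C * (dd e v x * D x) := by
        rw [← integral_add i1 i2]
        congr 1; ext x
        simp only [hF', dv, pev]
      rw [h3, h1, integral_sub i2 i3]; ring
    rw [h2]
    apply integral_nonneg
    intro x
    simp only [Pi.zero_apply]
    have h4 : ∑ j, pd j v x * pd j χ x ≤ C * D x := by
      simp only [hD]
      rw [Finset.mul_sum]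
      apply Finset.sum_le_sum; intro j _
      refine (le_abs_self _).trans ?_
      rw [abs_mul]
      refine mul_le_mul_of_nonneg_right ?_ (abs_nonneg _)
      rw [pv]; exact hC1 _ _
    have h5 : 0 < dd e v x := by rw [dv]; exact hpos _
    (clear * - C n e v x D χ h4 h5; nlinarith only [h4, h5])
  have hmono : Monotone (fun τ => ∫ x, F τ x) :=
    monotone_of_deriv_nonneg (fun τ => (hder τ).differentiableAt) fun τ => by
      rw [(hder τ).deriv]; exact hnonneg τ
  have hlimF : Tendsto (fun τ => ∫ x, F τ x) atTop (𝓝 (∫ x, (en U x * χ x + C * (U x * D x)))) := by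
    apply tendsto_integral_filter_of_dominated_convergence
      (fun x => ((1/2) * (n * C ^ 2) + 1) * χ x + C * D x)
    · exact Eventually.of_forall fun τ => (hFc τ).aestronglyMeasurable
    · filter_upwards with τ
      filter_upwards with x
      simp only [hF]
      rw [Real.norm_eq_abs]
      refine (abs_add_le _ _).trans (add_le_add ?_ ?_)
      · rw [abs_mul, abs_of_nonneg (hχ0 x), abs_of_nonneg (en_nonneg _ _)]
        refine mul_le_mul_of_nonneg_right ?_ (hχ0 x)
        unfold en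
        have h1 : ∑ j, pd j u (x + τ • e) ^ 2 ≤ n * C ^ 2 := by
          have : ∀ j ∈ (Finset.univ : Finset (Fin n)), pd j u (x + τ • e) ^ 2 ≤ C ^ 2 := by
            intro j _
            exact sq_le_sq' (abs_le.mp (hC1 _ _)).1 (abs_le.mp (hC1 _ _)).2
          refine (Finset.sum_le_sum this).trans (le_of_eq ?_)
          simp only [Finset.sum_const, Finset.card_univ, Fintype.card_fin, nsmul_eq_mul]
        have hb := abs_le.mp (hu.bd (x + τ • e))
        have h2 : u (x + τ • e) ^ 2 ≤ 1 := by (clear * - u n x τ e hb; nlinarith)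
        have h3 : 0 ≤ u (x + τ • e) ^ 2 := sq_nonneg _
        have h4 : (1 - u (x + τ • e) ^ 2) ^ 2 / 4 ≤ 1 := by (clear * - u n x τ e h2; nlinarith)
        (clear * - n u x τ e C h1 h4; linarith)
      · rw [abs_mul, abs_mul, abs_of_nonneg hC0, abs_of_nonneg (hD0 x)]
        refine mul_le_mul_of_nonneg_left ?_ hC0
        have := hu.bd (x + τ • e)
        (clear * - u n x τ e D this hD0; nlinarith [hD0 x])
    · apply Integrable.add
      · exact (hχ.continuous.integrable_of_hasCompactSupport hc).const_mul _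
      · exact (hDc.integrable_of_hasCompactSupport hDs).const_mul _
    · filter_upwards with x
      have h1 : Tendsto (fun τ : ℝ => en u (x + τ • e)) atTop (𝓝 (en U x)) := by
        unfold en
        exact ((tendsto_finsetSum _ fun j _ => (hlim' x j).pow 2).const_mul _).add
          ((((hlim x).pow 2).const_sub 1).pow 2 |>.div_const 4)
      exact (h1.mul_const _).add (((hlim x).mul_const _).const_mul _)
  have hfin : ∫ x, F 0 x ≤ ∫ x, (en U x * χ x + C * (U x * D x)) := by
    apply ge_of_tendsto hlimF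
    filter_upwards [eventually_ge_atTop 0] with τ hτ using hmono hτ
  have hchi_i : Integrable χ := hχ.continuous.integrable_of_hasCompactSupport hc
  have hD_i : Integrable D := hDc.integrable_of_hasCompactSupport hDs
  have j1 : Integrable (fun x => en u x * χ x) :=
    (hcen.mul hχ.continuous).integrable_of_hasCompactSupport hc.mul_left
  have j2 : Integrable (fun x => C * (u x * D x)) :=
    (continuous_const.mul (hcu.mul hDc)).integrable_of_hasCompactSupport hDs.mul_left.mul_left
  have hF0 : ∫ x, F 0 x = (∫ x, en u x * χ x) + ∫ x, C * (u x * D x) := by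
    rw [← integral_add j1 j2]
    congr 1; ext x
    simp only [hF, zero_smul, add_zero]
  have k1 : Integrable (fun x => en U x * χ x) :=
    ((en_contDiff hU.c2).continuous.mul hχ.continuous).integrable_of_hasCompactSupport hc.mul_left
  have k2 : Integrable (fun x => C * (U x * D x)) :=
    (continuous_const.mul (hU.c2.continuous.mul hDc)).integrable_of_hasCompactSupport
      hDs.mul_left.mul_left
  rw [integral_add k1 k2, hF0] at hfin
  have k3 : (∫ x, C * (U x * D x)) - ∫ x, C * (u x * D x) ≤ 2 * C * ∫ x, D x := by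
    rw [← integral_sub k2 j2, ← integral_const_mul]
    apply integral_mono (k2.sub j2) (hD_i.const_mul _)
    intro x
    simp only [Pi.sub_apply]
    have b1 := abs_le.mp (hu.bd x)
    have b2 := abs_le.mp (hU.bd x)
    have b3 : 0 ≤ C * D x := mul_nonneg hC0 (hD0 x)
    (clear * - C U x D u b1 b3 b2; nlinarith only [b1, b3, b2])
  linarith only [hfin, k3]

lemma slab_dir {F : (Fin n → ℝ) → ℝ} (hF : Continuous F) (hF0 : ∀ x, 0 ≤ F x) (hq : q ∉ S)
    (heq : e q ≠ 0) (he : ∀ i, i ∉ S → i ≠ q → e i = 0)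
    (hinv : ∀ x (t : ℝ), F (x + t • e) = F x) (hR : 0 < R) (hRM : R ≤ M) :
    ∫ x in bxL S M R, F x
      ≤ (R / M) * ∫ x in bxL (insert q S) ((1 + ∑ i, |e i| / |e q|) * M) R, F x := by
  have hM : 0 < M := by linarith
  have hMR : 0 < M / R := by (clear * - hM hR; positivity)
  have hMR1 : 1 ≤ M / R := (one_le_div hR).mpr hRM
  set c : ℝ := (M / R - 1) / e q with hc
  set f : (Fin n → ℝ) →ₗ[ℝ] ℝ := c • LinearMap.proj q with hf
  set T : (Fin n → ℝ) →ₗ[ℝ] (Fin n → ℝ) := LinearMap.transvection f e with hT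
  have hdet : LinearMap.det T = M / R := by
    rw [hT, LinearMap.transvection.det, hf]
    simp only [LinearMap.smul_apply, LinearMap.proj_apply, smul_eq_mul, hc]
    field_simp
    ring
  have hTx : ∀ x, T x = x + (c * x q) • e := by
    intro x
    rw [hT, LinearMap.transvection.apply, hf]
    simp
  have hTc : Continuous T := T.continuous_of_finiteDimensional
  have hFT : ∀ x, F (T x) = F x := fun x => by rw [hTx, hinv]
  set K : ℝ := 1 + ∑ i, |e i| / |e q| with hK
  have heq' : 0 < |e q| := abs_pos.mpr heq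
  have hsum : ∀ i, |e i| / |e q| ≤ ∑ i, |e i| / |e q| := fun i =>
    Finset.single_le_sum (f := fun i => |e i| / |e q|) (fun _ _ => by (clear * - heq; positivity))
      (Finset.mem_univ i)
  have hpre : ∀ x ∈ bxL S M R, T x ∈ bxL (insert q S) (K * M) R := by
    intro x hx
    rw [mem_bxL] at hx ⊢
    have hxq := hx q
    rw [if_neg hq] at hxq
    intro i
    rw [hTx, Pi.add_apply, Pi.smul_apply, smul_eq_mul]
    have hcx : |c * x q * e i| ≤ M * (|e i| / |e q|) := by
      rw [hc, abs_mul, abs_mul, abs_div, abs_of_nonneg (by linarith only [hMR1] : 0 ≤ M / R - 1)]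
      calc (M / R - 1) / |e q| * |x q| * |e i| ≤ (M / R) / |e q| * R * |e i| := by
            gcongr
            linarith only []
        _ = M * (|e i| / |e q|) := by (clear * - hR heq hM; field_simp)
    by_cases hiq : i = q
    · subst hiq
      rw [if_pos (Finset.mem_insert_self _ _)]
      have h1 : x i + c * x i * e i = (M / R) * x i := by
        rw [hc]; field_simp; ring
      rw [h1, abs_mul, abs_of_pos hMR]
      calc M / R * |x i| ≤ M / R * R := by (clear * - hxq hM hR; gcongr)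
        _ = 1 * M := by (clear * - hR hM; field_simp)
        _ ≤ K * M := by
            apply mul_le_mul_of_nonneg_right _ hM.le
            have := Finset.sum_nonneg (s := (Finset.univ : Finset (Fin n)))
              (f := fun j => |e j| / |e i|) (fun _ _ => by (clear * - heq; positivity))
            rw [hK]; linarith only [this]
    · by_cases hiS : i ∈ S
      · rw [if_pos (Finset.mem_insert_of_mem hiS)]
        have h2 := hx i
        rw [if_pos hiS] at h2
        calc |x i + c * x q * e i| ≤ |x i| + |c * x q * e i| := abs_add_le _ _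
          _ ≤ M + M * (|e i| / |e q|) := add_le_add h2 hcx
          _ ≤ M + M * ∑ i, |e i| / |e q| := by
              have := hsum i
              (clear * - this hM; gcongr)
          _ = K * M := by rw [hK]; ring
      · have h3 : i ∉ insert q S := by
          rw [Finset.mem_insert]; (clear * - hiq hiS; tauto)
        rw [if_neg h3, he i hiS hiq, mul_zero, add_zero]
        have h2 := hx i
        rwa [if_neg hiS] at h2
  have hmap := Measure.map_linearMap_addHaar_eq_smul_addHaar
    (volume : Measure (Fin n → ℝ)) (f := T) (by rw [hdet]; exact hMR.ne')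
  set B := bxL (insert q S) (K * M) R with hB
  have hBm : MeasurableSet B := isCompact_bxL.measurableSet
  have h1 : ∫ x in T ⁻¹' B, F x = (R / M) * ∫ x in B, F x := by
    have h2 := setIntegral_map (μ := (volume : Measure (Fin n → ℝ))) hBm
      (f := F) hF.aestronglyMeasurable hTc.measurable.aemeasurable
    simp_rw [hFT] at h2
    rw [← h2, hmap, Measure.restrict_smul, integral_smul_measure, hdet,
      abs_of_pos (inv_pos.mpr hMR), ENNReal.toReal_ofReal (inv_pos.mpr hMR).le, smul_eq_mul,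
      inv_div]
  rw [← h1]
  have hTB : IntegrableOn F (T ⁻¹' B) := by
    have hinj : Function.Injective T := by
      have hu : IsUnit (LinearMap.det T) := by rw [hdet]; exact hMR.ne'.isUnit
      exact ((LinearMap.isUnit_iff_isUnit_det T).mpr hu |> fun h =>
        (Module.End.isUnit_iff T).mp h).injective
    have hemb : Topology.IsClosedEmbedding T :=
      LinearMap.isClosedEmbedding_of_injective (LinearMap.ker_eq_bot.mpr hinj)
    exact hF.continuousOn.integrableOn_compact (hemb.isCompact_preimage isCompact_bxL)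
  exact setIntegral_mono_set hTB (Eventually.of_forall hF0)
    (LE.le.eventuallyLE fun x hx => hpre x hx)

lemma meanDef_slab_dir (hu : Sol U) (hq : q ∉ S) (heq : e q ≠ 0)
    (he : ∀ i, i ∉ S → i ≠ q → e i = 0) (hinv : ∀ x (t : ℝ), U (x + t • e) = U x)
    (h : MeanDef U (insert q S)) : MeanDef U S := by
  intro ρ ε hε
  set r : ℝ := max ρ 1 with hr
  have hr1 : 1 ≤ r := le_max_right _ _
  have hr0 : 0 < r := by linarith
  set K : ℝ := 1 + ∑ i, |e i| / |e q| with hK
  have hK1 : 1 ≤ K := by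
    have : 0 ≤ ∑ i, |e i| / |e q| := Finset.sum_nonneg fun _ _ => by (clear * - heq; positivity)
    linarith only [this]
  have hK0 : 0 < K := by linarith only [hK1]
  obtain ⟨M0, hM0⟩ := h r (ε / (r * K ^ (S.card + 1))) (by (clear * - hε heq; positivity))
  refine ⟨max M0 r, fun M hM => ?_⟩
  have hM1 : r ≤ M := (le_max_right _ _).trans hM
  have hMpos : 0 < M := by linarith only [hr1, hM1]
  have hKM : M ≤ K * M := le_mul_of_one_le_left hMpos.le hK1
  have h1 := hM0 (K * M) (((le_max_left _ _).trans hM).trans hKM)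
  have hFc := hu.psi_defi_continuous
  have hsh : ∀ (t : ℝ), (fun y => U (y + t • e)) = U := fun t => funext fun y => hinv y t
  have hinvF : ∀ x (t : ℝ), psi U (x + t • e) * defi U (x + t • e)
      = psi U x * defi U x := by
    intro x t
    have e1 : psi U (x + t • e) = psi U x := by
      unfold psi; rw [hinv]
    have e2 : ∀ j, pd j U (x + t • e) = pd j U x := by
      intro j
      have h3 := congrFun (pd_shift_fun U (t • e) j) x
      rw [hsh] at h3
      exact h3.symm
    rw [e1]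
    unfold defi
    simp_rw [e2, e1]
  have h2 := slab_dir hFc (fun x => hu.psi_mul_defi_nonneg x) hq heq he hinvF hr0 hM1
  rw [Finset.card_insert_of_notMem hq] at h1
  calc ∫ x in bxL S M ρ, psi U x * defi U x ≤ ∫ x in bxL S M r, psi U x * defi U x := by
        apply setIntegral_mono_set
        · exact hFc.continuousOn.integrableOn_compact isCompact_bxL
        · exact Eventually.of_forall fun x => hu.psi_mul_defi_nonneg x
        · exact LE.le.eventuallyLE (bxL_subset le_rfl (le_max_left _ _))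
    _ ≤ _ := h2
    _ ≤ (r / M) * (ε / (r * K ^ (S.card + 1)) * (K * M) ^ (S.card + 1)) :=
        mul_le_mul_of_nonneg_left h1 (by (clear * - hMpos; positivity))
    _ = ε * M ^ S.card := by
        rw [mul_pow, pow_succ M]; (clear * - hr1 hMpos hK1 hε; field_simp)

theorem growth_transfer_dir (hu : Sol u) (hpos : ∀ x, 0 < dd e u x) (hU : Sol U) (hn : 0 < n)
    (hlim : ∀ x, Tendsto (fun t : ℝ => u (x + t • e)) atTop (𝓝 (U x)))
    (hlim' : ∀ x i, Tendsto (fun t : ℝ => pd i u (x + t • e)) atTop (𝓝 (pd i U x)))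
    (hcard : (Sᶜ).card ≤ 3) (h : Growth U S) : Growth u S := by
  obtain ⟨C, hC0, hC1, hC2, -⟩ := hu.exists_bound
  obtain ⟨C', hC'1, hC'⟩ := exists_th_bound
  obtain ⟨K, hK0, hK⟩ := h
  have hn' : (0:ℝ) < n := by exact_mod_cast hn
  have hn1 : (1:ℝ) ≤ n := by exact_mod_cast hn
  refine ⟨4 * (K * (2 * n) ^ (S.card + 2) / 2 + 12 * C * C' * (4 * n) ^ S.card * (4 * n) ^ 3),
    by (clear * - hK0 hn hC0 hC'1; positivity), fun R hR1 => ?_⟩
  have hR : 0 < R := by linarith only [hR1]
  obtain ⟨M0, hM0⟩ := hK (2 * (n * R)) (by (clear * - n R hn' hn1 hR1; nlinarith only [hn1, hR1]))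
  refine ⟨max (max M0 R) 1, fun M hM => ?_⟩
  have hM1 : 1 ≤ M := (le_max_right _ _).trans hM
  have hRM : R ≤ M := (le_max_right _ _).trans ((le_max_left _ _).trans hM)
  have hMM0 : M0 ≤ M := (le_max_left _ _).trans ((le_max_left _ _).trans hM)
  have hMpos : 0 < M := by linarith only [hM1]
  have hχ : ContDiff ℝ 1 (cut2 S M R) := cut2_contDiff
  have hcχ : HasCompactSupport (cut2 S M R) := cut2_hasCompactSupport hMpos hR hn
  have hcmp := energy_comparison_dir hu hC1 hC2 hC0.le hpos hU hlim hlim' hχ hcχ cut2_nonneg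
  have hcu : Continuous (fun x => psi u x ^ 2) := hu.psi_contDiff.continuous.pow 2
  have hcU : Continuous (fun x => psi U x ^ 2) := hU.psi_contDiff.continuous.pow 2
  have hlow : (1 / 4) * ∫ x in bxL S M R, psi u x ^ 2 ≤ ∫ x, en u x * cut2 S M R x := by
    rw [← integral_mul_ind isCompact_bxL.measurableSet, ← integral_const_mul]
    apply integral_mono_of_nonneg
    · exact Eventually.of_forall fun x => mul_nonneg (by norm_num)
        (mul_nonneg (sq_nonneg _) (ind_nonneg _ _))
    · exact ((en_contDiff hu.c2).continuous.mul hχ.continuous).integrable_of_hasCompactSupport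
        hcχ.mul_left
    · refine Eventually.of_forall fun x => ?_
      simp only []
      by_cases hx : x ∈ bxL S M R
      · rw [ind_mem hx, cut2_eq_one hMpos hR hn hx]
        have := en_ge u x
        linarith only [this]
      · rw [ind_notMem hx]
        simp only [mul_zero]
        exact mul_nonneg (en_nonneg _ _) (cut2_nonneg _)
  have hup1 : ∫ x, en U x * cut2 S M R x ≤ K * (2 * n) ^ (S.card + 2) / 2 * M ^ S.card * R ^ 2 := by
    have h1 : ∫ x, en U x * cut2 S M R x
        ≤ ∫ x, (1 / 2) * (psi U x ^ 2 * ind (bxL S (2 * (n * M)) (2 * (n * R))) x) := by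
      apply integral_mono_of_nonneg
      · exact Eventually.of_forall fun x => mul_nonneg (en_nonneg _ _) (cut2_nonneg _)
      · exact (integrable_mul_ind hcU isCompact_bxL).const_mul _
      · refine Eventually.of_forall fun x => ?_
        simp only []
        by_cases hx : x ∈ bxL S (2 * (n * M)) (2 * (n * R))
        · rw [ind_mem hx]
          have h2 := hU.en_le x
          have h3 := cut2_le_one (S := S) (M := M) (R := R) x
          have h4 := en_nonneg U x
          have h5 : en U x * cut2 S M R x ≤ en U x * 1 := mul_le_mul_of_nonneg_left h3 h4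
          (clear * - n U x S M R h2 h5; linarith only [h2, h5])
        · rw [ind_notMem hx, cut2_eq_zero hMpos hR hn hx]; simp
    rw [integral_const_mul, integral_mul_ind isCompact_bxL.measurableSet] at h1
    have h2 := hM0 (2 * (n * M)) (by (clear * - M0 n M hn' hn1 hMM0 hM1; nlinarith only [hn1, hMM0, hM1]))
    calc _ ≤ _ := h1
      _ ≤ 1 / 2 * (K * (2 * (n * M)) ^ S.card * (2 * (n * R)) ^ 2) := by (clear * - h2; gcongr)
      _ = _ := by rw [pow_add, mul_pow 2 (n * M), mul_pow (n:ℝ) M, mul_pow (2:ℝ) n]; ring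
  have hup2 : ∫ x, ∑ j, |pd j (cut2 S M R) x|
      ≤ 6 * C' * (4 * n) ^ S.card * (4 * n) ^ 3 * M ^ S.card * R ^ 2 := by
    have h1 : ∫ x, ∑ j, |pd j (cut2 S M R) x|
        ≤ ∫ x, (6 * C' / R) * ind (bxL S (2 * (n * M)) (2 * (n * R))) x := by
      apply integral_mono_of_nonneg
      · exact Eventually.of_forall fun x => Finset.sum_nonneg fun _ _ => abs_nonneg _
      · exact integrable_mul_ind continuous_const isCompact_bxL
      · refine Eventually.of_forall fun x => ?_
        simp only []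
        by_cases hx : x ∈ bxL S (2 * (n * M)) (2 * (n * R))
        · rw [ind_mem hx, mul_one]
          have h2 : ∀ j ∈ (Finset.univ : Finset (Fin n)),
              |pd j (cut2 S M R) x| ≤ 6 * C' / (n * R) :=
            fun j _ => pd_cut2_le hC' hR hRM hn x
          refine (Finset.sum_le_sum h2).trans (le_of_eq ?_)
          rw [Finset.sum_const, Finset.card_univ, Fintype.card_fin, nsmul_eq_mul]
          (clear * - hn hR1 hC'1; field_simp)
        · rw [ind_notMem hx, mul_zero]
          apply le_of_eq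
          apply Finset.sum_eq_zero
          intro j _
          rw [pd_cut2_eq_zero hMpos hR hn hx, abs_zero]
    rw [integral_mul_ind (F := fun _ => 6 * C' / R) isCompact_bxL.measurableSet,
      setIntegral_const, smul_eq_mul] at h1
    have h2 : (volume.real (bxL S (2 * (n * M)) (2 * (n * R))))
        = (2 * (2 * (n * M))) ^ S.card * (2 * (2 * (n * R))) ^ (Sᶜ).card :=
      volume_bxL (by (clear * - hn hM1; positivity)) (by positivity)
    rw [h2] at h1
    have h3 : (2 * (2 * (n * R))) ^ (Sᶜ).card ≤ (4 * n) ^ 3 * R ^ 3 := by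
      rw [← mul_pow]
      calc (2 * (2 * (n * R))) ^ (Sᶜ).card = (4 * n * R) ^ (Sᶜ).card := by
            congr 1; ring
        _ ≤ (4 * n * R) ^ 3 := by
            apply pow_le_pow_right₀ _ hcard
            (clear * - n R hn' hn1 hR1; nlinarith only [hn1, hR1])
    calc _ ≤ _ := h1
      _ ≤ (2 * (2 * (n * M))) ^ S.card * ((4 * n) ^ 3 * R ^ 3) * (6 * C' / R) := by (clear * - h3 hn hM1 hC'1 hR1; gcongr)
      _ = _ := by
          rw [show 2 * (2 * ((n:ℝ) * M)) = (4 * n) * M by ring, mul_pow (4 * (n:ℝ)) M]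
          (clear * - hC'1 hR1 hM1 hn; field_simp)
  have h5 : (1 / 4) * ∫ x in bxL S M R, psi u x ^ 2
      ≤ K * (2 * n) ^ (S.card + 2) / 2 * M ^ S.card * R ^ 2
        + 2 * C * (6 * C' * (4 * n) ^ S.card * (4 * n) ^ 3 * M ^ S.card * R ^ 2) := by
    refine hlow.trans (hcmp.trans ?_)
    apply add_le_add hup1
    exact mul_le_mul_of_nonneg_left hup2 (by positivity)
  have h6 : ∫ x in bxL S M R, psi u x ^ 2 = 4 * ((1 / 4) * ∫ x in bxL S M R, psi u x ^ 2) := by
    ring
  rw [h6]
  calc 4 * ((1 / 4) * ∫ x in bxL S M R, psi u x ^ 2) ≤ 4 * _ :=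
        mul_le_mul_of_nonneg_left h5 (by norm_num)
    _ = _ := by ring

/-- Vanishing mean deficit: averaging over all but three directions, oblique version. -/
theorem meanDef_of_dir (hu : Sol u) (hpos : ∀ x, 0 < dd e u x) (hqS : q ∉ S) (heq : e q ≠ 0)
    (he : ∀ i, i ∉ S → i ≠ q → e i = 0) (hcard : (Sᶜ).card ≤ 3) : MeanDef u S := by
  have hn : 0 < n := Fin.pos q
  obtain ⟨U, hU, hlim, hlim', hinv⟩ := DStab.exists_profile_dir hu hpos
  have hc2 : ((insert q S)ᶜ).card ≤ 2 := by
    have h1 : (insert q S).card = S.card + 1 := Finset.card_insert_of_notMem hqS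
    rw [Finset.card_compl, Fintype.card_fin] at hcard ⊢
    omega
  have g1 : Growth U (insert q S) := growth_of_card hU.toSol hc2
  have m1 : MeanDef U (insert q S) := meanDef_of_growth hU hn g1
  have m2 : MeanDef U S := meanDef_slab_dir hU.toSol hqS heq he hinv m1
  have g2 : Growth U S := growth_of_meanDef hU.toSol hn hcard m2
  have g3 : Growth u S := growth_transfer_dir hu hpos hU.toSol hn hlim hlim' hcard g2
  exact meanDef_of_growth (DStab.of_dir hu hpos) hn g3

end Vale.Agent.P134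
end
end

section

section

open MeasureTheory Filter Topology

namespace Vale.Agent.P134

variable {n : ℕ} {u U w η χ : (Fin n → ℝ) → ℝ} {x : Fin n → ℝ} {i j : Fin n} {q : Fin n}
  {Λ S : Finset (Fin n)} {M R : ℝ} {e : Fin n → ℝ}

/-- Translates which are locally uniformly close to `u` have almost the same local deficit. -/
lemma exists_close (hu : Sol u) (x0 : Fin n → ℝ) {c : ℝ}
    (hc : c < ∫ y in box n 1, psi u (x0 + y) * defi u (x0 + y)) :
    ∃ k : ℕ, ∀ τ : Fin n → ℝ, (∀ x, ‖x‖ ≤ k → |u (x + τ) - u x| ≤ 1 / ((k : ℝ) + 1)) →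
      c ≤ ∫ y in box n 1, psi u (x0 + τ + y) * defi u (x0 + τ + y) := by
  by_contra hcon
  push Not at hcon
  choose τ hτ1 hτ2 using hcon
  set F : ℕ → (Fin n → ℝ) → ℝ := fun k y => u (y + τ k) with hF
  have hFS : ∀ k, Sol (F k) := fun k => hu.shift _
  have hlim : ∀ x, Tendsto (fun k => F k x) atTop (𝓝 (u x)) := by
    intro x
    rw [tendsto_iff_norm_sub_tendsto_zero]
    have L2 : Tendsto (fun k : ℕ => 1 / (((k : ℕ) : ℝ) + 1)) atTop (𝓝 0) :=
      tendsto_one_div_add_atTop_nhds_zero_nat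
    refine tendsto_of_tendsto_of_tendsto_of_le_of_le' tendsto_const_nhds L2
      (Eventually.of_forall fun k => norm_nonneg _) ?_
    obtain ⟨m, hm⟩ := exists_nat_ge ‖x‖
    filter_upwards [eventually_ge_atTop m] with k hk
    exact hτ1 k x (hm.trans (by exact_mod_cast hk))
  obtain ⟨-, h1, -⟩ := Sol.of_tendsto hFS hlim
  have e1 : ∀ k y, psi (F k) y = psi u (y + τ k) := fun k y => rfl
  have e2 : ∀ k y, defi (F k) y = defi u (y + τ k) := by
    intro k y
    unfold defi
    rw [e1]
    simp only [hF]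
    simp_rw [pd_shift_fun]
  have L1 : Tendsto (fun k => ∫ y in box n 1, psi (F k) (x0 + y) * defi (F k) (x0 + y)) atTop
      (𝓝 (∫ y in box n 1, psi u (x0 + y) * defi u (x0 + y))) := by
    apply tendsto_integral_filter_of_dominated_convergence (fun _ => (1:ℝ))
    · refine Eventually.of_forall fun k => Continuous.aestronglyMeasurable ?_
      exact (hFS k).psi_defi_continuous.comp (continuous_const.add continuous_id)
    · refine Eventually.of_forall fun k => Eventually.of_forall fun y => ?_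
      rw [Real.norm_eq_abs, abs_of_nonneg ((hFS k).psi_mul_defi_nonneg _)]
      exact (hFS k).psi_mul_defi_le _
    · exact integrableOn_const (isCompact_box _).measure_lt_top.ne
    · refine Eventually.of_forall fun y => ?_
      exact (tendsto_psi (hlim _)).mul (tendsto_defi (hlim _) (h1 _))
  have h2 : ∫ y in box n 1, psi u (x0 + y) * defi u (x0 + y) ≤ c := by
    apply le_of_tendsto L1
    refine Eventually.of_forall fun k => ?_
    refine le_trans (le_of_eq ?_) (hτ2 k).le
    congr 1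
    ext y
    rw [e1, e2, add_right_comm]
  linarith

/-- Recurrence along the long directions forces the deficit to vanish. -/
theorem defi_zero_of_rec (hu : Sol u) (hmd : MeanDef u S)
    (hrec : ∀ ε : ℝ, 0 < ε → ∀ R : ℝ, ∃ L : ℝ, ∀ v : Fin n → ℝ, (∀ i, i ∉ S → v i = 0) →
      ∃ τ : Fin n → ℝ, ‖τ - v‖ ≤ L ∧ ∀ x, ‖x‖ ≤ R → |u (x + τ) - u x| ≤ ε) :
    ∀ x, psi u x * defi u x = 0 := by
  intro x0
  by_contra hne
  set f : (Fin n → ℝ) → ℝ := fun x => psi u x * defi u x with hf
  have hfc : Continuous f := hu.psi_defi_continuous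
  have hf0 : ∀ x, 0 ≤ f x := fun x => hu.psi_mul_defi_nonneg x
  -- local integral is positive
  set I : ℝ := ∫ y in box n 1, f (x0 + y) with hI
  have hIpos : 0 < I := by
    have hcont : Continuous (fun y => f (x0 + y)) := by fun_prop
    have hio : IntegrableOn (fun y => f (x0 + y)) (box n 1) :=
      hcont.continuousOn.integrableOn_compact (isCompact_box _)
    rw [hI, setIntegral_pos_iff_support_of_nonneg_ae
      (Eventually.of_forall fun y => hf0 _) hio]
    have hopen : IsOpen (Function.support (fun y => f (x0 + y)) ∩ interior (box n 1)) :=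
      (hcont.isOpen_support).inter isOpen_interior
    have hmem : (0 : Fin n → ℝ) ∈ Function.support (fun y => f (x0 + y)) ∩ interior (box n 1) := by
      refine ⟨?_, ?_⟩
      · rw [Function.mem_support, add_zero]; exact hne
      · unfold box
        rw [← Set.pi_univ_Icc, interior_pi_set Set.finite_univ]
        intro i _
        rw [interior_Icc]
        constructor <;> norm_num
    refine lt_of_lt_of_le (hopen.measure_pos volume ⟨0, hmem⟩) (measure_mono ?_)
    exact Set.inter_subset_inter_right _ interior_subset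
  obtain ⟨k, hk⟩ := exists_close hu x0 (c := I / 2) (by rw [← hI]; linarith)
  obtain ⟨L, hL⟩ := hrec (1 / ((k : ℝ) + 1)) (by (clear * -; positivity)) k
  set r : ℝ := ‖x0‖ + |L| + 2 with hr
  have hr0 : 0 ≤ r := by (clear * -; positivity)
  set V : ℝ := (2 * r) ^ n with hV
  have hV0 : 0 ≤ V := by (clear * -; positivity)
  obtain ⟨M0, hM0⟩ := hmd (1 + r) (I / (4 * (V + 1))) (by (clear * - hIpos; positivity))
  set M : ℝ := max M0 (max r 1) with hM
  have hMM0 : M0 ≤ M := le_max_left _ _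
  have hMr : r ≤ M := (le_max_left _ _).trans (le_max_right _ _)
  have hM1 : 1 ≤ M := (le_max_right _ _).trans (le_max_right _ _)
  have hlow : ∀ z ∈ bxL S M 1, I / 2 ≤ ∫ y in box n r, f (z + y) := by
    intro z hz
    rw [mem_bxL] at hz
    set v : Fin n → ℝ := fun i => if i ∈ S then z i else 0 with hv
    obtain ⟨τ, hτ1, hτ2⟩ := hL v (fun i hi => by simp [hv, hi])
    have h1 := hk τ hτ2
    refine h1.trans ?_
    have h2 := setIntegral_shift_le (f := fun y => f (z + y)) (by fun_prop) (fun y => hf0 _)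
      (isCompact_box (n := n) 1) (isCompact_box (n := n) r) (x0 + τ - z) (by
        intro y hy
        rw [mem_box] at hy ⊢
        intro i
        have a1 : |x0 i| ≤ ‖x0‖ := norm_le_pi_norm x0 i
        have a2 : |τ i - v i| ≤ |L| := by
          have := norm_le_pi_norm (τ - v) i
          rw [Pi.sub_apply, Real.norm_eq_abs] at this
          exact this.trans (hτ1.trans (le_abs_self _))
        have a3 : |v i - z i| ≤ 1 := by
          by_cases hi : i ∈ S
          · simp only [hv, hi, ↓reduceIte, sub_self, abs_zero, zero_le_one]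
          · have := hz i
            rw [if_neg hi] at this
            simp only [hv, if_neg hi, zero_sub, abs_neg]
            exact this
        have a4 := hy i
        have e3 : (y + (x0 + τ - z)) i = y i + x0 i + (τ i - v i) + (v i - z i) := by
          simp only [Pi.add_apply, Pi.sub_apply]; ring
        rw [e3]
        calc |y i + x0 i + (τ i - v i) + (v i - z i)|
            ≤ |y i| + |x0 i| + |τ i - v i| + |v i - z i| := by
              refine (abs_add_le _ _).trans ?_
              gcongr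
              refine (abs_add_le _ _).trans ?_
              gcongr
              exact abs_add_le _ _
          _ ≤ r := by rw [hr]; linarith only [a1, a2, a3, a4])
    refine le_trans (le_of_eq ?_) h2
    congr 1
    ext y
    simp only [hf]
    rw [show z + (y + (x0 + τ - z)) = x0 + τ + y by abel]
  have hconv := conv_le hfc hf0 (isCompact_bxL (Λ := S) (M := M) (R := 1))
    (isCompact_box (n := n) r) (isCompact_bxL (Λ := S) (M := M + r) (R := 1 + r)) (by
      intro z hz y hy
      rw [mem_bxL] at hz ⊢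
      rw [mem_box] at hy
      intro i
      have h1 := hz i
      have h2 := hy i
      rw [Pi.add_apply]
      refine (abs_add_le _ _).trans ?_
      split_ifs at h1 ⊢ <;> linarith only [h2, h1])
  have hint : (2 * M) ^ S.card * 2 ^ (Sᶜ).card * (I / 2)
      ≤ ∫ z in bxL S M 1, ∫ y in box n r, f (z + y) := by
    calc (2 * M) ^ S.card * 2 ^ (Sᶜ).card * (I / 2) = ∫ _z in bxL S M 1, (I / 2) := by
          rw [setIntegral_const, smul_eq_mul]
          congr 1
          have := volume_bxL (Λ := S) (M := M) (R := 1) (by linarith only [hM1]) (by norm_num)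
          rw [mul_one] at this
          exact this.symm
      _ ≤ _ := by
          apply setIntegral_mono_on
          · exact integrableOn_const isCompact_bxL.measure_lt_top.ne
          · exact (continuous_setIntegral_shift hfc
              (isCompact_box _)).continuousOn.integrableOn_compact isCompact_bxL
          · exact isCompact_bxL.measurableSet
          · exact hlow
  have hdef := hM0 (M + r) (by linarith only [hr0, hMM0])
  rw [volume_box hr0, ← hV] at hconv
  have h3 : (M + r) ^ S.card ≤ (2 * M) ^ S.card := by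
    apply pow_le_pow_left₀ (by (clear * -; positivity))
    linarith only [hMr]
  have h4 : (2 * M) ^ S.card * 2 ^ (Sᶜ).card * (I / 2)
      ≤ V * (I / (4 * (V + 1)) * (2 * M) ^ S.card) := by
    refine hint.trans (hconv.trans ?_)
    gcongr
    refine hdef.trans ?_
    (clear * - h3 hIpos; gcongr)
  have h5 : 0 < (2 * M) ^ S.card := by (clear * -; positivity)
  have h6 : V * (I / (4 * (V + 1))) ≤ I / 4 := by
    rw [← mul_div_assoc, div_le_div_iff₀ (by (clear * -; positivity)) (by norm_num)]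
    (clear * - V I n x0 L r hIpos; linarith)
  have h7 : (1:ℝ) ≤ 2 ^ (Sᶜ).card := one_le_pow₀ (by norm_num)
  have h8 : (2 * M) ^ S.card * (I / 2) ≤ (2 * M) ^ S.card * 2 ^ (Sᶜ).card * (I / 2) := by
    apply mul_le_mul_of_nonneg_right _ (by (clear * - hIpos; positivity))
    exact le_mul_of_one_le_right h5.le h7
  have h9 : V * (I / (4 * (V + 1)) * (2 * M) ^ S.card) ≤ (2 * M) ^ S.card * (I / 4) := by
    calc V * (I / (4 * (V + 1)) * (2 * M) ^ S.card)
        = (2 * M) ^ S.card * (V * (I / (4 * (V + 1)))) := by ring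
      _ ≤ _ := by (clear * - h6; gcongr)
  have h10 : (2 * M) ^ S.card * (I / 2) ≤ (2 * M) ^ S.card * (I / 4) := h8.trans (h4.trans h9)
  have h11 := le_of_mul_le_mul_left h10 h5
  (clear * - I hIpos h11; linarith only [hIpos, h11])

/-- A monotone function cannot be uniformly recurrent along its direction of monotonicity. -/
theorem not_rec_dir (hu : Sol u) (hpos : ∀ x, 0 < dd e u x)
    (hrec : ∀ ε : ℝ, 0 < ε → ∀ R : ℝ, ∃ L : ℝ, ∀ t : ℝ,
      ∃ τ : Fin n → ℝ, ‖τ - t • e‖ ≤ L ∧ ∀ x, ‖x‖ ≤ R → |u (x + τ) - u x| ≤ ε) : False := by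
  have du : Differentiable ℝ u := hu.c2.differentiable (by norm_num)
  have hmono : ∀ x, StrictMono (fun t : ℝ => u (x + t • e)) := by
    intro x
    apply strictMono_of_deriv_pos
    intro s
    rw [(hasDerivAt_dd du x e s).deriv]
    exact hpos _
  set d : ℝ := u (0 + (1:ℝ) • e) - u (0 + (0:ℝ) • e) with hd
  have hd0 : 0 < d := sub_pos.mpr (hmono 0 one_pos)
  obtain ⟨L, hL⟩ := hrec (d / 4) (by (clear * - hd0; positivity)) ‖e‖
  choose τ hτ1 hτ2 using hL
  -- the increments along the translates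
  set w : ℕ → (Fin n → ℝ) := fun k => τ k - (k : ℝ) • e with hw
  have hwb : ∀ k, w k ∈ Metric.closedBall (0 : Fin n → ℝ) L := by
    intro k
    rw [mem_closedBall_zero_iff]
    exact hτ1 k
  obtain ⟨w0, -, φ, hφ, hlimw⟩ := (isCompact_closedBall (0 : Fin n → ℝ) L).tendsto_subseq hwb
  set K : ℝ := n * (n + 1) with hK
  have hK0 : 0 ≤ K := by (clear * -; positivity)
  have hLip : ∀ a b : Fin n → ℝ, |u (a + b) - u a| ≤ K * ‖b‖ := fun a b => hu.diff_le a b
  -- convergence of the increments at w0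
  have hbdd : BddAbove (Set.range (fun t : ℝ => u (w0 + t • e))) := by
    refine ⟨1, ?_⟩
    rintro _ ⟨t, rfl⟩
    exact (abs_le.mp (hu.bd _)).2
  have hlim : Tendsto (fun t : ℝ => u (w0 + t • e)) atTop (𝓝 (⨆ t : ℝ, u (w0 + t • e))) :=
    tendsto_atTop_ciSup (hmono w0).monotone hbdd
  have hl1 : Tendsto (fun m : ℕ => u (w0 + ((φ m : ℕ) : ℝ) • e)) atTop
      (𝓝 (⨆ t : ℝ, u (w0 + t • e))) :=
    hlim.comp (tendsto_natCast_atTop_atTop.comp hφ.tendsto_atTop)
  have hl2 : Tendsto (fun m : ℕ => u (w0 + (((φ m : ℕ) : ℝ) + 1) • e)) atTop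
      (𝓝 (⨆ t : ℝ, u (w0 + t • e))) :=
    hlim.comp (tendsto_atTop_add_const_right atTop (1:ℝ)
      (tendsto_natCast_atTop_atTop.comp hφ.tendsto_atTop))
  have hl3 := hl2.sub hl1
  rw [sub_self] at hl3
  have hw0 : Tendsto (fun m => ‖w (φ m) - w0‖) atTop (𝓝 0) :=
    tendsto_iff_norm_sub_tendsto_zero.mp hlimw
  have hl4 : Tendsto (fun m => K * ‖w (φ m) - w0‖) atTop (𝓝 0) := by
    have := hw0.const_mul K
    rwa [mul_zero] at this
  have hev1 := hl3.eventually (gt_mem_nhds (show (0:ℝ) < d / 8 by (clear * - hd0; positivity)))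
  have hev2 := hl4.eventually (gt_mem_nhds (show (0:ℝ) < d / 16 by (clear * - hd0; positivity)))
  obtain ⟨m, hm1, hm2⟩ := (hev1.and hev2).exists
  set k : ℕ := φ m with hk
  have e1 : u (0 + τ k) = u (w0 + (k:ℝ) • e + (w k - w0)) := by
    congr 1
    simp only [hw]; abel
  have e2 : u ((1:ℝ) • e + τ k) = u (w0 + ((k:ℝ) + 1) • e + (w k - w0)) := by
    congr 1
    simp only [hw]
    rw [add_smul]; abel
  have b1 := hLip (w0 + (k:ℝ) • e) (w k - w0)
  have b2 := hLip (w0 + ((k:ℝ) + 1) • e) (w k - w0)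
  have b3 := hτ2 k 0 (by rw [norm_zero]; exact norm_nonneg _)
  have b4 := hτ2 k ((1:ℝ) • e) (by rw [one_smul])
  rw [← e1] at b1
  rw [← e2] at b2
  have e3 : d = u ((1:ℝ) • e) - u 0 := by rw [hd]; simp
  rw [abs_le] at b1 b2 b3 b4
  (clear * - d u n w0 k e K w τ hd0 hm1 hm2 b1 b2 b3 b4 e3; linarith only [hm1, hm2, b1, b2, b3, b4, e3])

end Vale.Agent.P134
end
end

section

section

open MeasureTheory Filter Topology

namespace Vale.Agent.P134

variable {n : ℕ} {u U V φ ψ η ξ χ : (Fin n → ℝ) → ℝ} {x : Fin n → ℝ} {i j : Fin n}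
  {S : Finset (Fin n)} {p q : Fin n}

lemma rotInv_translate (hrot : RotInv S u) (hq : q ∉ S) (τ : ℝ) :
    RotInv S (fun x => u (x + τ • Pi.single q 1)) := by
  intro j hj k hk x
  rw [pd_translate, pd_translate]
  have h := hrot j hj k hk (x + τ • Pi.single q 1)
  have hjq : j ≠ q := fun h => hq (h ▸ hj)
  have hkq : k ≠ q := fun h => hq (h ▸ hk)
  simpa only [Pi.add_apply, Pi.smul_apply, Pi.single_eq_of_ne hjq, smul_eq_mul, mul_zero, add_zero,     Pi.single_eq_of_ne hkq] using h

/-- The limit profile does not depend on the rotated variables. -/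
theorem profile_rot_zero (hS : ∀ i : Fin n, i ∈ S ∨ i = p ∨ i = q) (hp : p ∉ S) (hq : q ∉ S)
    (hpq : p ≠ q) {α : ℝ} (hα0 : 0 < α) (hα2 : α ≤ 2) (hκ : α ^ 2 < (S.card : ℝ) - 1)
    (hn : (n : ℝ) < 2 * α + 3)
    (hu : Sol u) {C : ℝ} (hC1 : ∀ x i, |pd i u x| ≤ C) (hC2 : ∀ x i j, |pd i (pd j u) x| ≤ C)
    (hrot : RotInv S u) (hpos : ∀ x, 0 < pd q u x) (hU : Sol U)
    (hlim' : ∀ x i, Tendsto (fun t : ℝ => pd i u (x + t • Pi.single q 1)) atTop (𝓝 (pd i U x)))
    (hUinv : ∀ x (t : ℝ), U (x + t • Pi.single q 1) = U x) :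
    ∀ x, ∑ i ∈ S, pd i U x ^ 2 = 0 := by
  obtain ⟨c, hc, M, hM, hgr⟩ := hardy_growth hS hp hq hα0 hα2 hκ
  have hC0 : 0 ≤ C := (abs_nonneg _).trans (hC1 0 q)
  have hUc : ∀ i, Continuous (pd i U) := fun i => (contDiff_pd_one hU.c2).continuous
  have huc : ∀ i, Continuous (pd i u) := fun i => (contDiff_pd_one hu.c2).continuous
  have hGU : Continuous (fun x => ∑ i ∈ S, pd i U x ^ 2) :=
    continuous_finsetSum _ fun i _ => (hUc i).pow 2
  have hUb : ∀ x i, |pd i U x| ≤ C := fun x i =>
    le_of_tendsto (hlim' x i).abs (Eventually.of_forall fun t => hC1 _ _)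
  have hsumb : ∀ (f : Fin n → ℝ), (∀ i, |f i| ≤ C) → ∑ i ∈ S, f i ^ 2 ≤ n * C ^ 2 := by
    intro f hf
    calc ∑ i ∈ S, f i ^ 2 ≤ ∑ i, f i ^ 2 :=
          Finset.sum_le_sum_of_subset_of_nonneg (Finset.subset_univ _) fun _ _ _ => sq_nonneg _
      _ ≤ ∑ _i : Fin n, C ^ 2 := Finset.sum_le_sum fun i _ =>
          sq_le_sq' (abs_le.mp (hf i)).1 (abs_le.mp (hf i)).2
      _ = n * C ^ 2 := by simp only [Finset.sum_const, Finset.card_univ, Fintype.card_fin, nsmul_eq_mul]
  apply vanish_of_growth_tube (G := fun x => ∑ i ∈ S, pd i U x ^ 2) hGU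
    (fun x => Finset.sum_nonneg fun _ _ => sq_nonneg _) hS hpq hq ?_ hα0 hc hn
    (M := M) (E := n * C ^ 2 * 4 ^ n)
  · intro R hR
    have hR0 : 0 < R := by linarith only [hR]
    have hstep : ∀ τ : ℝ, c * ∫ x, (∑ i ∈ S, pd i u (x + τ • Pi.single q 1) ^ 2)
        * (tst S p q α R x ^ 2 / (1 + rho S x))
        ≤ M * R ^ (-(2 * α + 2)) * ∫ x in box n (2 * R),
          ∑ i ∈ S, pd i u (x + τ • Pi.single q 1) ^ 2 := by
      intro τ
      have hv := hu.translate (τ • (Pi.single q 1 : Fin n → ℝ))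
      have hw : ∀ i, WeakLin (fun x => 3 * u (x + τ • Pi.single q 1) ^ 2 - 1)
          (pd i (fun x => u (x + τ • Pi.single q 1))) := by
        intro i
        apply hv.weakLin (C := C)
        · intro x i; rw [pd_translate]; exact hC1 _ _
        · intro x i j; rw [pd_translate', pd_translate]; exact hC2 _ _ _
      have h := hgr (fun x => u (x + τ • Pi.single q 1)) _ hv.c2 hw (rotInv_translate hrot hq τ)
        (fun x => by rw [pd_translate]; exact hpos _) R hR
      simpa only [pd_translate] using h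
    -- pass to the limit
    have hD : Continuous (fun x : Fin n → ℝ => tst S p q α R x ^ 2 / (1 + rho S x)) :=
      (tst_contDiff.continuous.pow 2).div
        (continuous_const.add (rho_contDiff (k := 0) S).continuous)
        fun x => (one_add_rho_pos S x).ne'
    have hDs : HasCompactSupport (fun x : Fin n → ℝ => tst S p q α R x ^ 2 / (1 + rho S x)) := by
      have hs2 : HasCompactSupport (fun x => tst S p q α R x ^ 2) :=
        hcs_sq (tst_hasCompactSupport hS hR0)
      exact hs2.mul_right (f' := fun x => (1 + rho S x)⁻¹)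
    have hL : Tendsto (fun τ : ℝ => ∫ x, (∑ i ∈ S, pd i u (x + τ • Pi.single q 1) ^ 2)
        * (tst S p q α R x ^ 2 / (1 + rho S x))) atTop
        (𝓝 (∫ x, (∑ i ∈ S, pd i U x ^ 2) * (tst S p q α R x ^ 2 / (1 + rho S x)))) := by
      apply tendsto_integral_filter_of_dominated_convergence
        (fun x => (n * C ^ 2) * (tst S p q α R x ^ 2 / (1 + rho S x)))
      · refine Eventually.of_forall fun τ => Continuous.aestronglyMeasurable ?_
        refine (continuous_finsetSum _ fun i _ => ?_).mul hD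
        exact ((huc i).comp (by fun_prop)).pow 2
      · refine Eventually.of_forall fun τ => Eventually.of_forall fun x => ?_
        have h1 : 0 ≤ tst S p q α R x ^ 2 / (1 + rho S x) := by
          have := one_add_rho_pos S x
          (clear * - this; positivity)
        rw [Real.norm_eq_abs, abs_mul, abs_of_nonneg h1,
          abs_of_nonneg (Finset.sum_nonneg fun _ _ => sq_nonneg _)]
        exact mul_le_mul_of_nonneg_right (hsumb _ fun i => hC1 _ _) h1
      · exact (hD.integrable_of_hasCompactSupport hDs).const_mul _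
      · filter_upwards with x
        exact (tendsto_finsetSum _ fun i _ => (hlim' x i).pow 2).mul_const _
    have hRt : Tendsto (fun τ : ℝ => ∫ x in box n (2 * R),
        ∑ i ∈ S, pd i u (x + τ • Pi.single q 1) ^ 2) atTop
        (𝓝 (∫ x in box n (2 * R), ∑ i ∈ S, pd i U x ^ 2)) := by
      apply tendsto_integral_filter_of_dominated_convergence (fun _ => (n * C ^ 2 : ℝ))
      · refine Eventually.of_forall fun τ => Continuous.aestronglyMeasurable ?_
        exact continuous_finsetSum _ fun i _ => ((huc i).comp (by fun_prop)).pow 2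
      · refine Eventually.of_forall fun τ => Eventually.of_forall fun x => ?_
        rw [Real.norm_eq_abs, abs_of_nonneg (Finset.sum_nonneg fun _ _ => sq_nonneg _)]
        exact hsumb _ fun i => hC1 _ _
      · exact integrableOn_const (by
          rw [box, Real.volume_Icc_pi]
          exact ENNReal.prod_ne_top fun i _ => ENNReal.ofReal_ne_top)
      · filter_upwards with x
        exact tendsto_finsetSum _ fun i _ => (hlim' x i).pow 2
    have h1 := le_of_tendsto_of_tendsto (hL.const_mul c) (hRt.const_mul (M * R ^ (-(2 * α + 2))))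
      (Eventually.of_forall hstep)
    refine h1.trans ?_
    have h2 : ∫ x in box n (2 * R), ∑ i ∈ S, pd i U x ^ 2 ≤ n * C ^ 2 * 4 ^ n * R ^ (n : ℝ) := by
      have h3 : ∫ x in box n (2 * R), ∑ i ∈ S, pd i U x ^ 2
          ≤ ∫ _x in box n (2 * R), (n * C ^ 2 : ℝ) := by
        apply setIntegral_mono_on
        · exact hGU.continuousOn.integrableOn_compact (isCompact_box _)
        · exact integrableOn_const (by
            rw [box, Real.volume_Icc_pi]
            exact ENNReal.prod_ne_top fun i _ => ENNReal.ofReal_ne_top)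
        · exact measurableSet_Icc
        · intro x _
          exact hsumb _ fun i => hUb x i
      refine h3.trans (le_of_eq ?_)
      rw [setIntegral_const, Measure.real, volume_box (by linarith only [hR]), smul_eq_mul,
        Real.rpow_natCast]
      rw [show 2 * (2 * R) = 4 * R by ring, mul_pow]; ring
    have h4 : 0 ≤ M * R ^ (-(2 * α + 2)) := by (clear * - hM hR; positivity)
    exact mul_le_mul_of_nonneg_left h2 h4
  · intro x t
    have : ∀ i, pd i U (x + t • Pi.single q 1) = pd i U x := by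
      intro i
      have h1 : (fun y => U (y + t • Pi.single q 1)) = U := funext fun y => hUinv y t
      rw [← pd_translate (f := U) (t • Pi.single q 1), h1]
    simp only [this]

/-- Stability passes to the limit profile. -/
theorem profile_stability (hu : Sol u) {C : ℝ} (hC1 : ∀ x i, |pd i u x| ≤ C)
    (hC2 : ∀ x i j, |pd i (pd j u) x| ≤ C) (hpos : ∀ x, 0 < pd q u x)
    (hlim : ∀ x, Tendsto (fun t : ℝ => u (x + t • Pi.single q 1)) atTop (𝓝 (U x)))
    (hξ : ContDiff ℝ 1 ξ) (hc : HasCompactSupport ξ) :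
    0 ≤ ∫ x, (∑ j, (pd j ξ x) ^ 2 + (3 * U x ^ 2 - 1) * ξ x ^ 2) := by
  have hstep : ∀ τ : ℝ, 0 ≤ ∫ x, (∑ j, (pd j ξ x) ^ 2
      + (3 * u (x + τ • Pi.single q 1) ^ 2 - 1) * ξ x ^ 2) := by
    intro τ
    have hv := hu.translate (τ • (Pi.single q 1 : Fin n → ℝ))
    have hcv := hv.c2.continuous
    have hcV : Continuous (fun x => 3 * u (x + τ • Pi.single q 1) ^ 2 - 1) :=
      (continuous_const.mul (hcv.pow 2)).sub continuous_const
    apply stability_ineq (φ := pd q (fun x => u (x + τ • Pi.single q 1)))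
      (V := fun x => 3 * u (x + τ • Pi.single q 1) ^ 2 - 1)
      (contDiff_pd_one hv.c2) (fun x => by rw [pd_translate]; exact hpos _) hcV ?_ hξ hc
    apply hv.weakLin (C := C)
    · intro x i; rw [pd_translate]; exact hC1 _ _
    · intro x i j; rw [pd_translate', pd_translate]; exact hC2 _ _ _
  have hs2 : HasCompactSupport (fun x => ξ x ^ 2) := hcs_sq hc
  have i1 : Integrable (fun x => ∑ j, (pd j ξ x) ^ 2) := by
    apply integrable_finsetSum; intro j _
    exact ((continuous_pd hξ).pow 2).integrable_of_hasCompactSupport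
      (hcs_sq (hasCompactSupport_pd hc))
  have i2 : Integrable (fun x => ξ x ^ 2) :=
    (hξ.continuous.pow 2).integrable_of_hasCompactSupport hs2
  have hL : Tendsto (fun τ : ℝ => ∫ x, (∑ j, (pd j ξ x) ^ 2
      + (3 * u (x + τ • Pi.single q 1) ^ 2 - 1) * ξ x ^ 2)) atTop
      (𝓝 (∫ x, (∑ j, (pd j ξ x) ^ 2 + (3 * U x ^ 2 - 1) * ξ x ^ 2))) := by
    apply tendsto_integral_filter_of_dominated_convergence
      (fun x => ∑ j, (pd j ξ x) ^ 2 + 2 * ξ x ^ 2)
    · refine Eventually.of_forall fun τ => Continuous.aestronglyMeasurable ?_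
      have hcv := (hu.translate (τ • (Pi.single q 1 : Fin n → ℝ))).c2.continuous
      have h1 : Continuous (fun x => ∑ j, (pd j ξ x) ^ 2) :=
        continuous_finsetSum _ fun j _ => (continuous_pd hξ).pow 2
      exact h1.add (((continuous_const.mul (hcv.pow 2)).sub continuous_const).mul
        (hξ.continuous.pow 2))
    · refine Eventually.of_forall fun τ => Eventually.of_forall fun x => ?_
      rw [Real.norm_eq_abs]
      refine (abs_add_le _ _).trans (add_le_add (le_of_eq (abs_of_nonneg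
        (Finset.sum_nonneg fun _ _ => sq_nonneg _))) ?_)
      rw [abs_mul, abs_of_nonneg (sq_nonneg (ξ x))]
      refine mul_le_mul_of_nonneg_right ?_ (sq_nonneg _)
      have hb := abs_le.mp (hu.bd (x + τ • Pi.single q 1))
      rw [abs_le]; constructor <;> nlinarith only [hb]
    · exact i1.add (i2.const_mul 2)
    · filter_upwards with x
      exact tendsto_const_nhds.add
        (((((hlim x).pow 2).const_mul 3).sub_const 1).mul_const _)
  exact ge_of_tendsto hL (Eventually.of_forall hstep)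

end Vale.Agent.P134
end
end

section

section

open MeasureTheory Filter Topology

namespace Vale.Agent.P134

variable {n : ℕ} {u U V φ ψ η ξ χ : (Fin n → ℝ) → ℝ} {x : Fin n → ℝ} {i j : Fin n}
  {S : Finset (Fin n)} {p q : Fin n}

lemma const_of_pd_zero {f : (Fin n → ℝ) → ℝ} (hf : Differentiable ℝ f)
    (h : ∀ i x, pd i f x = 0) (x y : Fin n → ℝ) : f x = f y := by
  apply is_const_of_fderiv_eq_zero hf
  intro z
  rw [fderiv_eq_sum_smul]
  simp only [h, zero_smul, Finset.sum_const_zero]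

/-- The discrepancy `|∇U|^2 / 2 - (1 - U^2)^2 / 4`. -/
noncomputable def disc (U : (Fin n → ℝ) → ℝ) (x : Fin n → ℝ) : ℝ :=
  (1 / 2) * ∑ j, pd j U x ^ 2 - (1 - U x ^ 2) ^ 2 / 4

lemma pd_one_sub_sq (hU : Differentiable ℝ U) (j : Fin n) (x : Fin n → ℝ) :
    pd j (fun y => 1 - U y ^ 2) x = -2 * U x * pd j U x := by
  have d : DifferentiableAt ℝ (fun y => U y ^ 2) x := (hU x).pow 2
  rw [pd_sub (differentiableAt_const _) d, pd_const, pd_sq (hU x)]; ring

/-- The quadratic form of the linearised operator at `(1 - U^2) η`. -/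
theorem deficit_identity (hU : Sol U) (hη : ContDiff ℝ 1 η) (hc : HasCompactSupport η) :
    ∫ x, (∑ j, (pd j (fun y => (1 - U y ^ 2) * η y) x) ^ 2
        + (3 * U x ^ 2 - 1) * ((1 - U x ^ 2) * η x) ^ 2)
      = (∫ x, (1 - U x ^ 2) ^ 2 * ∑ j, (pd j η x) ^ 2)
        + ∫ x, 4 * disc U x * (1 - U x ^ 2) * η x ^ 2 := by
  have dU : Differentiable ℝ U := hU.c2.differentiable (by norm_num)
  have cU : Continuous U := hU.c2.continuous
  have cU1 : ∀ j, ContDiff ℝ 1 (pd j U) := fun j => contDiff_pd_one hU.c2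
  have dU1 : ∀ j, Differentiable ℝ (pd j U) := fun j => (cU1 j).differentiable (by norm_num)
  set Q : (Fin n → ℝ) → ℝ := fun y => 1 - U y ^ 2 with hQ
  have hQ2 : ContDiff ℝ 2 Q := contDiff_const.sub (hU.c2.pow 2)
  have hQ1 : ContDiff ℝ 1 Q := hQ2.of_le (by norm_num)
  have pQ : ∀ j x, pd j Q x = -2 * U x * pd j U x := fun j x => pd_one_sub_sq dU j x
  have pQ' : ∀ j, pd j Q = fun x => -2 * U x * pd j U x := fun j => funext (pQ j)
  have ppQ : ∀ j x, pd j (pd j Q) x = -2 * pd j U x ^ 2 - 2 * U x * pd j (pd j U) x := by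
    intro j x
    rw [pQ' j]
    have d1 : DifferentiableAt ℝ (fun y => -2 * U y) x := (dU x).const_mul _
    rw [pd_mul d1 (dU1 j x), pd_mul (differentiableAt_const _) (dU x), pd_const]
    ring
  have lapQ : ∀ x, ∑ j, pd j (pd j Q) x
      = -2 * ∑ j, pd j U x ^ 2 - 2 * U x * (U x ^ 3 - U x) := by
    intro x
    simp_rw [ppQ]
    rw [Finset.sum_sub_distrib, ← Finset.mul_sum, ← Finset.mul_sum, hU.eq]
  set ζ : (Fin n → ℝ) → ℝ := fun y => Q y * η y ^ 2 with hζ
  have hζ1 : ContDiff ℝ 1 ζ := hQ1.mul (hη.pow 2)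
  have hζs : HasCompactSupport ζ := (hcs_sq hc).mul_left
  have hibp : ∫ x, ∑ j, pd j Q x * pd j ζ x = - ∫ x, (∑ j, pd j (pd j Q) x) * ζ x := by
    have i1 : ∀ j, Integrable (fun x => pd j Q x * pd j ζ x) := fun j =>
      ((continuous_pd hQ1).mul (continuous_pd hζ1)).integrable_of_hasCompactSupport
        (hasCompactSupport_pd hζs).mul_left
    have i2 : ∀ j, Integrable (fun x => pd j (pd j Q) x * ζ x) := fun j =>
      ((continuous_pd (contDiff_pd_one hQ2)).mul hζ1.continuous).integrable_of_hasCompactSupport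
        hζs.mul_left
    rw [integral_finsetSum _ (fun j _ => i1 j)]
    have e : ∀ j, ∫ x, pd j Q x * pd j ζ x = - ∫ x, pd j (pd j Q) x * ζ x := fun j =>
      integral_mul_pd (contDiff_pd_one hQ2) hζ1 hζs
    simp_rw [e]
    rw [Finset.sum_neg_distrib, ← integral_finsetSum _ (fun j _ => i2 j)]
    congr 1
    congr 1; ext x; rw [Finset.sum_mul]
  have hpt : ∀ x, ∑ j, (pd j (fun y => Q y * η y) x) ^ 2 + (3 * U x ^ 2 - 1) * (Q x * η x) ^ 2
      = Q x ^ 2 * ∑ j, (pd j η x) ^ 2 + (4 * disc U x * Q x * η x ^ 2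
        + (∑ j, pd j Q x * pd j ζ x + (∑ j, pd j (pd j Q) x) * ζ x)) := by
    intro x
    have dQ : DifferentiableAt ℝ Q x := hQ1.differentiable (by norm_num) x
    have dη : DifferentiableAt ℝ η x := hη.differentiable (by norm_num) x
    have dη2 : DifferentiableAt ℝ (fun y => η y ^ 2) x := dη.pow 2
    have e1 : ∀ j, (pd j (fun y => Q y * η y) x) ^ 2
        = Q x ^ 2 * (pd j η x) ^ 2 + pd j Q x * pd j ζ x := by
      intro j
      rw [pd_mul dQ dη, hζ, pd_mul dQ dη2, pd_sq dη]; ring
    have hQx : Q x = 1 - U x ^ 2 := rfl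
    rw [Finset.sum_congr rfl (fun j _ => e1 j), Finset.sum_add_distrib, ← Finset.mul_sum, lapQ]
    unfold disc
    rw [← hQx]
    simp only [hζ]
    have hU2 : U x ^ 2 = 1 - Q x := by rw [hQx]; ring
    have hU3 : U x ^ 3 - U x = - U x * Q x := by rw [hQx]; ring
    rw [hU3]
    have : U x * (-U x * Q x) = -(1 - Q x) * Q x := by rw [← hU2]; ring
    rw [show 2 * U x * (-U x * Q x) = 2 * (U x * (-U x * Q x)) by ring, this, hU2]
    ring
  have i3 : Integrable (fun x => Q x ^ 2 * ∑ j, (pd j η x) ^ 2) := by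
    have : (fun x => Q x ^ 2 * ∑ j, (pd j η x) ^ 2) = fun x => ∑ j, Q x ^ 2 * (pd j η x) ^ 2 := by
      ext x; rw [Finset.mul_sum]
    rw [this]
    apply integrable_finsetSum; intro j _
    exact ((hQ1.continuous.pow 2).mul ((continuous_pd hη).pow 2)).integrable_of_hasCompactSupport
      (hcs_sq (hasCompactSupport_pd hc)).mul_left
  have hdisc : Continuous (disc U) := by
    unfold disc
    exact (continuous_const.mul (continuous_finsetSum _ fun j _ => (cU1 j).continuous.pow 2)).sub
      ((hQ1.continuous.pow 2).div_const 4)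
  have i4 : Integrable (fun x => 4 * disc U x * Q x * η x ^ 2) :=
    (((continuous_const.mul hdisc).mul hQ1.continuous).mul
      (hη.continuous.pow 2)).integrable_of_hasCompactSupport (hcs_sq hc).mul_left
  have i5 : Integrable (fun x => ∑ j, pd j Q x * pd j ζ x) :=
    integrable_sum_mul (fun j => continuous_pd hQ1) (fun j => continuous_pd hζ1)
      (fun j => hasCompactSupport_pd hζs)
  have i6 : Integrable (fun x => (∑ j, pd j (pd j Q) x) * ζ x) :=
    ((continuous_finsetSum _ fun j _ => continuous_pd (contDiff_pd_one hQ2)).mul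
      hζ1.continuous).integrable_of_hasCompactSupport hζs.mul_left
  have e0 : ∫ x, (∑ j, (pd j (fun y => Q y * η y) x) ^ 2 + (3 * U x ^ 2 - 1) * (Q x * η x) ^ 2)
      = ∫ x, (Q x ^ 2 * ∑ j, (pd j η x) ^ 2 + (4 * disc U x * Q x * η x ^ 2
        + (∑ j, pd j Q x * pd j ζ x + (∑ j, pd j (pd j Q) x) * ζ x))) := by
    congr 1; ext x; exact hpt x
  have e2 : ∫ x, (∑ j, pd j Q x * pd j ζ x + (∑ j, pd j (pd j Q) x) * ζ x) = 0 := by
    have : ∫ x, (∑ j, pd j Q x * pd j ζ x + (∑ j, pd j (pd j Q) x) * ζ x)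
        = (∫ x, ∑ j, pd j Q x * pd j ζ x) + ∫ x, (∑ j, pd j (pd j Q) x) * ζ x :=
      integral_add i5 i6
    rw [this, hibp]; ring
  have e3 : ∫ x, (4 * disc U x * Q x * η x ^ 2
        + (∑ j, pd j Q x * pd j ζ x + (∑ j, pd j (pd j Q) x) * ζ x))
      = ∫ x, 4 * disc U x * Q x * η x ^ 2 := by
    have : ∫ x, (4 * disc U x * Q x * η x ^ 2
        + (∑ j, pd j Q x * pd j ζ x + (∑ j, pd j (pd j Q) x) * ζ x))
        = (∫ x, 4 * disc U x * Q x * η x ^ 2)
          + ∫ x, (∑ j, pd j Q x * pd j ζ x + (∑ j, pd j (pd j Q) x) * ζ x) :=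
      integral_add i4 (i5.add i6)
    rw [this, e2, add_zero]
  have e4 : ∫ x, (Q x ^ 2 * ∑ j, (pd j η x) ^ 2 + (4 * disc U x * Q x * η x ^ 2
        + (∑ j, pd j Q x * pd j ζ x + (∑ j, pd j (pd j Q) x) * ζ x)))
      = (∫ x, Q x ^ 2 * ∑ j, (pd j η x) ^ 2) + ∫ x, (4 * disc U x * Q x * η x ^ 2
        + (∑ j, pd j Q x * pd j ζ x + (∑ j, pd j (pd j Q) x) * ζ x)) :=
    integral_add i3 (i4.add (i5.add i6))
  rw [e0, e4, e3]

/-- In the one-variable case the discrepancy is constant. -/
lemma disc_const (hU : Sol U) (h0 : ∀ i, i ≠ p → ∀ x, pd i U x = 0) (x y : Fin n → ℝ) :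
    disc U x = disc U y := by
  have cU1 : ∀ j, ContDiff ℝ 1 (pd j U) := fun j => contDiff_pd_one hU.c2
  have dU : Differentiable ℝ U := hU.c2.differentiable (by norm_num)
  have hd : disc U = fun x => (1 / 2) * pd p U x ^ 2 - (1 - U x ^ 2) ^ 2 / 4 := by
    ext x
    unfold disc
    rw [Finset.sum_eq_single p (fun j _ hj => by rw [h0 j hj]; ring) (by simp only [Finset.mem_univ, not_true_eq_false, ne_eq, OfNat.ofNat_ne_zero, not_false_eq_true, pow_eq_zero_iff, IsEmpty.forall_iff])]
  have d1 : Differentiable ℝ (pd p U) := (cU1 p).differentiable (by norm_num)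
  have dd : Differentiable ℝ (disc U) := by
    rw [hd]
    (clear * - d1 dU; fun_prop)
  have hen : ∀ i x, pd i (fun x => (1 - U x ^ 2) ^ 2 / 4) x = (U x ^ 3 - U x) * pd i U x := by
    intro i x
    rw [show (fun y => (1 - U y ^ 2) ^ 2 / 4) = fun y => (fun t : ℝ => (1 - t ^ 2) ^ 2 / 4) (U y)
      from rfl, pd_comp (h := fun t : ℝ => (1 - t ^ 2) ^ 2 / 4) (by (clear * -; fun_prop)) (dU x)]
    congr 1
    have h1 : HasDerivAt (fun t : ℝ => 1 - t ^ 2) (-(2 * U x)) (U x) := by
      simpa only [Nat.cast_ofNat, Nat.add_one_sub_one, pow_one] using (hasDerivAt_pow 2 (U x)).const_sub 1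
    have h2 : HasDerivAt (fun t : ℝ => (1 - t ^ 2) ^ 2 / 4)
        ((2 * (1 - U x ^ 2) * (-(2 * U x))) / 4) (U x) := by
      have := (h1.pow 2).div_const 4
      simpa only [mul_neg, Pi.pow_apply, Nat.cast_ofNat, Nat.add_one_sub_one, pow_one] using this
    rw [h2.deriv]; ring
  apply const_of_pd_zero dd
  intro i x
  rw [hd]
  have a1 : DifferentiableAt ℝ (fun y => pd p U y ^ 2) x := (d1 x).pow 2
  have a2 : DifferentiableAt ℝ (fun y => (1 / 2 : ℝ) * pd p U y ^ 2) x := a1.const_mul _
  have a3 : DifferentiableAt ℝ (fun y => (1 - U y ^ 2) ^ 2 / 4) x := by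
    have := dU x
    fun_prop
  rw [pd_sub a2 a3, hen, pd_mul (differentiableAt_const _) a1, pd_const, pd_sq (d1 x)]
  have h2 : pd i (pd p U) x = if i = p then U x ^ 3 - U x else 0 := by
    split_ifs with hi
    · subst hi
      rw [← hU.eq x, Finset.sum_eq_single i]
      · intro j _ hj
        have : pd j U = fun _ => 0 := funext fun y => h0 j hj y
        rw [this, pd_const]
      · simp only [Finset.mem_univ, not_true_eq_false, IsEmpty.forall_iff]
    · rw [pd_comm hU.c2]
      have : pd i U = fun _ => 0 := funext fun y => h0 i hi y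
      rw [this, pd_const]
  rw [h2]
  split_ifs with hi
  · subst hi; ring
  · rw [h0 i hi]; ring

lemma volume_box_ne_top (r : ℝ) : volume (box n r) ≠ ⊤ := by
  rw [box, Real.volume_Icc_pi]
  exact ENNReal.prod_ne_top fun i _ => ENNReal.ofReal_ne_top

lemma setIntegral_box_const {r : ℝ} (hr : 0 ≤ r) (c : ℝ) :
    ∫ _x in box n r, c = c * (2 * r) ^ n := by
  rw [setIntegral_const, Measure.real, volume_box hr, smul_eq_mul, mul_comm]

/-- A stable one-variable solution has vanishing discrepancy. -/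
theorem disc_zero (hS : ∀ i : Fin n, i ∈ S ∨ i = p ∨ i = q) (hU : Sol U)
    (h0 : ∀ i, i ≠ p → ∀ x, pd i U x = 0)
    (hstab : ∀ ξ : (Fin n → ℝ) → ℝ, ContDiff ℝ 1 ξ → HasCompactSupport ξ →
      0 ≤ ∫ x, (∑ j, (pd j ξ x) ^ 2 + (3 * U x ^ 2 - 1) * ξ x ^ 2)) (x : Fin n → ℝ) :
    disc U x = 0 := by
  set k := disc U x with hk
  have hconst : ∀ y, disc U y = k := fun y => disc_const hU h0 y x
  have hdisc : ∀ y, disc U y = (1 / 2) * pd p U y ^ 2 - (1 - U y ^ 2) ^ 2 / 4 := by
    intro y
    unfold disc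
    rw [Finset.sum_eq_single p (fun j _ hj => by rw [h0 j hj]; ring) (by simp only [Finset.mem_univ, not_true_eq_false, ne_eq, OfNat.ofNat_ne_zero, not_false_eq_true, pow_eq_zero_iff, IsEmpty.forall_iff])]
  have dU : Differentiable ℝ U := hU.c2.differentiable (by norm_num)
  have cU : Continuous U := hU.c2.continuous
  rcases lt_trichotomy k 0 with hneg | hzero | hpos
  · -- negative case: stability
    exfalso
    have hQlow : ∀ y, -4 * k ≤ (1 - U y ^ 2) ^ 2 := by
      intro y
      have h1 := hconst y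
      rw [hdisc] at h1
      (clear * - k U y n p h1; nlinarith only [h1])
    have hQ01 : ∀ y, 0 ≤ 1 - U y ^ 2 ∧ 1 - U y ^ 2 ≤ 1 := by
      intro y
      have hb := abs_le.mp (hU.bd y)
      constructor <;> nlinarith only [hb]
    have hkey : ∀ η : (Fin n → ℝ) → ℝ, ContDiff ℝ 1 η → HasCompactSupport η →
        16 * k ^ 2 * ∫ x, η x ^ 2 ≤ ∫ x, ∑ j, (pd j η x) ^ 2 := by
      intro η hη hc
      have hξ : ContDiff ℝ 1 (fun y => (1 - U y ^ 2) * η y) :=
        (contDiff_const.sub ((hU.c2.of_le (by norm_num)).pow 2)).mul hη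
      have hξs : HasCompactSupport (fun y => (1 - U y ^ 2) * η y) := hc.mul_left
      have h1 := hstab _ hξ hξs
      rw [deficit_identity hU hη hc] at h1
      have i1 : Integrable (fun x => ∑ j, (pd j η x) ^ 2) := by
        apply integrable_finsetSum; intro j _
        exact ((continuous_pd hη).pow 2).integrable_of_hasCompactSupport
          (hcs_sq (hasCompactSupport_pd hc))
      have i2 : Integrable (fun x => η x ^ 2) :=
        (hη.continuous.pow 2).integrable_of_hasCompactSupport (hcs_sq hc)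
      have i3 : Integrable (fun x => (1 - U x ^ 2) ^ 2 * ∑ j, (pd j η x) ^ 2) := by
        have : (fun x => (1 - U x ^ 2) ^ 2 * ∑ j, (pd j η x) ^ 2)
            = fun x => ∑ j, (1 - U x ^ 2) ^ 2 * (pd j η x) ^ 2 := by
          ext x; rw [Finset.mul_sum]
        rw [this]
        apply integrable_finsetSum; intro j _
        exact (((continuous_const.sub (cU.pow 2)).pow 2).mul
          ((continuous_pd hη).pow 2)).integrable_of_hasCompactSupport
          (hcs_sq (hasCompactSupport_pd hc)).mul_left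
      have i4 : Integrable (fun x => 4 * disc U x * (1 - U x ^ 2) * η x ^ 2) := by
        simp_rw [hconst]
        exact (((continuous_const.mul (continuous_const.sub (cU.pow 2)))).mul
          (hη.continuous.pow 2)).integrable_of_hasCompactSupport (hcs_sq hc).mul_left
      have h2 : ∫ x, (1 - U x ^ 2) ^ 2 * ∑ j, (pd j η x) ^ 2 ≤ ∫ x, ∑ j, (pd j η x) ^ 2 := by
        apply integral_mono i3 i1
        intro x
        have hs : 0 ≤ ∑ j, (pd j η x) ^ 2 := Finset.sum_nonneg fun _ _ => sq_nonneg _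
        have hq2 : (1 - U x ^ 2) ^ 2 ≤ 1 := by
          have := hQ01 x
          (clear * - U x this; nlinarith)
        simp only
        nlinarith only [hs, hq2]
      have h3 : ∫ x, 4 * disc U x * (1 - U x ^ 2) * η x ^ 2 ≤ ∫ x, (-(16 * k ^ 2)) * η x ^ 2 := by
        apply integral_mono i4 (i2.const_mul _)
        intro x
        simp only
        rw [hconst]
        apply mul_le_mul_of_nonneg_right _ (sq_nonneg _)
        have h5 := hQlow x
        have h6 := hQ01 x
        have h7 : (1 - U x ^ 2) ^ 2 ≤ 1 - U x ^ 2 := by nlinarith only [h6]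
        (clear * - k U x hneg h5 h7; nlinarith)
      rw [integral_const_mul] at h3
      linarith
    obtain ⟨C, hC1, hC⟩ := exists_th_bound
    -- test with the cutoff functions
    have hR : ∀ R : ℝ, 1 ≤ R → 16 * k ^ 2 * (2 / (n + 1)) ^ n ≤ n * (9 * C) ^ 2 * 4 ^ n * R ^ (-2 : ℝ) := by
      intro R hR
      have hR0 : 0 < R := by linarith
      have h1 := hkey (cut S p q R) cut_contDiff (cut_hasCompactSupport hS hR0)
      set r : ℝ := R / (n + 1) with hr
      have hn : (0:ℝ) ≤ n := Nat.cast_nonneg n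
      have hr0 : 0 < r := by (clear * - hR; positivity)
      have hrR : r * (n + 1) = R := by rw [hr]; (clear * - hR; field_simp)
      have hrR' : r ≤ R := by (clear * - r R n hrR hr0; nlinarith only [hrR, hr0])
      have h2 : (2 * r) ^ n ≤ ∫ x, cut S p q R x ^ 2 := by
        have i2 : Integrable (fun x => cut S p q R x ^ 2) :=
          (cut_contDiff.continuous.pow 2).integrable_of_hasCompactSupport
            (hcs_sq (cut_hasCompactSupport hS hR0))
        calc (2 * r) ^ n = ∫ _x in box n r, (1:ℝ) := by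
              rw [setIntegral_box_const hr0.le]; ring
          _ ≤ ∫ x in box n r, cut S p q R x ^ 2 := by
              apply setIntegral_mono_on
              · exact integrableOn_const (volume_box_ne_top _)
              · exact i2.integrableOn
              · exact measurableSet_Icc
              · intro x hx
                rw [mem_box] at hx
                have hx2 : ∀ i, x i ^ 2 ≤ r ^ 2 := fun i => by
                  rw [← sq_abs]; exact pow_le_pow_left₀ (abs_nonneg _) (hx i) 2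
                have hrr : r ^ 2 ≤ R ^ 2 := pow_le_pow_left₀ hr0.le hrR' 2
                rw [cut_eq_one hR0 _ ((hx2 p).trans hrr) ((hx2 q).trans hrr)]
                · norm_num
                · unfold rho
                  calc ∑ i ∈ S, x i ^ 2 ≤ ∑ i, x i ^ 2 :=
                        Finset.sum_le_sum_of_subset_of_nonneg (Finset.subset_univ _)
                          fun _ _ _ => sq_nonneg _
                    _ ≤ ∑ _i : Fin n, r ^ 2 := Finset.sum_le_sum fun i _ => hx2 i
                    _ = n * r ^ 2 := by simp only [Finset.sum_const, Finset.card_univ, Fintype.card_fin, nsmul_eq_mul]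
                    _ ≤ R ^ 2 := by
                        rw [← hrR]; nlinarith only []
          _ ≤ ∫ x, cut S p q R x ^ 2 :=
              setIntegral_le_integral i2 (Eventually.of_forall fun x => sq_nonneg _)
      have h3 : ∫ x, ∑ j, (pd j (cut S p q R) x) ^ 2 ≤ n * (9 * C) ^ 2 * 4 ^ n * R ^ n / R ^ 2 := by
        have hz : ∀ x, x ∉ box n (2 * R) → ∑ j, (pd j (cut S p q R) x) ^ 2 = 0 := by
          intro x hx
          apply Finset.sum_eq_zero; intro j _
          rw [pd_cut_eq_zero hS hR0 hx]; ring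
        rw [← setIntegral_eq_integral_of_forall_compl_eq_zero hz]
        have hb : ∀ x, ∑ j, (pd j (cut S p q R) x) ^ 2 ≤ n * (9 * C) ^ 2 / R ^ 2 := by
          intro x
          have : ∀ j ∈ (Finset.univ : Finset (Fin n)), pd j (cut S p q R) x ^ 2
              ≤ (9 * C / R) ^ 2 := by
            intro j _
            apply sq_le_sq'
            · exact (abs_le.mp (pd_cut_bound hC hR0)).1
            · exact (abs_le.mp (pd_cut_bound hC hR0)).2
          refine (Finset.sum_le_sum this).trans (le_of_eq ?_)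
          rw [Finset.sum_const, Finset.card_univ, Fintype.card_fin, nsmul_eq_mul]
          (clear * - hR hC1; field_simp)
        have hcont : Continuous (fun x => ∑ j, (pd j (cut S p q R) x) ^ 2) :=
          continuous_finsetSum _ fun j _ => (continuous_pd cut_contDiff).pow 2
        calc ∫ x in box n (2 * R), ∑ j, (pd j (cut S p q R) x) ^ 2
            ≤ ∫ _x in box n (2 * R), (n * (9 * C) ^ 2 / R ^ 2 : ℝ) := by
              apply setIntegral_mono_on
              · exact hcont.continuousOn.integrableOn_compact (isCompact_box _)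
              · exact integrableOn_const (volume_box_ne_top _)
              · exact measurableSet_Icc
              · intro x _; exact hb x
          _ = _ := by
              rw [setIntegral_box_const (by linarith only [hR]), show 2 * (2 * R) = 4 * R by ring, mul_pow]
              ring
      have h4 : 16 * k ^ 2 * (2 * r) ^ n ≤ n * (9 * C) ^ 2 * 4 ^ n * R ^ n / R ^ 2 := by
        have : 16 * k ^ 2 * (2 * r) ^ n ≤ 16 * k ^ 2 * ∫ x, cut S p q R x ^ 2 :=
          mul_le_mul_of_nonneg_left h2 (by (clear * -; positivity))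
        (clear * - k r n C R S p q h1 h3 this; linarith)
      have h5 : (2 * r) ^ n = (2 / (n + 1)) ^ n * R ^ n := by
        rw [← mul_pow]; congr 1; rw [hr]; ring
      rw [h5] at h4
      have hRn : 0 < R ^ n := by positivity
      have h6 : R ^ (-2 : ℝ) = 1 / R ^ 2 := by
        rw [Real.rpow_neg hR0.le]; norm_num
      rw [h6]
      have h7 : (16 * k ^ 2 * (2 / (n + 1)) ^ n) * R ^ n
          ≤ (n * (9 * C) ^ 2 * 4 ^ n * (1 / R ^ 2)) * R ^ n := by
        calc _ = 16 * k ^ 2 * ((2 / (n + 1)) ^ n * R ^ n) := by ring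
          _ ≤ _ := h4
          _ = _ := by ring
      exact le_of_mul_le_mul_right h7 hRn
    have hlim : Tendsto (fun R : ℝ => n * (9 * C) ^ 2 * 4 ^ n * R ^ (-2 : ℝ)) atTop
        (𝓝 (n * (9 * C) ^ 2 * 4 ^ n * 0)) :=
      (tendsto_rpow_neg_atTop (by norm_num : (0:ℝ) < 2)).const_mul _
    rw [mul_zero] at hlim
    have h8 : 16 * k ^ 2 * (2 / ((n:ℝ) + 1)) ^ n ≤ 0 := ge_of_tendsto hlim (by
      filter_upwards [eventually_ge_atTop 1] with R hR' using hR R hR')
    have hkne : k ≠ 0 := hneg.ne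
    have hk2 : 0 < k ^ 2 := by (clear * - hkne; positivity)
    have h9 : 0 < 16 * k ^ 2 * (2 / ((n:ℝ) + 1)) ^ n := by (clear * - hkne; positivity)
    linarith only [h8, h9]
  · exact hzero
  · -- positive case: unboundedness
    exfalso
    set h : ℝ → ℝ := fun t => U (t • Pi.single p 1) with hh
    have hder : ∀ t, HasDerivAt h (pd p U (t • Pi.single p 1)) t := by
      intro t
      have := hasDerivAt_ln dU 0 p t
      simpa [hh] using this
    have hlow : ∀ y, 2 * k ≤ pd p U y ^ 2 := by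
      intro y
      have h1 := hconst y
      rw [hdisc] at h1
      (clear * - k n p U y h1; nlinarith only [h1])
    set T : ℝ := 3 / Real.sqrt (2 * k) with hT
    have hs : 0 < Real.sqrt (2 * k) := Real.sqrt_pos.mpr (by linarith only [hpos])
    have hT0 : 0 < T := by (clear * - hpos; positivity)
    obtain ⟨c, _, hc⟩ := exists_hasDerivAt_eq_slope h (fun t => pd p U (t • Pi.single p 1)) hT0
      (fun t _ => (hder t).continuousAt.continuousWithinAt) (fun t _ => hder t)
    have h1 : (h T - h 0) ^ 2 = pd p U (c • Pi.single p 1) ^ 2 * T ^ 2 := by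
      rw [hc, sub_zero, div_pow]
      (clear * - hT0; field_simp)
    have h2 : T ^ 2 = 9 / (2 * k) := by
      rw [hT, div_pow, Real.sq_sqrt (by linarith only [hpos])]; norm_num
    have h3 := hlow (c • Pi.single p 1)
    have h4 : 9 ≤ (h T - h 0) ^ 2 := by
      rw [h1, h2]
      rw [mul_div_assoc', le_div_iff₀ (by linarith only [hpos])]
      (clear * - k n p U c h3; linarith)
    have b1 := abs_le.mp (hU.bd (T • Pi.single p 1))
    have b2 := abs_le.mp (hU.bd ((0:ℝ) • Pi.single p 1))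
    have h5 : (h T - h 0) ^ 2 ≤ 4 := by
      simp only [hh]
      (clear * - U n T p h h4 b1 b2; (clear * - U n T p h h4 b1 b2; nlinarith only [b1, b2]))
    linarith only [h4, h5]

end Vale.Agent.P134
end
end

section

section

open MeasureTheory Filter Topology

namespace Vale.Agent.P134

variable {n : ℕ} {u U V φ ψ η ξ χ : (Fin n → ℝ) → ℝ} {x : Fin n → ℝ} {i j : Fin n}
  {S : Finset (Fin n)} {p q : Fin n}

/-- The energy of a bounded heteroclinic solution is bounded. -/
lemma ode_energy {h h' : ℝ → ℝ} (hd : ∀ t, HasDerivAt h (h' t) t) (hc : Continuous h')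
    (hb : ∀ t, |h t| ≤ 1) (heq : ∀ t, h' t ^ 2 = (1 - h t ^ 2) ^ 2 / 2) {a b : ℝ} (hab : a ≤ b) :
    ∫ t in a..b, h' t ^ 2 ≤ 2 := by
  have hQ0 : ∀ t, 0 ≤ 1 - h t ^ 2 := fun t => by
    have := abs_le.mp (hb t); nlinarith
  have hQ1 : ∀ t, 1 - h t ^ 2 ≤ 1 := fun t => by nlinarith only []
  have habs : ∀ t, |h' t| ≤ 1 - h t ^ 2 := fun t => by
    apply abs_le_of_sq_le_sq _ (hQ0 t)
    rw [heq t]; (clear * - h t; nlinarith only [])
  by_cases hz : ∃ t0, h' t0 = 0
  · obtain ⟨t0, ht0⟩ := hz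
    have hQt0 : 1 - h t0 ^ 2 = 0 := by
      have h1 := heq t0
      rw [ht0] at h1
      have h2 : (1 - h t0 ^ 2) ^ 2 = 0 := by (clear * - h t0 h1; linarith)
      exact pow_eq_zero_iff (two_ne_zero) |>.mp h2
    have hdQ : ∀ t, HasDerivAt (fun t => 1 - h t ^ 2) (-(2 * h t * h' t)) t := by
      intro t
      have := ((hd t).pow 2).const_sub 1
      simpa only [Pi.pow_apply, Nat.cast_ofNat, Nat.add_one_sub_one, pow_one] using this
    have hbd : ∀ t, |2 * h t * h' t| ≤ 2 * (1 - h t ^ 2) := by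
      intro t
      rw [abs_mul, abs_mul, abs_two]
      have h1 := hb t
      have h2 := habs t
      (clear * - h t h' h1 h2 hQ0; nlinarith only [mul_le_mul h1 h2 (abs_nonneg _) zero_le_one])
    have hQz : ∀ t, 1 - h t ^ 2 = 0 := by
      intro t
      apply le_antisymm _ (hQ0 t)
      rcases le_total t0 t with ht | ht
      · have hdF : ∀ s, HasDerivAt (fun s => (1 - h s ^ 2) * Real.exp (-2 * s))
            ((-(2 * h s * h' s)) * Real.exp (-2 * s)
              + (1 - h s ^ 2) * (Real.exp (-2 * s) * (-2))) s := by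
          intro s
          have he : HasDerivAt (fun s : ℝ => Real.exp (-2 * s)) (Real.exp (-2 * s) * (-2)) s := by
            have := ((hasDerivAt_id s).const_mul (-2)).exp
            simpa only [neg_mul, mul_neg, id_eq, mul_one] using this
          exact (hdQ s).mul he
        have hanti : Antitone (fun s => (1 - h s ^ 2) * Real.exp (-2 * s)) := by
          apply antitone_of_deriv_nonpos (fun s => (hdF s).differentiableAt)
          intro s
          rw [(hdF s).deriv]
          have h1 := (abs_le.mp (hbd s)).1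
          have h2 := Real.exp_pos (-2 * s)
          (clear * - h s h' h1 h2; nlinarith only [h1, h2])
        have h3 := hanti ht
        simp only [hQt0, zero_mul] at h3
        by_contra hcon
        push Not at hcon
        have := mul_pos hcon (Real.exp_pos (-2 * t))
        linarith only [h3, this]
      · have hdF : ∀ s, HasDerivAt (fun s => (1 - h s ^ 2) * Real.exp (2 * s))
            ((-(2 * h s * h' s)) * Real.exp (2 * s)
              + (1 - h s ^ 2) * (Real.exp (2 * s) * 2)) s := by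
          intro s
          have he : HasDerivAt (fun s : ℝ => Real.exp (2 * s)) (Real.exp (2 * s) * 2) s := by
            have := ((hasDerivAt_id s).const_mul 2).exp
            simpa using this
          exact (hdQ s).mul he
        have hmono : Monotone (fun s => (1 - h s ^ 2) * Real.exp (2 * s)) := by
          apply monotone_of_deriv_nonneg (fun s => (hdF s).differentiableAt)
          intro s
          rw [(hdF s).deriv]
          have h1 := (abs_le.mp (hbd s)).2
          have h2 := Real.exp_pos (2 * s)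
          (clear * - h s h' h1 h2; nlinarith only [h1, h2])
        have h3 := hmono ht
        simp only [hQt0, zero_mul] at h3
        by_contra hcon
        push Not at hcon
        have := mul_pos hcon (Real.exp_pos (2 * t))
        linarith only [h3, this]
    have hz' : ∀ t, h' t ^ 2 = 0 := fun t => by rw [heq t, hQz t]; norm_num
    simp_rw [hz']
    simp
  · push Not at hz
    have hsgn : (∀ t, 0 < h' t) ∨ (∀ t, h' t < 0) := by
      rcases lt_or_gt_of_ne (hz 0) with h0 | h0
      · right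
        intro t
        by_contra hcon
        push Not at hcon
        obtain ⟨s, hs⟩ := mem_range_of_exists_le_of_exists_ge hc ⟨0, h0.le⟩ ⟨t, hcon⟩
        exact hz s hs
      · left
        intro t
        by_contra hcon
        push Not at hcon
        obtain ⟨s, hs⟩ := mem_range_of_exists_le_of_exists_ge hc ⟨t, hcon⟩ ⟨0, h0.le⟩
        exact hz s hs
    have hint : ∀ a b, IntervalIntegrable h' volume a b := fun a b => hc.intervalIntegrable a b
    have hint2 : ∀ a b, IntervalIntegrable (fun t => h' t ^ 2) volume a b := fun a b =>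
      (hc.pow 2).intervalIntegrable a b
    have hftc : ∫ t in a..b, h' t = h b - h a :=
      intervalIntegral.integral_eq_sub_of_hasDerivAt (fun t _ => hd t) (hint a b)
    have hba := abs_le.mp (hb a)
    have hbb := abs_le.mp (hb b)
    rcases hsgn with hpos | hneg
    · calc ∫ t in a..b, h' t ^ 2 ≤ ∫ t in a..b, h' t := by
            apply intervalIntegral.integral_mono_on hab (hint2 a b) (hint a b)
            intro t _
            have h1 := hpos t
            have h2 := habs t
            rw [abs_of_pos h1] at h2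
            have h3 := hQ1 t
            (clear * - h' t h h1 h2; nlinarith only [h1, h2])
        _ = h b - h a := hftc
        _ ≤ 2 := by linarith
    · calc ∫ t in a..b, h' t ^ 2 ≤ ∫ t in a..b, - h' t := by
            apply intervalIntegral.integral_mono_on hab (hint2 a b) (hint a b).neg
            intro t _
            have h1 := hneg t
            have h2 := habs t
            rw [abs_of_neg h1] at h2
            have h3 := hQ1 t
            simp only [Pi.neg_apply]
            (clear * - h' t h h1 h2; nlinarith only [h1, h2])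
        _ = -(h b - h a) := by rw [intervalIntegral.integral_neg, hftc]
        _ ≤ 2 := by linarith

/-- Integral over a box of a function of one coordinate. -/
lemma box_integral_coord (p : Fin n) {g : ℝ → ℝ} {R : ℝ} (hR : 0 ≤ R) :
    ∫ x in box n R, g (x p) = (2 * R) ^ (n - 1) * ∫ t in (-R)..R, g t := by
  classical
  set f : Fin n → ℝ → ℝ := fun i => if i = p then (Set.Icc (-R) R).indicator g
    else (Set.Icc (-R) R).indicator (fun _ => 1) with hf
  have h1 : ∫ x in box n R, g (x p) = ∫ x : Fin n → ℝ, ∏ i, f i (x i) := by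
    have hm : MeasurableSet (box n R) := measurableSet_Icc
    rw [← integral_indicator hm]
    congr 1; ext x
    by_cases hx : x ∈ box n R
    · rw [Set.indicator_of_mem hx]
      rw [mem_box] at hx
      have hx' : ∀ i, x i ∈ Set.Icc (-R) R := fun i => abs_le.mp (hx i)
      rw [← Finset.mul_prod_erase _ _ (Finset.mem_univ p)]
      have e1 : f p (x p) = g (x p) := by
        simp only [hf, if_true, Set.indicator_of_mem (hx' p)]
      have e2 : ∀ i ∈ Finset.univ.erase p, f i (x i) = 1 := by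
        intro i hi
        simp only [hf, if_neg (Finset.ne_of_mem_erase hi), Set.indicator_of_mem (hx' i)]
      rw [e1, Finset.prod_congr rfl e2]
      simp only [Finset.prod_const_one, mul_one]
    · rw [Set.indicator_of_notMem hx]
      rw [mem_box] at hx
      push Not at hx
      obtain ⟨i, hi⟩ := hx
      symm
      apply Finset.prod_eq_zero (Finset.mem_univ i)
      have hx' : x i ∉ Set.Icc (-R) R := by
        intro h
        exact absurd (abs_le.mpr h) (not_le.mpr hi)
      simp only [hf]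
      split_ifs
      · exact Set.indicator_of_notMem hx' _
      · exact Set.indicator_of_notMem hx' _
  rw [h1, integral_fintype_prod_volume_eq_prod, ← Finset.mul_prod_erase _ _ (Finset.mem_univ p)]
  have e1 : ∫ t, f p t = ∫ t in (-R)..R, g t := by
    simp only [hf, if_true]
    rw [integral_indicator measurableSet_Icc, integral_Icc_eq_integral_Ioc,
      intervalIntegral.integral_of_le (by linarith)]
  have e2 : ∀ i ∈ Finset.univ.erase p, ∫ t, f i t = 2 * R := by
    intro i hi
    simp only [hf, if_neg (Finset.ne_of_mem_erase hi)]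
    rw [integral_indicator measurableSet_Icc, setIntegral_const]
    simp only [Measure.real, Real.volume_Icc, smul_eq_mul, mul_one]
    rw [ENNReal.toReal_ofReal (by linarith only [hR])]; ring
  rw [e1, Finset.prod_congr rfl e2, Finset.prod_const, Finset.card_erase_of_mem (Finset.mem_univ p),
    Finset.card_univ, Fintype.card_fin, mul_comm]

/-- A function depending on one coordinate only. -/
lemma eq_of_pd_zero (hU : Differentiable ℝ U) (h0 : ∀ i, i ≠ p → ∀ x, pd i U x = 0)
    (x : Fin n → ℝ) : U x = U (x p • Pi.single p 1) := by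
  set v : Fin n → ℝ := x - x p • Pi.single p 1 with hv
  have hd : ∀ t : ℝ, HasDerivAt (fun t : ℝ => U (x p • Pi.single p 1 + t • v)) 0 t := by
    intro t
    have h1 : HasDerivAt (fun s : ℝ => x p • (Pi.single p 1 : Fin n → ℝ) + s • v) v t := by
      have := ((hasDerivAt_id t).smul_const v).const_add (x p • (Pi.single p 1 : Fin n → ℝ))
      simpa using this
    have h2 := (hU (x p • Pi.single p 1 + t • v)).hasFDerivAt.comp_hasDerivAt t h1
    rw [fderiv_eq_sum_pd] at h2
    have h3 : ∑ i, v i * pd i U (x p • Pi.single p 1 + t • v) = 0 := by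
      apply Finset.sum_eq_zero
      intro i _
      by_cases hi : i = p
      · subst hi; simp [hv]
      · rw [h0 i hi, mul_zero]
    rw [h3] at h2
    exact h2
  have hc := is_const_of_deriv_eq_zero (fun t => (hd t).differentiableAt) (fun t => (hd t).deriv) 1 0
  simp only [one_smul, zero_smul, add_zero] at hc
  rw [← hc]
  congr 1
  rw [hv]; abel

/-- Energy bound for the limit profile. -/
theorem profile_energy (hS : ∀ i : Fin n, i ∈ S ∨ i = p ∨ i = q) (hU : Sol U)
    (h0 : ∀ i, i ≠ p → ∀ x, pd i U x = 0)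
    (hstab : ∀ ξ : (Fin n → ℝ) → ℝ, ContDiff ℝ 1 ξ → HasCompactSupport ξ →
      0 ≤ ∫ x, (∑ j, (pd j ξ x) ^ 2 + (3 * U x ^ 2 - 1) * ξ x ^ 2)) {R : ℝ} (hR : 0 ≤ R) :
    ∫ x in box n R, en U x ≤ 2 * (2 * R) ^ (n - 1) := by
  have dU : Differentiable ℝ U := hU.c2.differentiable (by norm_num)
  have hz := disc_zero hS hU h0 hstab
  have hdisc : ∀ y, disc U y = (1 / 2) * pd p U y ^ 2 - (1 - U y ^ 2) ^ 2 / 4 := by
    intro y
    unfold disc
    rw [Finset.sum_eq_single p (fun j _ hj => by rw [h0 j hj]; ring) (by simp only [Finset.mem_univ, not_true_eq_false, ne_eq, OfNat.ofNat_ne_zero, not_false_eq_true, pow_eq_zero_iff, IsEmpty.forall_iff])]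
  set h : ℝ → ℝ := fun t => U (t • Pi.single p 1) with hh
  set h' : ℝ → ℝ := fun t => pd p U (t • Pi.single p 1) with hh'
  have hder : ∀ t, HasDerivAt h (h' t) t := by
    intro t
    have := hasDerivAt_ln dU 0 p t
    simpa [hh, hh'] using this
  have heq : ∀ t, h' t ^ 2 = (1 - h t ^ 2) ^ 2 / 2 := by
    intro t
    have h1 := hz (t • Pi.single p 1)
    rw [hdisc] at h1
    simp only [hh, hh']
    (clear * - n p U t h1; linarith)
  have hcont : Continuous h' := by
    have : Continuous (pd p U) := (contDiff_pd_one hU.c2).continuous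
    exact this.comp (by fun_prop)
  have hen : ∀ x, en U x = h' (x p) ^ 2 := by
    intro x
    have h1 := hz x
    rw [hdisc] at h1
    have h2 := heq (x p)
    have h3 : h (x p) = U x := (eq_of_pd_zero dU h0 x).symm
    rw [h3] at h2
    rw [h2]
    unfold en
    rw [Finset.sum_eq_single p (fun j _ hj => by rw [h0 j hj]; ring) (by simp only [Finset.mem_univ, not_true_eq_false, ne_eq, OfNat.ofNat_ne_zero, not_false_eq_true, pow_eq_zero_iff, IsEmpty.forall_iff])]
    (clear * - n p U x h1; linarith)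
  simp_rw [hen]
  rw [box_integral_coord p (g := fun t => h' t ^ 2) hR]
  have h4 := ode_energy hder hcont (fun t => hU.bd _) heq (by linarith : -R ≤ R)
  have h5 : 0 ≤ (2 * R) ^ (n - 1) := by (clear * - hR; positivity)
  nlinarith only [h4, h5]

end Vale.Agent.P134
end
end

section

section

open MeasureTheory Filter Topology

namespace Vale.Agent.P134

variable {n : ℕ} {u U V φ ψ η ξ χ : (Fin n → ℝ) → ℝ} {x : Fin n → ℝ} {i j : Fin n}
  {S : Finset (Fin n)} {p q : Fin n}

lemma cut_eq_one_on_box {r R : ℝ} (hr : 0 ≤ r) (hR : (n + 1) * r ≤ R) (hR0 : 0 < R)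
    (hx : x ∈ box n r) : cut S p q R x = 1 := by
  rw [mem_box] at hx
  have hn : (0:ℝ) ≤ n := Nat.cast_nonneg n
  have hx2 : ∀ i, x i ^ 2 ≤ r ^ 2 := fun i => by
    rw [← sq_abs]; exact pow_le_pow_left₀ (abs_nonneg _) (hx i) 2
  have h1 : ((n + 1) * r) ^ 2 ≤ R ^ 2 := pow_le_pow_left₀ (by positivity) hR 2
  have h2 : r ^ 2 ≤ ((n + 1) * r) ^ 2 := by
    rw [mul_pow]
    have : (1:ℝ) ≤ (n + 1) ^ 2 := by nlinarith
    (clear * - r n this; nlinarith only [this])
  have h3 : n * r ^ 2 ≤ ((n + 1) * r) ^ 2 := by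
    rw [mul_pow]
    apply mul_le_mul_of_nonneg_right _ (sq_nonneg r)
    (clear * - n; nlinarith)
  apply cut_eq_one hR0 _ ((hx2 p).trans (h2.trans h1)) ((hx2 q).trans (h2.trans h1))
  unfold rho
  calc ∑ i ∈ S, x i ^ 2 ≤ ∑ i, x i ^ 2 :=
        Finset.sum_le_sum_of_subset_of_nonneg (Finset.subset_univ _) fun _ _ _ => sq_nonneg _
    _ ≤ ∑ _i : Fin n, r ^ 2 := Finset.sum_le_sum fun i _ => hx2 i
    _ = n * r ^ 2 := by simp only [Finset.sum_const, Finset.card_univ, Fintype.card_fin, nsmul_eq_mul]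
    _ ≤ R ^ 2 := h3.trans h1

/-- Energy growth `R^(n-1)`. -/
theorem energy_growth (hS : ∀ i : Fin n, i ∈ S ∨ i = p ∨ i = q)
    (hu : Sol u) {C : ℝ} (hC1 : ∀ x i, |pd i u x| ≤ C) (hC2 : ∀ x i j, |pd i (pd j u) x| ≤ C)
    (hpos : ∀ x, 0 < pd q u x) (hU : Sol U)
    (hlim : ∀ x, Tendsto (fun t : ℝ => u (x + t • Pi.single q 1)) atTop (𝓝 (U x)))
    (hlim' : ∀ x i, Tendsto (fun t : ℝ => pd i u (x + t • Pi.single q 1)) atTop (𝓝 (pd i U x)))
    (hUen : ∃ E : ℝ, 0 ≤ E ∧ ∀ R : ℝ, 0 ≤ R → ∫ x in box n R, en U x ≤ E * R ^ (n - 1)) :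
    ∃ E : ℝ, 0 ≤ E ∧ ∀ R : ℝ, 1 ≤ R → ∫ x in box n (2 * R), en u x ≤ E * R ^ (n - 1) := by
  obtain ⟨E, hE0, hE⟩ := hUen
  obtain ⟨D, hD1, hD⟩ := exists_th_bound
  have hC0 : 0 ≤ C := (abs_nonneg _).trans (hC1 0 q)
  have hn : (0:ℝ) ≤ n := Nat.cast_nonneg n
  have hn1 : 1 ≤ n := Nat.one_le_iff_ne_zero.mpr (by rintro rfl; exact q.elim0)
  refine ⟨E * (4 * (n + 1)) ^ (n - 1) + 2 * C * (n * (9 * D) * 8 ^ n * (n + 1) ^ n), by (clear * - hE0 hn1 hC0 hD1; positivity),
    fun R hR => ?_⟩
  have hR0 : 0 < R := by linarith only [hR]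
  set R' : ℝ := 2 * (n + 1) * R with hR'
  have hR'0 : 0 < R' := by (clear * - hn1 hR; positivity)
  have hcmp := energy_comparison (χ := cut S p q R') hu hC1 hC2 hpos hU hlim hlim' cut_contDiff
    (cut_hasCompactSupport hS hR'0) (fun _ => cut_nonneg)
  have hcen : Continuous (en u) := (en_contDiff hu.c2).continuous
  have hcenU : Continuous (en U) := (en_contDiff hU.c2).continuous
  have hcs := cut_hasCompactSupport (S := S) (p := p) (q := q) hS hR'0
  have i1 : Integrable (fun x => en u x * cut S p q R' x) :=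
    (hcen.mul cut_contDiff.continuous).integrable_of_hasCompactSupport hcs.mul_left
  have i2 : Integrable (fun x => en U x * cut S p q R' x) :=
    (hcenU.mul cut_contDiff.continuous).integrable_of_hasCompactSupport hcs.mul_left
  have h1 : ∫ x in box n (2 * R), en u x ≤ ∫ x, en u x * cut S p q R' x := by
    calc ∫ x in box n (2 * R), en u x = ∫ x in box n (2 * R), en u x * cut S p q R' x := by
          apply setIntegral_congr_fun (measurableSet_Icc : MeasurableSet (box n (2 * R)))
          intro x hx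
          simp only
          rw [cut_eq_one_on_box (r := 2 * R) (by linarith only [hR]) (by rw [hR']; (clear * - n R; linarith)) hR'0 hx,
            mul_one]
      _ ≤ ∫ x, en u x * cut S p q R' x :=
          setIntegral_le_integral i1 (Eventually.of_forall fun x =>
            mul_nonneg (en_nonneg _ _) cut_nonneg)
  have h2 : ∫ x, en U x * cut S p q R' x ≤ E * (2 * R') ^ (n - 1) := by
    have hz : ∀ x, x ∉ box n (2 * R') → en U x * cut S p q R' x = 0 := by
      intro x hx
      rw [cut_eq_zero hS hR'0 hx, mul_zero]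
    rw [← setIntegral_eq_integral_of_forall_compl_eq_zero hz]
    calc ∫ x in box n (2 * R'), en U x * cut S p q R' x ≤ ∫ x in box n (2 * R'), en U x := by
          apply setIntegral_mono_on i2.integrableOn
            (hcenU.continuousOn.integrableOn_compact (isCompact_box _)) measurableSet_Icc
          intro x _
          have h3 := en_nonneg U x
          have h4 : cut S p q R' x ≤ 1 := cut_le_one
          (clear * - n U x S p q R' h3 h4; nlinarith only [h3, h4])
      _ ≤ E * (2 * R') ^ (n - 1) := hE _ (by linarith only [hR'0])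
  have h3 : ∫ x, ∑ j, |pd j (cut S p q R') x| ≤ n * (9 * D / R') * (4 * R') ^ n := by
    have hz : ∀ x, x ∉ box n (2 * R') → ∑ j, |pd j (cut S p q R') x| = 0 := by
      intro x hx
      apply Finset.sum_eq_zero; intro j _
      rw [pd_cut_eq_zero hS hR'0 hx, abs_zero]
    rw [← setIntegral_eq_integral_of_forall_compl_eq_zero hz]
    have hcont : Continuous (fun x => ∑ j, |pd j (cut S p q R') x|) :=
      continuous_finsetSum _ fun j _ => (continuous_pd cut_contDiff).abs
    calc ∫ x in box n (2 * R'), ∑ j, |pd j (cut S p q R') x|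
        ≤ ∫ _x in box n (2 * R'), (n * (9 * D / R') : ℝ) := by
          apply setIntegral_mono_on
            (hcont.continuousOn.integrableOn_compact (isCompact_box _))
            (integrableOn_const (volume_box_ne_top _)) measurableSet_Icc
          intro x _
          calc ∑ j, |pd j (cut S p q R') x| ≤ ∑ _j : Fin n, 9 * D / R' :=
                Finset.sum_le_sum fun j _ => pd_cut_bound hD hR'0
            _ = n * (9 * D / R') := by simp only [Finset.sum_const, Finset.card_univ, Fintype.card_fin, nsmul_eq_mul]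
      _ = _ := by
          rw [setIntegral_box_const (by linarith only [hR'0]), show 2 * (2 * R') = 4 * R' by ring]
  have e1 : E * (2 * R') ^ (n - 1) = E * (4 * (n + 1)) ^ (n - 1) * R ^ (n - 1) := by
    rw [hR', show 2 * (2 * ((n:ℝ) + 1) * R) = (4 * (n + 1)) * R by ring, mul_pow]; ring
  have e2 : n * (9 * D / R') * (4 * R') ^ n ≤ n * (9 * D) * 8 ^ n * (n + 1) ^ n * R ^ (n - 1) := by
    have e3 : (4 * R') ^ n = 8 ^ n * (n + 1) ^ n * (R ^ (n - 1) * R) := by
      rw [hR', show 4 * (2 * ((n:ℝ) + 1) * R) = 8 * (n + 1) * R by ring, mul_pow, mul_pow,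
        ← pow_succ, Nat.sub_add_cancel hn1]
    have e4 : (9 * D / R') * R ≤ 9 * D := by
      rw [div_mul_eq_mul_div, div_le_iff₀ hR'0]
      have : R ≤ R' := by rw [hR']; (clear * - R n R' hR'0 hR; nlinarith only [hR])
      (clear * - D R R' n hR hD1 this; nlinarith only [this, hD1])
    rw [e3]
    calc n * (9 * D / R') * (8 ^ n * (n + 1) ^ n * (R ^ (n - 1) * R))
        = (n * (8 ^ n * (n + 1) ^ n * R ^ (n - 1))) * ((9 * D / R') * R) := by ring
      _ ≤ (n * (8 ^ n * (n + 1) ^ n * R ^ (n - 1))) * (9 * D) := by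
          apply mul_le_mul_of_nonneg_left e4; (clear * - hn1 hR; positivity)
      _ = _ := by ring
  calc ∫ x in box n (2 * R), en u x ≤ ∫ x, en u x * cut S p q R' x := h1
    _ ≤ _ := hcmp
    _ ≤ E * (2 * R') ^ (n - 1) + 2 * C * (n * (9 * D / R') * (4 * R') ^ n) := by
        apply add_le_add h2
        exact mul_le_mul_of_nonneg_left h3 (by (clear * - hC0; positivity))
    _ ≤ E * (4 * (n + 1)) ^ (n - 1) * R ^ (n - 1)
        + 2 * C * (n * (9 * D) * 8 ^ n * (n + 1) ^ n * R ^ (n - 1)) := by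
        rw [e1]
        have := mul_le_mul_of_nonneg_left e2 (by (clear * - hC0; positivity) : 0 ≤ 2 * C)
        (clear * - E n R C D R' this; (clear * - E n R C D R' this; linarith))
    _ = _ := by ring

/-- A rotationally symmetric monotone solution does not depend on the rotated variables. -/
theorem rot_zero (hS : ∀ i : Fin n, i ∈ S ∨ i = p ∨ i = q) (hp : p ∉ S) (hq : q ∉ S)
    (hpq : p ≠ q) {α : ℝ} (hα0 : 0 < α) (hα2 : α ≤ 2) (hκ : α ^ 2 < (S.card : ℝ) - 1)
    (hn : (n : ℝ) < 2 * α + 3)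
    (hu : Sol u) (hrot : RotInv S u) (hpos : ∀ x, 0 < pd q u x) :
    ∀ x, ∀ i ∈ S, pd i u x = 0 := by
  obtain ⟨C, hC0, hC1, hC2, -⟩ := hu.exists_bound
  obtain ⟨U, hU, hlim, hlim', -, hUinv⟩ := hu.exists_profile q hpos
  have hG := profile_rot_zero hS hp hq hpq hα0 hα2 hκ hn hu hC1 hC2 hrot hpos hU hlim' hUinv
  have h0 : ∀ i, i ≠ p → ∀ x, pd i U x = 0 := by
    intro i hi x
    rcases hS i with h | h | h
    · have h1 := hG x
      rw [Finset.sum_eq_zero_iff_of_nonneg fun _ _ => sq_nonneg _] at h1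
      exact pow_eq_zero_iff (two_ne_zero) |>.mp (h1 i h)
    · exact absurd h hi
    · subst h
      have dU : Differentiable ℝ U := hU.c2.differentiable (by norm_num)
      have h1 := hasDerivAt_ln dU x i 0
      have h2 : (fun s : ℝ => U (x + s • Pi.single i 1)) = fun _ => U x :=
        funext fun s => hUinv x s
      rw [h2, zero_smul, add_zero] at h1
      exact h1.unique (hasDerivAt_const _ _)
  have hstab : ∀ ξ : (Fin n → ℝ) → ℝ, ContDiff ℝ 1 ξ → HasCompactSupport ξ →
      0 ≤ ∫ x, (∑ j, (pd j ξ x) ^ 2 + (3 * U x ^ 2 - 1) * ξ x ^ 2) := fun ξ hξ hc =>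
    profile_stability hu hC1 hC2 hpos hlim hξ hc
  have hUen : ∃ E : ℝ, 0 ≤ E ∧ ∀ R : ℝ, 0 ≤ R → ∫ x in box n R, en U x ≤ E * R ^ (n - 1) := by
    refine ⟨2 * 2 ^ (n - 1), by positivity, fun R hR => ?_⟩
    have := profile_energy hS hU h0 hstab hR
    rw [mul_pow] at this
    linarith only [this]
  obtain ⟨E, hE0, hE⟩ := energy_growth hS hu hC1 hC2 hpos hU hlim hlim' hUen
  obtain ⟨c, hc, M, hM, hgr⟩ := hardy_growth hS hp hq hα0 hα2 hκ
  have hn1 : 1 ≤ n := Nat.one_le_iff_ne_zero.mpr (by rintro rfl; exact q.elim0)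
  have huc : ∀ i, Continuous (pd i u) := fun i => (contDiff_pd_one hu.c2).continuous
  have hGu : Continuous (fun x => ∑ i ∈ S, pd i u x ^ 2) :=
    continuous_finsetSum _ fun i _ => (huc i).pow 2
  have hz := vanish_of_growth (G := fun x => ∑ i ∈ S, pd i u x ^ 2) hGu
    (fun x => Finset.sum_nonneg fun _ _ => sq_nonneg _) hS hα0 hc
    (β := (n:ℝ) - 1) (by linarith only [hn]) (M := M) (E := 2 * E) (by
      intro R hR
      have hR0 : 0 < R := by linarith only [hR]
      refine (hgr u _ hu.c2 (fun i => hu.weakLin hC1 hC2 i) hrot hpos R hR).trans ?_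
      have h4 : 0 ≤ M * R ^ (-(2 * α + 2)) := by (clear * - hM hR; positivity)
      apply mul_le_mul_of_nonneg_left _ h4
      have h5 : ∫ x in box n (2 * R), ∑ i ∈ S, pd i u x ^ 2
          ≤ ∫ x in box n (2 * R), 2 * en u x := by
        apply setIntegral_mono_on (hGu.continuousOn.integrableOn_compact (isCompact_box _))
          ((continuous_const.mul
            (en_contDiff hu.c2).continuous).continuousOn.integrableOn_compact (isCompact_box _))
          measurableSet_Icc
        intro x _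
        have h6 : ∑ i ∈ S, pd i u x ^ 2 ≤ ∑ i, pd i u x ^ 2 :=
          Finset.sum_le_sum_of_subset_of_nonneg (Finset.subset_univ _) fun _ _ _ => sq_nonneg _
        have h7 : 0 ≤ (1 - u x ^ 2) ^ 2 / 4 := by (clear * -; positivity)
        calc ∑ i ∈ S, pd i u x ^ 2 ≤ ∑ i, pd i u x ^ 2 := h6
          _ ≤ 2 * en u x := by unfold en; (clear * - n u x h7; linarith)
      rw [integral_const_mul] at h5
      have h7 := hE R hR
      have h8 : R ^ ((n:ℝ) - 1) = R ^ (n - 1) := by
        rw [← Real.rpow_natCast, Nat.cast_sub hn1, Nat.cast_one]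
      rw [h8]
      linarith only [h5, h7])
  intro x i hi
  have h1 := hz x
  rw [Finset.sum_eq_zero_iff_of_nonneg fun _ _ => sq_nonneg _] at h1
  exact pow_eq_zero_iff (two_ne_zero) |>.mp (h1 i hi)

/-- Squares of sums of mutually orthogonal terms. -/
lemma sq_sum_of_pairwise {N : ℕ} {a : ℕ → ℝ}
    (h : ∀ k l, k ≠ l → a k * a l = 0) :
    (∑ k ∈ Finset.range N, a k) ^ 2 = ∑ k ∈ Finset.range N, a k ^ 2 := by
  rw [sq, Finset.sum_mul_sum]
  apply Finset.sum_congr rfl
  intro k hk
  rw [Finset.sum_eq_single k]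
  · ring
  · intro l _ hl; exact h k l (Ne.symm hl)
  · intro hk'; exact absurd hk hk'

/-- Averaged cutoff (logarithmic cutoff). -/
noncomputable def avg (ρ : ℝ) (N : ℕ) (x : Fin 2 → ℝ) : ℝ :=
  (N : ℝ)⁻¹ * ∑ k ∈ Finset.range N, cut ∅ 0 1 (2 ^ k * ρ) x

lemma avg_contDiff {ρ : ℝ} {N : ℕ} : ContDiff ℝ 1 (avg ρ N) :=
  contDiff_const.mul (ContDiff.sum fun _ _ => cut_contDiff)

lemma hS2 : ∀ i : Fin 2, i ∈ (∅ : Finset (Fin 2)) ∨ i = 0 ∨ i = 1 := by decide

lemma avg_hasCompactSupport {ρ : ℝ} (hρ : 0 < ρ) {N : ℕ} : HasCompactSupport (avg ρ N) := by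
  apply HasCompactSupport.intro (isCompact_box (2 * (2 ^ N * ρ)))
  intro x hx
  unfold avg
  rw [Finset.sum_eq_zero, mul_zero]
  intro k hk
  apply cut_eq_zero hS2 (by positivity)
  intro h
  apply hx
  rw [mem_box] at h ⊢
  intro i
  refine (h i).trans ?_
  have : (2:ℝ) ^ k ≤ 2 ^ N := pow_le_pow_right₀ (by norm_num) (Finset.mem_range.mp hk).le
  nlinarith

lemma pd_avg {ρ : ℝ} {N : ℕ} (x : Fin 2 → ℝ) (i : Fin 2) :
    pd i (avg ρ N) x = (N : ℝ)⁻¹ * ∑ k ∈ Finset.range N, pd i (cut ∅ 0 1 (2 ^ k * ρ)) x := by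
  have d1 : ∀ k ∈ Finset.range N, DifferentiableAt ℝ (cut (∅ : Finset (Fin 2)) 0 1 (2 ^ k * ρ)) x :=
    fun k _ => cut_contDiff.differentiable (by norm_num) x
  have d2 : DifferentiableAt ℝ
      (fun y => ∑ k ∈ Finset.range N, cut (∅ : Finset (Fin 2)) 0 1 (2 ^ k * ρ) y) x :=
    DifferentiableAt.fun_sum d1
  unfold avg
  rw [pd_mul (differentiableAt_const _) d2, pd_const, pd_sum _ d1]
  ring

lemma pd_cut_disjoint {r s : ℝ} (hr : 0 < r) (hs : 2 * r ≤ s) (x : Fin 2 → ℝ) (i : Fin 2) :
    pd i (cut ∅ 0 1 r) x * pd i (cut ∅ 0 1 s) x = 0 := by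
  have hs0 : 0 < s := by linarith
  by_cases h : x i ^ 2 < s ^ 2
  · have : pd i (cut ∅ 0 1 s) x = 0 := by
      have hlt : x i ^ 2 / s ^ 2 < 1 := (div_lt_one (by positivity)).mpr h
      rw [pd_cut]
      fin_cases i <;> simp_all [pd_cutb, rho, th_deriv_of_lt]
    rw [this, mul_zero]
  · push Not at h
    have h2 : 2 * r ^ 2 < x i ^ 2 := by nlinarith only [h, hr, hs]
    have : pd i (cut ∅ 0 1 r) x = 0 := by
      have hlt : 2 < x i ^ 2 / r ^ 2 := by rw [lt_div_iff₀ (by positivity)]; exact h2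
      rw [pd_cut]
      fin_cases i <;> simp_all [pd_cutb, rho, th_deriv_of_gt]
    rw [this, zero_mul]

lemma avg_energy : ∃ K : ℝ, 0 ≤ K ∧ ∀ ρ : ℝ, 1 ≤ ρ → ∀ N : ℕ, 0 < N →
    ∫ x, ∑ j, pd j (avg ρ N) x ^ 2 ≤ K / N := by
  obtain ⟨D, hD1, hD⟩ := exists_th_bound
  refine ⟨2 * (9 * D) ^ 2 * 16, by positivity, fun ρ hρ N hN => ?_⟩
  have hρ0 : 0 < ρ := by linarith only [hρ]
  have hN0 : (0:ℝ) < N := by exact_mod_cast hN
  have hpt : ∀ x, ∑ j, pd j (avg ρ N) x ^ 2
      = (N : ℝ)⁻¹ ^ 2 * ∑ k ∈ Finset.range N, ∑ j, pd j (cut ∅ 0 1 (2 ^ k * ρ)) x ^ 2 := by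
    intro x
    rw [Finset.sum_comm, Finset.mul_sum]
    apply Finset.sum_congr rfl
    intro j _
    rw [pd_avg, mul_pow, sq_sum_of_pairwise]
    intro k l hkl
    rcases lt_or_gt_of_ne hkl with h | h
    · apply pd_cut_disjoint (by positivity)
      have : (2:ℝ) ^ (k + 1) ≤ 2 ^ l := pow_le_pow_right₀ (by norm_num) h
      rw [pow_succ] at this
      (clear * - k ρ l this hρ; nlinarith only [this, hρ])
    · rw [mul_comm]
      apply pd_cut_disjoint (by positivity)
      have : (2:ℝ) ^ (l + 1) ≤ 2 ^ k := pow_le_pow_right₀ (by norm_num) h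
      rw [pow_succ] at this
      (clear * - l ρ k this hρ; nlinarith only [this, hρ])
  simp_rw [hpt]
  have hi : ∀ k ∈ Finset.range N,
      Integrable (fun x => ∑ j, pd j (cut (∅ : Finset (Fin 2)) 0 1 (2 ^ k * ρ)) x ^ 2) := by
    intro k _
    apply integrable_finsetSum; intro j _
    exact ((continuous_pd cut_contDiff).pow 2).integrable_of_hasCompactSupport
      (hcs_sq (hasCompactSupport_pd (cut_hasCompactSupport hS2 (by positivity))))
  rw [integral_const_mul, integral_finsetSum _ hi]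
  have hk : ∀ k ∈ Finset.range N,
      ∫ x, ∑ j, pd j (cut (∅ : Finset (Fin 2)) 0 1 (2 ^ k * ρ)) x ^ 2 ≤ 2 * (9 * D) ^ 2 * 16 := by
    intro k _
    set R : ℝ := 2 ^ k * ρ with hR
    have hR0 : 0 < R := by positivity
    have hz : ∀ x, x ∉ box 2 (2 * R) → ∑ j, (pd j (cut (∅ : Finset (Fin 2)) 0 1 R) x) ^ 2 = 0 := by
      intro x hx
      apply Finset.sum_eq_zero; intro j _
      rw [pd_cut_eq_zero hS2 hR0 hx]; ring
    rw [← setIntegral_eq_integral_of_forall_compl_eq_zero hz]
    have hcont : Continuous (fun x => ∑ j, (pd j (cut (∅ : Finset (Fin 2)) 0 1 R) x) ^ 2) :=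
      continuous_finsetSum _ fun j _ => (continuous_pd cut_contDiff).pow 2
    calc ∫ x in box 2 (2 * R), ∑ j, (pd j (cut (∅ : Finset (Fin 2)) 0 1 R) x) ^ 2
        ≤ ∫ _x in box 2 (2 * R), (2 * (9 * D / R) ^ 2 : ℝ) := by
          apply setIntegral_mono_on
            (hcont.continuousOn.integrableOn_compact (isCompact_box _))
            (integrableOn_const (volume_box_ne_top _)) measurableSet_Icc
          intro x _
          calc ∑ j, (pd j (cut (∅ : Finset (Fin 2)) 0 1 R) x) ^ 2
              ≤ ∑ _j : Fin 2, (9 * D / R) ^ 2 := Finset.sum_le_sum fun j _ =>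
                sq_le_sq' (abs_le.mp (pd_cut_bound hD hR0)).1 (abs_le.mp (pd_cut_bound hD hR0)).2
            _ = 2 * (9 * D / R) ^ 2 := by simp only [Finset.sum_const, Finset.card_univ, Fintype.card_fin, nsmul_eq_mul, Nat.cast_ofNat]
      _ = 2 * (9 * D) ^ 2 * 16 := by
          rw [setIntegral_box_const (by linarith only [hR0])]
          field_simp
          ring
  calc (N : ℝ)⁻¹ ^ 2 * ∑ k ∈ Finset.range N,
        ∫ x, ∑ j, pd j (cut (∅ : Finset (Fin 2)) 0 1 (2 ^ k * ρ)) x ^ 2
      ≤ (N : ℝ)⁻¹ ^ 2 * ∑ _k ∈ Finset.range N, (2 * (9 * D) ^ 2 * 16) := by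
        apply mul_le_mul_of_nonneg_left (Finset.sum_le_sum hk) (by positivity)
    _ = 2 * (9 * D) ^ 2 * 16 / N := by
        rw [Finset.sum_const, Finset.card_range, nsmul_eq_mul]
        (clear * - hD1 hN; field_simp)

/-- The two dimensional case: the direction of the gradient is constant. -/
theorem two_dim {v : (Fin 2 → ℝ) → ℝ} (hv : Sol v) (hpos : ∀ x, 0 < pd 1 v x) :
    ∃ κ : ℝ, ∀ x, pd 0 v x = κ * pd 1 v x := by
  obtain ⟨C, hC0, hC1, hC2, -⟩ := hv.exists_bound
  obtain ⟨K, hK0, hK⟩ := avg_energy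
  have hφ : ContDiff ℝ 1 (pd 1 v) := contDiff_pd_one hv.c2
  have hψ : ContDiff ℝ 1 (pd 0 v) := contDiff_pd_one hv.c2
  have hne : ∀ x, pd 1 v x ≠ 0 := fun x => (hpos x).ne'
  have hσ : ContDiff ℝ 1 (fun y => pd 0 v y / pd 1 v y) := hψ.div hφ hne
  set X : (Fin 2 → ℝ) → ℝ := fun x =>
    ∑ j, pd 1 v x ^ 2 * (pd j (fun y => pd 0 v y / pd 1 v y) x) ^ 2 with hX
  have hXc : Continuous X := continuous_finsetSum _ fun j _ =>
    (hφ.continuous.pow 2).mul ((continuous_pd hσ).pow 2)
  have hX0 : ∀ x, 0 ≤ X x := fun x => Finset.sum_nonneg fun _ _ => by (clear * -; positivity)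
  have hXz : ∀ x, X x = 0 := by
    intro x0
    by_contra hne0
    have h0 : 0 < X x0 := lt_of_le_of_ne (hX0 x0) (Ne.symm hne0)
    obtain ⟨r, hr0, hr1, hbox⟩ := exists_box_lower hXc h0
    set a : Fin 2 → ℝ := fun i => x0 i - r with ha
    set b : Fin 2 → ℝ := fun i => x0 i + r with hb
    have hab : a ≤ b := fun i => by simp only [ha, hb]; linarith only [hr0]
    have hmem : ∀ x ∈ Set.Icc a b, ∀ i, |x i - x0 i| ≤ r := by
      intro x hx i
      have h1 := hx.1 i
      have h2 := hx.2 i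
      simp only [ha, hb] at h1 h2
      rw [abs_le]; constructor <;> linarith only [h1, h2]
    set B : ℝ := ‖x0‖ + 1 with hB
    have hB0 : 1 ≤ B := by rw [hB]; linarith only [norm_nonneg x0]
    have hxB : ∀ x ∈ Set.Icc a b, x ∈ box 2 B := by
      intro x hx
      rw [mem_box]
      intro i
      have h1 := hmem x hx i
      have h2 : |x0 i| ≤ ‖x0‖ := norm_le_pi_norm x0 i
      calc |x i| = |(x i - x0 i) + x0 i| := by ring_nf
        _ ≤ |x i - x0 i| + |x0 i| := abs_add_le _ _
        _ ≤ B := by rw [hB]; linarith only [hr1, h1, h2]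
    set d : ℝ := X x0 / 2 * (2 * r) ^ 2 with hd
    have hd0 : 0 < d := by (clear * - hne0 hr0; positivity)
    have hmain : ∀ N : ℕ, 0 < N → d ≤ 4 * (C ^ 2 * (K / N)) := by
      intro N hN
      have hN0 : (0:ℝ) < N := by exact_mod_cast hN
      set ρ : ℝ := 3 * B with hρ
      have hρ0 : 0 < ρ := by (clear * -; positivity)
      have hη : ContDiff ℝ 1 (avg ρ N) := avg_contDiff
      have hηs : HasCompactSupport (avg ρ N) := avg_hasCompactSupport hρ0
      have h1 := liouville_ineq (η := avg ρ N) hφ hψ hpos (hv.weakLin hC1 hC2 1)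
        (hv.weakLin hC1 hC2 0) hη hηs
      have hone : ∀ x ∈ Set.Icc a b, avg ρ N x = 1 := by
        intro x hx
        unfold avg
        have : ∀ k ∈ Finset.range N, cut (∅ : Finset (Fin 2)) 0 1 (2 ^ k * ρ) x = 1 := by
          intro k _
          apply cut_eq_one_on_box (r := B) (by (clear * - B x0 hB0; linarith)) _ (by (clear * -; positivity)) (hxB x hx)
          have : (1:ℝ) ≤ 2 ^ k := one_le_pow₀ (by norm_num)
          push_cast
          rw [hρ]
          (clear * - B k x0 this hB0; nlinarith only [this, hB0])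
        rw [Finset.sum_congr rfl this]
        simp only [Finset.sum_const, Finset.card_range, nsmul_eq_mul, mul_one]
        (clear * - hN; field_simp)
      have i1 : Integrable (fun x => X x * avg ρ N x ^ 2) :=
        (hXc.mul (hη.continuous.pow 2)).integrable_of_hasCompactSupport (hcs_sq hηs).mul_left
      have h2 : d ≤ ∫ x, X x * avg ρ N x ^ 2 := by
        calc d = ∫ _x in Set.Icc a b, X x0 / 2 := by
              rw [setIntegral_const, Measure.real, Real.volume_Icc_pi_toReal hab, smul_eq_mul]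
              have : ∀ i, b i - a i = 2 * r := fun i => by simp only [ha, hb]; ring
              simp only [this, Finset.prod_const, Finset.card_univ, Fintype.card_fin]
              rw [hd]; ring
          _ ≤ ∫ x in Set.Icc a b, X x * avg ρ N x ^ 2 := by
              apply setIntegral_mono_on _ i1.integrableOn measurableSet_Icc
              · intro x hx
                rw [hone x hx]
                have := hbox x (hmem x hx)
                simpa only [one_pow, mul_one, ge_iff_le] using this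
              · exact integrableOn_const (by
                  rw [Real.volume_Icc_pi]
                  exact ENNReal.prod_ne_top fun i _ => ENNReal.ofReal_ne_top)
          _ ≤ ∫ x, X x * avg ρ N x ^ 2 :=
              setIntegral_le_integral i1 (Eventually.of_forall fun x =>
                mul_nonneg (hX0 x) (sq_nonneg _))
      have h3 : ∫ x, pd 0 v x ^ 2 * ∑ j, (pd j (avg ρ N) x) ^ 2 ≤ C ^ 2 * (K / N) := by
        have i2 : Integrable (fun x => ∑ j, (pd j (avg ρ N) x) ^ 2) := by
          apply integrable_finsetSum; intro j _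
          exact ((continuous_pd hη).pow 2).integrable_of_hasCompactSupport
            (hcs_sq (hasCompactSupport_pd hηs))
        have i3 : Integrable (fun x => pd 0 v x ^ 2 * ∑ j, (pd j (avg ρ N) x) ^ 2) := by
          have : (fun x => pd 0 v x ^ 2 * ∑ j, (pd j (avg ρ N) x) ^ 2)
              = fun x => ∑ j, pd 0 v x ^ 2 * (pd j (avg ρ N) x) ^ 2 := by
            ext x; rw [Finset.mul_sum]
          rw [this]
          apply integrable_finsetSum; intro j _
          exact ((hψ.continuous.pow 2).mul ((continuous_pd hη).pow 2)).integrable_of_hasCompactSupport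
            (hcs_sq (hasCompactSupport_pd hηs)).mul_left
        calc ∫ x, pd 0 v x ^ 2 * ∑ j, (pd j (avg ρ N) x) ^ 2
            ≤ ∫ x, C ^ 2 * ∑ j, (pd j (avg ρ N) x) ^ 2 := by
              apply integral_mono i3 (i2.const_mul _)
              intro x
              apply mul_le_mul_of_nonneg_right _ (Finset.sum_nonneg fun _ _ => sq_nonneg _)
              exact sq_le_sq' (abs_le.mp (hC1 x 0)).1 (abs_le.mp (hC1 x 0)).2
          _ = C ^ 2 * ∫ x, ∑ j, (pd j (avg ρ N) x) ^ 2 := integral_const_mul _ _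
          _ ≤ C ^ 2 * (K / N) := by
              apply mul_le_mul_of_nonneg_left (hK ρ (by rw [hρ]; (clear * - B x0 hB0; linarith only [hB0])) N hN) (by positivity)
      (clear * - d C K N v ρ X x0 r h1 h2 h3; linarith only [h1, h2, h3])
    have hlim : Tendsto (fun N : ℕ => 4 * (C ^ 2 * (K / (N:ℝ)))) atTop (𝓝 (4 * (C ^ 2 * 0))) :=
      ((tendsto_const_div_atTop_nhds_zero_nat K).const_mul _).const_mul _
    rw [mul_zero, mul_zero] at hlim
    have h5 : d ≤ 0 := ge_of_tendsto hlim (by
      filter_upwards [eventually_gt_atTop 0] with N hN using hmain N hN)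
    linarith only [hd0, h5]
  have hpd : ∀ j x, pd j (fun y => pd 0 v y / pd 1 v y) x = 0 := by
    intro j x
    have h1 := hXz x
    rw [hX, Finset.sum_eq_zero_iff_of_nonneg fun _ _ => by (clear * -; positivity)] at h1
    have h2 := h1 j (Finset.mem_univ j)
    have h3 : pd 1 v x ^ 2 ≠ 0 := pow_ne_zero _ (hne x)
    exact pow_eq_zero_iff (two_ne_zero) |>.mp ((mul_eq_zero.mp h2).resolve_left h3)
  refine ⟨pd 0 v 0 / pd 1 v 0, fun x => ?_⟩
  have h1 := const_of_pd_zero (hσ.differentiable (by norm_num)) hpd x 0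
  rw [← h1]
  (clear * - hne; field_simp [hne x])

end Vale.Agent.P134
end
end

section

section

open MeasureTheory Filter Topology

namespace Vale.Agent.P134

variable {n : ℕ} {u : (Fin n → ℝ) → ℝ} {S : Finset (Fin n)} {p q : Fin n}

/-- A function is constant along directions killed by the gradient. -/
lemma eq_of_fderiv_zero {u : (Fin n → ℝ) → ℝ} (hu : Differentiable ℝ u) {v : Fin n → ℝ}
    (hv : ∀ x, ∑ i, v i * pd i u x = 0) (x : Fin n → ℝ) : u (x + v) = u x := by
  have hd : ∀ t : ℝ, HasDerivAt (fun t : ℝ => u (x + t • v)) 0 t := by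
    intro t
    have h1 : HasDerivAt (fun s : ℝ => x + s • v) v t := by
      have := ((hasDerivAt_id t).smul_const v).const_add x
      simpa using this
    have h2 := (hu (x + t • v)).hasFDerivAt.comp_hasDerivAt t h1
    rw [fderiv_eq_sum_pd, hv] at h2
    exact h2
  have hc := is_const_of_deriv_eq_zero (fun t => (hd t).differentiableAt) (fun t => (hd t).deriv) 1 0
  simpa using hc

/-- Reduction to two variables. -/
theorem two_vars (hS : ∀ i : Fin n, i ∈ S ∨ i = p ∨ i = q) (hpq : p ≠ q)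
    (hu : Sol u) (hpos : ∀ x, 0 < pd q u x) (h0 : ∀ x, ∀ i ∈ S, pd i u x = 0)
    (hp : p ∉ S) (hq : q ∉ S) :
    ∃ κ : ℝ, ∀ x, pd p u x = κ * pd q u x := by
  classical
  have du : Differentiable ℝ u := hu.c2.differentiable (by norm_num)
  set L : (Fin 2 → ℝ) →L[ℝ] (Fin n → ℝ) :=
    (ContinuousLinearMap.proj (R := ℝ) (φ := fun _ : Fin 2 => ℝ) 0).smulRight (Pi.single p 1)
      + (ContinuousLinearMap.proj (R := ℝ) (φ := fun _ : Fin 2 => ℝ) 1).smulRight (Pi.single q 1)
    with hL
  have hLa : ∀ y, L y = y 0 • Pi.single p 1 + y 1 • Pi.single q 1 := fun y => by simp [hL]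
  have hpdc : ∀ (F : (Fin n → ℝ) → ℝ), Differentiable ℝ F → ∀ y,
      pd 0 (fun y => F (L y)) y = pd p F (L y) ∧ pd 1 (fun y => F (L y)) y = pd q F (L y) := by
    intro F hF y
    have h1 : fderiv ℝ (fun y => F (L y)) y = (fderiv ℝ F (L y)).comp L :=
      ((hF (L y)).hasFDerivAt.comp y L.hasFDerivAt).fderiv
    unfold pd
    rw [h1]
    constructor
    · simp only [hLa, Fin.isValue, ContinuousLinearMap.comp_apply, Pi.single_eq_same, one_smul, ne_eq, one_ne_zero, not_false_eq_true, Pi.single_eq_of_ne, zero_smul, add_zero]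
    · simp [hLa]
  set v : (Fin 2 → ℝ) → ℝ := fun y => u (L y) with hv
  have hpd0 : pd 0 v = fun y => pd p u (L y) := funext fun y => (hpdc u du y).1
  have hpd1 : pd 1 v = fun y => pd q u (L y) := funext fun y => (hpdc u du y).2
  have d1 : ∀ i, Differentiable ℝ (pd i u) := fun i =>
    (contDiff_pd_one hu.c2).differentiable (by norm_num)
  have hsol : Sol v := by
    refine ⟨hu.c2.comp L.contDiff, fun y => hu.bd _, fun y => ?_⟩
    rw [Fin.sum_univ_two, hpd0, hpd1, (hpdc _ (d1 p) y).1, (hpdc _ (d1 q) y).2, ← hu.eq (L y)]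
    have hpp : ∀ i ∈ S, pd i (pd i u) (L y) = 0 := by
      intro i hi
      have : pd i u = fun _ => 0 := funext fun z => h0 z i hi
      rw [this, pd_const]
    have huniv : (Finset.univ : Finset (Fin n)) = insert p (insert q S) := by
      ext i
      simp only [Finset.mem_univ, Finset.mem_insert, true_iff]
      rcases hS i with h | h | h
      · exact Or.inr (Or.inr h)
      · exact Or.inl h
      · exact Or.inr (Or.inl h)
    rw [huniv, Finset.sum_insert (by simp [hpq, hp]), Finset.sum_insert hq, Finset.sum_eq_zero hpp,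
      add_zero]
  have hpos2 : ∀ y, 0 < pd 1 v y := fun y => by rw [hpd1]; exact hpos _
  obtain ⟨κ, hκ⟩ := two_dim hsol hpos2
  refine ⟨κ, fun x => ?_⟩
  set y : Fin 2 → ℝ := ![x p, x q] with hy
  have h1 := hκ y
  rw [hpd0, hpd1] at h1
  simp only at h1
  set w : Fin n → ℝ := x - L y with hw
  have hwp : w p = 0 := by
    rw [hw, hLa]
    simp [hy, hpq]
  have hwq : w q = 0 := by
    rw [hw, hLa]
    simp [hy, Ne.symm hpq]
  have hwz : ∀ z, ∑ i, w i * pd i u z = 0 := by
    intro z
    apply Finset.sum_eq_zero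
    intro i _
    rcases hS i with h | h | h
    · rw [h0 z i h, mul_zero]
    · subst h; rw [hwp, zero_mul]
    · subst h; rw [hwq, zero_mul]
  have htr : (fun z => u (z + w)) = u := funext fun z => eq_of_fderiv_zero du hwz z
  have hx : L y + w = x := by rw [hw]; abel
  have e : ∀ i, pd i u x = pd i u (L y) := by
    intro i
    rw [← hx, ← pd_translate (f := u) w, htr]
  rw [e, e, h1]

/-- Main theorem in coordinates. -/
theorem coord_main (hS : ∀ i : Fin n, i ∈ S ∨ i = p ∨ i = q) (hpq : p ≠ q)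
    (hp : p ∉ S) (hq : q ∉ S) (hcard : S.card = 2 ∨ S.card = 3 ∨ S.card = 4)
    (hn : n = S.card + 2)
    (hu : Sol u) (hpos : ∀ x, 0 < pd q u x) (hrot : RotInv S u) :
    ∃ (κ : ℝ) (H : ℝ → ℝ), ∀ x, u x = H (κ * x p + x q) := by
  have du : Differentiable ℝ u := hu.c2.differentiable (by norm_num)
  have h0 : ∀ x, ∀ i ∈ S, pd i u x = 0 := by
    rcases hcard with h | h | h
    · have hn' : (n:ℝ) = 4 := by rw [hn, h]; norm_num
      exact rot_zero (α := 3/4) hS hp hq hpq (by norm_num) (by norm_num)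
        (by rw [h]; norm_num) (by rw [hn']; norm_num) hu hrot hpos
    · have hn' : (n:ℝ) = 5 := by rw [hn, h]; norm_num
      exact rot_zero (α := 5/4) hS hp hq hpq (by norm_num) (by norm_num)
        (by rw [h]; norm_num) (by rw [hn']; norm_num) hu hrot hpos
    · have hn' : (n:ℝ) = 6 := by rw [hn, h]; norm_num
      exact rot_zero (α := 8/5) hS hp hq hpq (by norm_num) (by norm_num)
        (by rw [h]; norm_num) (by rw [hn']; norm_num) hu hrot hpos
  obtain ⟨κ, hκ⟩ := two_vars hS hpq hu hpos h0 hp hq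
  refine ⟨κ, fun t => u (t • Pi.single q 1), fun x => ?_⟩
  simp only
  set w : Fin n → ℝ := x - (κ * x p + x q) • Pi.single q 1 with hw
  have hwz : ∀ z, ∑ i, w i * pd i u z = 0 := by
    intro z
    have hsub : ∑ i, w i * pd i u z = w p * pd p u z + w q * pd q u z := by
      rw [← Finset.add_sum_erase _ _ (Finset.mem_univ p),
        ← Finset.add_sum_erase _ _ (Finset.mem_erase.mpr ⟨Ne.symm hpq, Finset.mem_univ q⟩),
        Finset.sum_eq_zero, add_zero]
      intro i hi
      have hiq := Finset.ne_of_mem_erase hi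
      have hip := Finset.ne_of_mem_erase (Finset.mem_of_mem_erase hi)
      rcases hS i with h | h | h
      · rw [h0 z i h, mul_zero]
      · exact absurd h hip
      · exact absurd h hiq
    rw [hsub, hκ]
    have e1 : w p = x p := by rw [hw]; simp [hpq]
    have e2 : w q = -(κ * x p) := by rw [hw]; simp
    rw [e1, e2]; ring
  have h1 := eq_of_fderiv_zero du hwz ((κ * x p + x q) • Pi.single q 1)
  rw [← h1]
  congr 1
  rw [hw]; abel

end Vale.Agent.P134
end
end

section

section

open Filter Topology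
open scoped InnerProductSpace Laplacian

namespace Vale.Agent.P134

variable {n : ℕ}

/-- Coordinates with respect to an orthonormal basis: the linear part. -/
noncomputable def coordMap (b : OrthonormalBasis (Fin n) ℝ (EuclideanSpace ℝ (Fin n))) :
    (Fin n → ℝ) →L[ℝ] EuclideanSpace ℝ (Fin n) :=
  ∑ i, (ContinuousLinearMap.proj (R := ℝ) (φ := fun _ : Fin n => ℝ) i).smulRight (b i)

lemma coordMap_apply (b : OrthonormalBasis (Fin n) ℝ (EuclideanSpace ℝ (Fin n))) (y : Fin n → ℝ) :
    coordMap b y = ∑ i, y i • b i := by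
  simp only [coordMap, sum_apply, ContinuousLinearMap.smulRight_apply, ContinuousLinearMap.proj_apply]

lemma coordMap_single (b : OrthonormalBasis (Fin n) ℝ (EuclideanSpace ℝ (Fin n))) (i : Fin n) :
    coordMap b (Pi.single i 1) = b i := by
  rw [coordMap_apply, Finset.sum_eq_single i]
  · simp
  · intro j _ hj; simp [hj]
  · simp only [Finset.mem_univ, not_true_eq_false, Pi.single_eq_same, one_smul, IsEmpty.forall_iff]

lemma pd_coord_comp {F : EuclideanSpace ℝ (Fin n) → ℝ} (hF : Differentiable ℝ F)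
    (b : OrthonormalBasis (Fin n) ℝ (EuclideanSpace ℝ (Fin n))) (p : EuclideanSpace ℝ (Fin n))
    (i : Fin n) (y : Fin n → ℝ) :
    pd i (fun y => F (p + coordMap b y)) y = fderiv ℝ F (p + coordMap b y) (b i) := by
  have h1 : HasFDerivAt (fun y => p + coordMap b y) (coordMap b) y :=
    (coordMap b).hasFDerivAt.const_add p
  have h2 := ((hF (p + coordMap b y)).hasFDerivAt.comp y h1).fderiv
  unfold pd
  rw [show (fun y => F (p + coordMap b y)) = F ∘ fun y => p + coordMap b y from rfl, h2]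
  simp [coordMap_single]

theorem sol_of_euclidean {u : EuclideanSpace ℝ (Fin n) → ℝ} (hu : ContDiff ℝ 2 u)
    (heq : ∀ x, Δ u x = u x ^ 3 - u x) (hb : ∀ x, |u x| ≤ 1)
    (b : OrthonormalBasis (Fin n) ℝ (EuclideanSpace ℝ (Fin n))) (p : EuclideanSpace ℝ (Fin n)) :
    Sol (fun y => u (p + coordMap b y)) := by
  have du : Differentiable ℝ u := hu.differentiable (by norm_num)
  have dfu : Differentiable ℝ (fderiv ℝ u) :=
    (hu.fderiv_right (m := 1) (by norm_num)).differentiable (by norm_num)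
  refine ⟨hu.comp (contDiff_const.add (coordMap b).contDiff), fun y => hb _, fun y => ?_⟩
  have h1 : ∀ i, pd i (fun y => u (p + coordMap b y))
      = fun y => (fun x => fderiv ℝ u x (b i)) (p + coordMap b y) := fun i =>
    funext fun y => pd_coord_comp du b p i y
  have h2 : ∀ i, pd i (pd i (fun y => u (p + coordMap b y))) y
      = iteratedFDeriv ℝ 2 u (p + coordMap b y) ![b i, b i] := by
    intro i
    have hd : Differentiable ℝ (fun x => fderiv ℝ u x (b i)) := fun x =>
      (dfu x).clm_apply (differentiableAt_const _)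
    rw [h1 i, pd_coord_comp hd b p i y, iteratedFDeriv_two_apply]
    have h3 : HasFDerivAt (fun x => fderiv ℝ u x (b i))
        ((ContinuousLinearMap.apply ℝ ℝ (b i)).comp (fderiv ℝ (fderiv ℝ u) (p + coordMap b y)))
        (p + coordMap b y) :=
      (ContinuousLinearMap.apply ℝ ℝ (b i)).hasFDerivAt.comp _ (dfu _).hasFDerivAt
    rw [h3.fderiv]
    simp only [ContinuousLinearMap.comp_apply, ContinuousLinearMap.apply_apply, Fin.isValue, Matrix.cons_val_zero, Matrix.cons_val_one, Matrix.cons_val_fin_one]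
  simp_rw [h2]
  rw [← heq, InnerProductSpace.laplacian_eq_iteratedFDeriv_orthonormalBasis u b]

/-- Every point is reached by the coordinates. -/
lemma coordMap_repr (b : OrthonormalBasis (Fin n) ℝ (EuclideanSpace ℝ (Fin n)))
    (p x : EuclideanSpace ℝ (Fin n)) :
    p + coordMap b (fun i => ⟪b i, x - p⟫_ℝ) = x := by
  rw [coordMap_apply, b.sum_repr']
  abel

end Vale.Agent.P134
end
end

section

section

open MeasureTheory Filter Topology Module
open scoped InnerProductSpace Laplacian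

namespace Vale.Agent.P134

variable {n : ℕ}

/-- Coordinate form of the one-dimensionality of recurrent solutions. -/
theorem rec_coord {u : (Fin n → ℝ) → ℝ} {e : Fin n → ℝ} {S : Finset (Fin n)} {q : Fin n}
    (hu : Sol u) (hpos : ∀ x, 0 < dd e u x) (hqS : q ∉ S) (heq : e q ≠ 0)
    (he : ∀ i, i ∉ S → i ≠ q → e i = 0) (hcard : (Sᶜ).card ≤ 3)
    (hrec : ∀ ε : ℝ, 0 < ε → ∀ R : ℝ, ∃ L : ℝ, ∀ v : Fin n → ℝ, (∀ i, i ∉ S → v i = 0) →
      ∃ τ : Fin n → ℝ, ‖τ - v‖ ≤ L ∧ ∀ x, ‖x‖ ≤ R → |u (x + τ) - u x| ≤ ε) :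
    ∃ ν : Fin n → ℝ, ∑ i, ν i ^ 2 = 1 ∧ ∃ g : ℝ → ℝ, ∀ x, u x = g (∑ i, ν i * x i) := by
  have hmd := meanDef_of_dir hu hpos hqS heq he hcard
  have h0 := defi_zero_of_rec hu hmd hrec
  have hpsi : ∀ x, 0 < psi u x := by
    rcases hu.psi_dichotomy with h1 | h1
    · exfalso
      have h2 : ∀ x, u x ^ 2 = 1 := fun x => by
        have := h1 x
        unfold psi at this
        linarith only [this]
      have hd : DifferentiableAt ℝ u 0 := (hu.c2.differentiable (by norm_num)) 0
      have h3 := hpos 0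
      rw [dd_eq_fderiv] at h3
      have h4 : fderiv ℝ (fun y => u y ^ 2) 0 e = 0 := by
        have : (fun y => u y ^ 2) = fun _ => (1:ℝ) := funext h2
        rw [this]; simp
      have h5 : fderiv ℝ (fun y => u y ^ 2) 0 e = 2 * u 0 * fderiv ℝ u 0 e := by
        have h6 : HasFDerivAt (fun y => u y ^ 2) ((2 * u 0 ^ (2 - 1)) • fderiv ℝ u 0) 0 := by
          simpa only [Nat.add_one_sub_one, pow_one, nsmul_eq_mul, Nat.cast_ofNat] using hd.hasFDerivAt.pow 2
        rw [h6.fderiv]
        simp only [Nat.add_one_sub_one, pow_one, smul_apply, smul_eq_mul]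
      rw [h4] at h5
      have h6 : u 0 ≠ 0 := by
        intro h7
        have := h2 0
        rw [h7] at this
        norm_num at this
      have h8 : 2 * u 0 * fderiv ℝ u 0 e ≠ 0 :=
        mul_ne_zero (mul_ne_zero two_ne_zero h6) h3.ne'
      exact h8 h5.symm
    · exact h1
  exact hu.one_dim_of_defi_zero (fun x => (mul_eq_zero.mp (h0 x)).resolve_left (hpsi x).ne')
    ⟨0, hpsi 0⟩

/-- Orthonormal basis adapted to a subspace and a vector outside it. -/
lemma exists_basis_split {V : Submodule ℝ (EuclideanSpace ℝ (Fin n))}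
    {a : EuclideanSpace ℝ (Fin n)} (ha : a ∉ V) :
    ∃ (b : OrthonormalBasis (Fin n) ℝ (EuclideanSpace ℝ (Fin n))) (S : Finset (Fin n)) (q : Fin n),
      q ∉ S ∧ S.card = finrank ℝ V ∧ (∀ i ∈ S, b i ∈ V) ∧ (∀ v ∈ V, ∀ i, i ∉ S → ⟪b i, v⟫_ℝ = 0) ∧
      ⟪b q, a⟫_ℝ ≠ 0 ∧ ∀ i, i ∉ S → i ≠ q → ⟪b i, a⟫_ℝ = 0 := by
  classical
  set k : ℕ := finrank ℝ V with hk
  have hkn : k < n := by
    have h1 : finrank ℝ V < finrank ℝ (EuclideanSpace ℝ (Fin n)) := by
      apply Submodule.finrank_lt
      intro h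
      rw [h] at ha
      exact ha trivial
    simpa only [gt_iff_lt, finrank_euclideanSpace, Fintype.card_fin] using h1
  set c : OrthonormalBasis (Fin k) ℝ V := stdOrthonormalBasis ℝ V with hc
  set a' : EuclideanSpace ℝ (Fin n) := a - V.starProjection a with ha'
  have ha'0 : a' ≠ 0 := by
    intro h
    rw [ha', sub_eq_zero] at h
    apply ha
    rw [h]
    exact V.starProjection_apply_mem a
  have hna : 0 < ‖a'‖ := norm_pos_iff.mpr ha'0
  have horth : ∀ v ∈ V, ⟪v, a'⟫_ℝ = 0 := fun v hv =>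
    (Submodule.mem_orthogonal V _).mp (V.sub_starProjection_mem_orthogonal a) v hv
  set w : Fin n → EuclideanSpace ℝ (Fin n) := fun i =>
    if h : i.val < k then (c ⟨i.val, h⟩ : EuclideanSpace ℝ (Fin n)) else (‖a'‖)⁻¹ • a' with hw
  set q : Fin n := ⟨k, hkn⟩ with hq
  have hwlt : ∀ (i : Fin n) (h : i.val < k), w i = (c ⟨i.val, h⟩ : EuclideanSpace ℝ (Fin n)) := by
    intro i h
    simp only [hw, dif_pos h]
  have hwq : w q = (‖a'‖)⁻¹ • a' := by
    have : ¬ (q.val < k) := by simp [hq]
    simp only [hw, dif_neg this]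
  have ho : Orthonormal ℝ (({i | i.val ≤ k} : Set (Fin n)).domRestrict w) := by
    constructor
    · rintro ⟨i, hi⟩
      change ‖w i‖ = 1
      by_cases h : i.val < k
      · rw [hwlt i h]
        exact c.orthonormal.1 _
      · have hiq : i = q := Fin.ext (le_antisymm hi (not_lt.mp h))
        rw [hiq, hwq, norm_smul, norm_inv, norm_norm]
        field_simp
    · rintro ⟨i, hi⟩ ⟨j, hj⟩ hij
      have hij' : i ≠ j := fun h => hij (Subtype.ext h)
      change ⟪w i, w j⟫_ℝ = 0
      by_cases h : i.val < k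
      · by_cases h' : j.val < k
        · rw [hwlt i h, hwlt j h']
          have : ⟪c ⟨i.val, h⟩, c ⟨j.val, h'⟩⟫_ℝ = 0 := by
            apply c.orthonormal.2
            intro h2
            exact hij' (Fin.ext (by simpa using congrArg Fin.val h2))
          exact this
        · have hjq : j = q := Fin.ext (le_antisymm hj (not_lt.mp h'))
          rw [hjq, hwq, hwlt i h, inner_smul_right, horth _ (c ⟨i.val, h⟩).2, mul_zero]
      · have hiq : i = q := Fin.ext (le_antisymm hi (not_lt.mp h))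
        by_cases h' : j.val < k
        · rw [hiq, hwq, hwlt j h', real_inner_comm, inner_smul_right,
            horth _ (c ⟨j.val, h'⟩).2, mul_zero]
        · have hjq : j = q := Fin.ext (le_antisymm hj (not_lt.mp h'))
          exact absurd (hiq.trans hjq.symm) hij'
  obtain ⟨b, hb⟩ := ho.exists_orthonormalBasis_extension_of_card_eq (by simp only [finrank_euclideanSpace, Fintype.card_fin])
  have hbq : b q = (‖a'‖)⁻¹ • a' := by
    rw [← hwq]
    exact hb q (by simp [hq])
  have hblt : ∀ (i : Fin n) (h : i.val < k), b i = (c ⟨i.val, h⟩ : EuclideanSpace ℝ (Fin n)) := by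
    intro i h
    rw [← hwlt i h]
    exact hb i h.le
  set S : Finset (Fin n) := (Finset.univ : Finset (Fin k)).map (Fin.castLEEmb hkn.le) with hS
  have hmemS : ∀ i : Fin n, i ∈ S ↔ i.val < k := by
    intro i
    rw [hS, Finset.mem_map]
    constructor
    · rintro ⟨j, -, rfl⟩
      simp
    · intro h
      exact ⟨⟨i.val, h⟩, Finset.mem_univ _, Fin.ext rfl⟩
  have hVb : ∀ v ∈ V, ∀ i, i ∉ S → ⟪b i, v⟫_ℝ = 0 := by
    intro v hv i hi
    rw [hmemS] at hi
    have h2 : (⟨v, hv⟩ : V) = ∑ j, ⟪c j, (⟨v, hv⟩ : V)⟫_ℝ • c j := (c.sum_repr' _).symm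
    have h3 : v = ∑ j, ⟪c j, (⟨v, hv⟩ : V)⟫_ℝ • (c j : EuclideanSpace ℝ (Fin n)) := by
      have := congrArg (Subtype.val) h2
      simpa only [Submodule.coe_inner, AddSubmonoidClass.coe_finsetSum, SetLike.val_smul] using this
    rw [h3, inner_sum]
    apply Finset.sum_eq_zero
    intro j _
    have h4 : (c j : EuclideanSpace ℝ (Fin n)) = b (Fin.castLE hkn.le j) := by
      rw [hblt (Fin.castLE hkn.le j) (by simp)]
      rfl
    rw [inner_smul_right, h4, b.orthonormal.2, mul_zero]
    intro h5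
    apply hi
    rw [h5]
    simp
  have ha_split : a = V.starProjection a + ‖a'‖ • b q := by
    rw [hbq, smul_smul, mul_inv_cancel₀ hna.ne', one_smul, ha']
    abel
  have hqS : q ∉ S := by rw [hmemS]; simp [hq]
  refine ⟨b, S, q, hqS, ?_, ?_, hVb, ?_, ?_⟩
  · rw [hS, Finset.card_map, Finset.card_univ, Fintype.card_fin]
  · intro i hi
    rw [hmemS] at hi
    rw [hblt i hi]
    exact (c ⟨i.val, hi⟩).2
  · rw [ha_split, inner_add_right, hVb _ (V.starProjection_apply_mem a) q hqS, inner_smul_right,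
      real_inner_self_eq_norm_sq, b.orthonormal.1 q]
    simp [hna.ne']
  · intro i hi hiq
    rw [ha_split, inner_add_right, hVb _ (V.starProjection_apply_mem a) i hi, inner_smul_right,
      b.orthonormal.2 hiq]
    simp

lemma inner_coordMap (b : OrthonormalBasis (Fin n) ℝ (EuclideanSpace ℝ (Fin n))) (y : Fin n → ℝ)
    (i : Fin n) : ⟪b i, coordMap b y⟫_ℝ = y i := by
  rw [coordMap_apply, inner_sum, Finset.sum_eq_single i]
  · rw [inner_smul_right, real_inner_self_eq_norm_sq, b.orthonormal.1 i]; ring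
  · intro j _ hj
    rw [inner_smul_right, b.orthonormal.2 (Ne.symm hj), mul_zero]
  · simp only [Finset.mem_univ, not_true_eq_false, IsEmpty.forall_iff]

lemma coordMap_inner (b : OrthonormalBasis (Fin n) ℝ (EuclideanSpace ℝ (Fin n)))
    (x : EuclideanSpace ℝ (Fin n)) : coordMap b (fun i => ⟪b i, x⟫_ℝ) = x := by
  rw [coordMap_apply, b.sum_repr']

lemma norm_coordMap_le (b : OrthonormalBasis (Fin n) ℝ (EuclideanSpace ℝ (Fin n)))
    (y : Fin n → ℝ) : ‖coordMap b y‖ ≤ n * ‖y‖ := by
  rw [coordMap_apply]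
  refine (norm_sum_le _ _).trans ?_
  calc ∑ i, ‖y i • b i‖ ≤ ∑ _i : Fin n, ‖y‖ := by
        refine Finset.sum_le_sum fun i _ => ?_
        rw [norm_smul, b.orthonormal.1 i, mul_one]
        exact norm_le_pi_norm y i
    _ = n * ‖y‖ := by simp only [Finset.sum_const, Finset.card_univ, Fintype.card_fin, nsmul_eq_mul]

lemma norm_le_norm_coordMap (b : OrthonormalBasis (Fin n) ℝ (EuclideanSpace ℝ (Fin n)))
    (y : Fin n → ℝ) : ‖y‖ ≤ ‖coordMap b y‖ := by
  rw [pi_norm_le_iff_of_nonneg (norm_nonneg _)]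
  intro i
  rw [← inner_coordMap b y i, Real.norm_eq_abs]
  refine (abs_real_inner_le_norm _ _).trans ?_
  rw [b.orthonormal.1 i, one_mul]

lemma dd_coord {u : EuclideanSpace ℝ (Fin n) → ℝ} (du : Differentiable ℝ u)
    (b : OrthonormalBasis (Fin n) ℝ (EuclideanSpace ℝ (Fin n))) (p a : EuclideanSpace ℝ (Fin n))
    (y : Fin n → ℝ) :
    dd (fun i => ⟪b i, a⟫_ℝ) (fun y => u (p + coordMap b y)) y
      = fderiv ℝ u (p + coordMap b y) a := by
  unfold dd
  simp_rw [pd_coord_comp du b p]
  conv_rhs => rw [← b.sum_repr' a]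
  rw [map_sum]
  simp_rw [map_smul, smul_eq_mul]

/-- De Giorgi's conjecture for solutions which are uniformly recurrent along a subspace of
codimension at most three. -/
theorem rec_euclid {u : EuclideanSpace ℝ (Fin n) → ℝ}
    (hu : ContDiff ℝ 2 u) (heq : ∀ x, Δ u x = u x ^ 3 - u x) (hb : ∀ x, |u x| ≤ 1)
    {a : EuclideanSpace ℝ (Fin n)} (ha : ∀ x, 0 < fderiv ℝ u x a)
    {V : Submodule ℝ (EuclideanSpace ℝ (Fin n))} (hV : n ≤ finrank ℝ V + 3)
    (hrec : ∀ ε : ℝ, 0 < ε → ∀ R : ℝ, ∃ L : ℝ, ∀ v ∈ V, ∃ τ : EuclideanSpace ℝ (Fin n),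
      ‖τ - v‖ ≤ L ∧ ∀ x, ‖x‖ ≤ R → |u (x + τ) - u x| ≤ ε) :
    ∃ (e : EuclideanSpace ℝ (Fin n)) (h : ℝ → ℝ), ‖e‖ = 1 ∧ ∀ x, u x = h ⟪e, x⟫_ℝ := by
  classical
  have du : Differentiable ℝ u := hu.differentiable (by norm_num)
  -- transfer of the recurrence property to coordinates
  have hrec' : ∀ (b : OrthonormalBasis (Fin n) ℝ (EuclideanSpace ℝ (Fin n))) (ε : ℝ), 0 < ε →
      ∀ R : ℝ, ∃ L : ℝ, ∀ v : Fin n → ℝ, coordMap b v ∈ V →
      ∃ τ : Fin n → ℝ, ‖τ - v‖ ≤ L ∧ ∀ x, ‖x‖ ≤ R →
        |u (0 + coordMap b (x + τ)) - u (0 + coordMap b x)| ≤ ε := by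
    intro b ε hε R
    obtain ⟨L, hL⟩ := hrec ε hε (n * R)
    refine ⟨L, fun v hv => ?_⟩
    obtain ⟨τ, hτ1, hτ2⟩ := hL _ hv
    refine ⟨fun i => ⟪b i, τ⟫_ℝ, ?_, fun x hx => ?_⟩
    · refine (norm_le_norm_coordMap b _).trans ?_
      rw [map_sub, coordMap_inner]
      exact hτ1
    · rw [zero_add, zero_add, map_add, coordMap_inner]
      apply hτ2
      refine (norm_coordMap_le b x).trans ?_
      (clear * - hx; gcongr)
  -- the direction of monotonicity is not in `V`
  have haV : a ∉ V := by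
    intro haV
    set b : OrthonormalBasis (Fin n) ℝ (EuclideanSpace ℝ (Fin n)) :=
      EuclideanSpace.basisFun (Fin n) ℝ with hbdef
    have hsol := sol_of_euclidean hu heq hb b 0
    refine not_rec_dir (e := fun i => ⟪b i, a⟫_ℝ) hsol (fun y => ?_) ?_
    · rw [dd_coord du]; exact ha _
    · intro ε hε R
      obtain ⟨L, hL⟩ := hrec' b ε hε R
      refine ⟨L, fun t => hL _ ?_⟩
      rw [map_smul, coordMap_inner]
      exact V.smul_mem t haV
  obtain ⟨b, S, q, hqS, hcard, hbV, hVb, hq0, hi0⟩ := exists_basis_split haV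
  have hsol := sol_of_euclidean hu heq hb b 0
  obtain ⟨ν, hν, g, hg⟩ := rec_coord (e := fun i => ⟪b i, a⟫_ℝ) hsol
    (fun y => by rw [dd_coord du]; exact ha _) hqS hq0 hi0
    (by rw [Finset.card_compl, Fintype.card_fin, hcard]; omega)
    (by
      intro ε hε R
      obtain ⟨L, hL⟩ := hrec' b ε hε R
      refine ⟨L, fun v hv => hL v ?_⟩
      rw [coordMap_apply]
      apply Submodule.sum_mem
      intro i _
      by_cases hi : i ∈ S
      · exact V.smul_mem _ (hbV i hi)
      · rw [hv i hi, zero_smul]; exact V.zero_mem)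
  refine ⟨coordMap b ν, g, ?_, fun x => ?_⟩
  · have h1 : ‖coordMap b ν‖ ^ 2 = 1 := by
      rw [← hν, ← real_inner_self_eq_norm_sq]
      conv_lhs => rw [coordMap_apply, sum_inner]
      refine Finset.sum_congr rfl fun i _ => ?_
      rw [inner_smul_left, ← coordMap_apply, inner_coordMap]
      simp; ring
    have h2 : 0 ≤ ‖coordMap b ν‖ := norm_nonneg _
    (clear * - n b ν h1 h2; nlinarith only [h1, h2])
  · have h1 := hg (fun i => ⟪b i, x⟫_ℝ)
    rw [zero_add, coordMap_inner] at h1
    rw [h1]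
    congr 1
    rw [coordMap_apply, sum_inner]
    refine Finset.sum_congr rfl fun i _ => ?_
    rw [inner_smul_left]
    simp

end Vale.Agent.P134
end
end

section

section

open Filter Topology Module
open scoped InnerProductSpace Laplacian

namespace Vale.Agent.P134

variable {n : ℕ}

/-- An orthonormal basis adapted to a two dimensional subspace and a vector of it. -/
lemma exists_adapted_basis {V : Submodule ℝ (EuclideanSpace ℝ (Fin n))} (hV : finrank ℝ V = 2)
    {e : EuclideanSpace ℝ (Fin n)} (heV : e ∈ V) (he : ‖e‖ = 1) {p q : Fin n} (hpq : p ≠ q) :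
    ∃ b : OrthonormalBasis (Fin n) ℝ (EuclideanSpace ℝ (Fin n)), b q = e ∧ b p ∈ V ∧
      ∀ i, i ≠ p → i ≠ q → b i ∈ Vᗮ := by
  classical
  -- orthonormal basis of `V`
  have h1 : ∃ c : OrthonormalBasis (Fin 2) ℝ V, c 1 = ⟨e, heV⟩ := by
    have ho : Orthonormal ℝ (({1} : Set (Fin 2)).domRestrict (fun _ : Fin 2 => (⟨e, heV⟩ : V))) := by
      rw [orthonormal_iff_ite]
      rintro ⟨i, hi⟩ ⟨j, hj⟩
      have hi' : i = 1 := hi
      have hj' : j = 1 := hj
      subst hi'; subst hj'
      simp only [Fin.isValue, Set.domRestrict_apply, inner_self_eq_norm_sq_to_K, Submodule.coe_norm, he, Real.ringHom_apply, one_pow, ↓reduceIte]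
    obtain ⟨c, hc⟩ := ho.exists_orthonormalBasis_extension_of_card_eq (by simp [hV])
    exact ⟨c, hc 1 rfl⟩
  obtain ⟨c, hc⟩ := h1
  set w : Fin n → EuclideanSpace ℝ (Fin n) := fun i => if i = q then e else (c 0 : _) with hw
  have ho : Orthonormal ℝ (({p, q} : Set (Fin n)).domRestrict w) := by
    have hc0 : ‖(c 0 : EuclideanSpace ℝ (Fin n))‖ = 1 := c.orthonormal.1 0
    have hc1 : ⟪(c 0 : EuclideanSpace ℝ (Fin n)), e⟫_ℝ = 0 := by
      have h : ⟪c 0, c 1⟫_ℝ = 0 := c.orthonormal.2 (by decide)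
      rw [hc] at h
      exact h
    have hc2 : ⟪e, (c 0 : EuclideanSpace ℝ (Fin n))⟫_ℝ = 0 := by
      rw [real_inner_comm]; exact hc1
    constructor
    · rintro ⟨i, hi⟩
      change ‖w i‖ = 1
      simp only [hw]
      split_ifs
      · exact he
      · exact hc0
    · rintro ⟨i, hi⟩ ⟨j, hj⟩ hij
      have hij' : i ≠ j := fun h => hij (Subtype.ext h)
      change ⟪w i, w j⟫_ℝ = 0
      have hi' : i = p ∨ i = q := by simpa using hi
      have hj' : j = p ∨ j = q := by simpa using hj
      rcases hi' with rfl | rfl <;> rcases hj' with rfl | rfl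
      · exact absurd rfl hij'
      · simp only [hw, if_neg hpq, if_true]
        exact hc1
      · simp only [hw, if_neg hpq, if_true]
        exact hc2
      · exact absurd rfl hij'
  obtain ⟨b, hb⟩ := ho.exists_orthonormalBasis_extension_of_card_eq (by simp only [finrank_euclideanSpace, Fintype.card_fin])
  have hbq : b q = e := by
    have := hb q (by simp)
    simpa only [hw, Fin.isValue, ↓reduceIte] using this
  have hbp : b p = c 0 := by
    have := hb p (by simp)
    simpa only [Fin.isValue, hw, hpq, ↓reduceIte] using this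
  refine ⟨b, hbq, by rw [hbp]; exact (c 0).2, fun i hip hiq => ?_⟩
  rw [Submodule.mem_orthogonal]
  intro v hv
  have h2 : (⟨v, hv⟩ : V) = ∑ k, ⟪c k, (⟨v, hv⟩ : V)⟫_ℝ • c k := (c.sum_repr' _).symm
  have h3 : v = ⟪c 0, (⟨v, hv⟩ : V)⟫_ℝ • (c 0 : EuclideanSpace ℝ (Fin n))
      + ⟪c 1, (⟨v, hv⟩ : V)⟫_ℝ • (c 1 : EuclideanSpace ℝ (Fin n)) := by
    have := congrArg (Subtype.val) h2
    simpa only [Fin.isValue, Submodule.coe_inner, Fin.sum_univ_two, Submodule.coe_add, SetLike.val_smul] using     this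
  have h4 : ⟪b p, b i⟫_ℝ = 0 := b.orthonormal.2 (Ne.symm hip)
  have h5 : ⟪b q, b i⟫_ℝ = 0 := b.orthonormal.2 (Ne.symm hiq)
  have h6 : (c 1 : EuclideanSpace ℝ (Fin n)) = b q := by rw [hc, hbq]
  rw [h3, inner_add_left, inner_smul_left, inner_smul_left, ← hbp, h6, h4, h5]
  simp only [Fin.isValue, Submodule.coe_inner, Real.ringHom_apply, mul_zero, add_zero]

theorem rot_main (hn4 : 4 ≤ n) (hn6 : n ≤ 6) {u : EuclideanSpace ℝ (Fin n) → ℝ}
    (hu : ContDiff ℝ 2 u) (heq : ∀ x, Δ u x = u x ^ 3 - u x) (hb : ∀ x, |u x| ≤ 1)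
    {a : EuclideanSpace ℝ (Fin n)} (ha : ∀ x, 0 < fderiv ℝ u x a)
    {V : Submodule ℝ (EuclideanSpace ℝ (Fin n))} (hV : finrank ℝ V = 2)
    {p0 : EuclideanSpace ℝ (Fin n)}
    (hsym : ∀ x y, (∀ v ∈ V, ⟪v, x - y⟫_ℝ = 0) → ‖x - p0‖ = ‖y - p0‖ → u x = u y) :
    ∃ (e : EuclideanSpace ℝ (Fin n)) (h : ℝ → ℝ), ‖e‖ = 1 ∧ ∀ x, u x = h ⟪e, x⟫_ℝ := by
  classical
  have du : Differentiable ℝ u := hu.differentiable (by norm_num)
  -- the projected direction
  set a' : EuclideanSpace ℝ (Fin n) := (V.starProjection a) with ha'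
  have ha'V : a' ∈ V := V.starProjection_apply_mem a
  set Rf : EuclideanSpace ℝ (Fin n) →L[ℝ] EuclideanSpace ℝ (Fin n) :=
    (2 : ℝ) • V.starProjection - ContinuousLinearMap.id ℝ _ with hRf
  have hRf_apply : ∀ z, Rf z = (2 : ℝ) • V.starProjection z - z := fun z => by simp [hRf]
  have horth : ∀ z, ∀ v ∈ V, ⟪v, z - V.starProjection z⟫_ℝ = 0 := by
    intro z v hv
    exact (Submodule.mem_orthogonal V _).mp (V.sub_starProjection_mem_orthogonal z) v hv
  have hRfinv : ∀ x, u (p0 + Rf (x - p0)) = u x := by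
    intro x
    apply hsym
    · intro v hv
      have h1 := horth (x - p0) v hv
      have h2 : p0 + Rf (x - p0) - x = -((2:ℝ) • ((x - p0) - V.starProjection (x - p0))) := by
        rw [hRf_apply, smul_sub, two_smul ℝ (x - p0)]; abel
      rw [h2, inner_neg_right, inner_smul_right, h1]; simp
    · have h1 : p0 + Rf (x - p0) - p0 = Rf (x - p0) := by abel
      rw [h1, hRf_apply]
      set z := x - p0
      have h2 : ⟪V.starProjection z, z - V.starProjection z⟫_ℝ = 0 :=
        horth z _ (V.starProjection_apply_mem z)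
      have e1 : (2:ℝ) • V.starProjection z - z = V.starProjection z - (z - V.starProjection z) := by
        rw [two_smul]; abel
      have e2 : z = V.starProjection z + (z - V.starProjection z) := by abel
      rw [e1]
      have h3 : ‖V.starProjection z - (z - V.starProjection z)‖ ^ 2
          = ‖V.starProjection z + (z - V.starProjection z)‖ ^ 2 := by
        rw [@norm_sub_sq_real, @norm_add_sq_real, h2]; ring
      have h4 := (sq_eq_sq₀ (norm_nonneg _) (norm_nonneg _)).mp h3
      rw [h4, ← e2]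
  have hder : ∀ x, 0 < fderiv ℝ u x a' := by
    intro x
    have h1 : HasFDerivAt (fun x => p0 + Rf (x - p0)) Rf x :=
      (Rf.hasFDerivAt.comp x ((hasFDerivAt_id x).sub_const p0)).const_add p0
    have h2 := (du (p0 + Rf (x - p0))).hasFDerivAt.comp x h1
    have h3 : (u ∘ fun x => p0 + Rf (x - p0)) = u := funext fun x => hRfinv x
    rw [h3] at h2
    have h4 := h2.fderiv
    have h5 : fderiv ℝ u x (Rf a) = fderiv ℝ u (p0 + Rf (x - p0)) (Rf (Rf a)) := by
      conv_lhs => rw [h4]
      rfl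
    have h6 : Rf (Rf a) = a := by
      rw [hRf_apply, hRf_apply, map_sub, map_smul]
      have : V.starProjection (V.starProjection a) = V.starProjection a :=
        Submodule.starProjection_eq_self_iff.mpr (V.starProjection_apply_mem a)
      rw [this, two_smul, two_smul]; abel
    have h7 : fderiv ℝ u x a' = (fderiv ℝ u x a + fderiv ℝ u x (Rf a)) / 2 := by
      rw [← map_add, hRf_apply, ha']
      rw [show a + ((2:ℝ) • V.starProjection a - a) = (2:ℝ) • V.starProjection a by abel, map_smul]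
      simp only [smul_eq_mul, ne_eq, OfNat.ofNat_ne_zero, not_false_eq_true, mul_div_cancel_left₀]
    rw [h7, h5, h6]
    have := ha x
    have := ha (p0 + Rf (x - p0))
    (clear hn4 hn6 hu heq hb hV hsym du a' ha' ha'V hRf hRf_apply horth hRfinv h1 h2 h3 h4 h5 h6 h7; linarith)
  have ha'0 : a' ≠ 0 := by
    intro h
    have := hder 0
    rw [h] at this
    simp at this
  have hna' : 0 < ‖a'‖ := norm_pos_iff.mpr ha'0
  set e : EuclideanSpace ℝ (Fin n) := (‖a'‖)⁻¹ • a' with he
  have heV : e ∈ V := V.smul_mem _ ha'V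
  have hen : ‖e‖ = 1 := by
    rw [he, norm_smul, norm_inv, norm_norm]
    field_simp
  have hdere : ∀ x, 0 < fderiv ℝ u x e := by
    intro x
    rw [he, map_smul, smul_eq_mul]
    exact mul_pos (inv_pos.mpr hna') (hder x)
  -- coordinates
  set p : Fin n := ⟨0, by omega⟩ with hp
  set q : Fin n := ⟨1, by omega⟩ with hq
  have hpq : p ≠ q := by simp [hp, hq]
  obtain ⟨b, hbq, hbp, hbi⟩ := exists_adapted_basis hV heV hen hpq
  set S : Finset (Fin n) := Finset.univ.filter (fun i => i ≠ p ∧ i ≠ q) with hS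
  have hpS : p ∉ S := by simp only [hS, ne_eq, Finset.mem_filter, Finset.mem_univ, not_true_eq_false, false_and, and_false, not_false_eq_true]
  have hqS : q ∉ S := by simp only [hS, ne_eq, Finset.mem_filter, Finset.mem_univ, not_true_eq_false, and_false, not_false_eq_true]
  have hcov : ∀ i : Fin n, i ∈ S ∨ i = p ∨ i = q := by
    intro i
    by_cases h1 : i = p
    · exact Or.inr (Or.inl h1)
    by_cases h2 : i = q
    · exact Or.inr (Or.inr h2)
    left; simp only [hS, ne_eq, Finset.mem_filter, Finset.mem_univ, h1, not_false_eq_true, h2, and_self]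
  have hcardS : S.card + 2 = n := by
    have : (Finset.univ : Finset (Fin n)) = insert p (insert q S) := by
      ext i
      simp only [Finset.mem_univ, Finset.mem_insert, true_iff]
      rcases hcov i with h | h | h
      · exact Or.inr (Or.inr h)
      · exact Or.inl h
      · exact Or.inr (Or.inl h)
    have h2 := congrArg Finset.card this
    rw [Finset.card_univ, Fintype.card_fin, Finset.card_insert_of_notMem (by simp [hpq, hpS]),
      Finset.card_insert_of_notMem hqS] at h2
    omega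
  have hsol := sol_of_euclidean hu heq hb b p0
  set v : (Fin n → ℝ) → ℝ := fun y => u (p0 + coordMap b y) with hv
  have hpos : ∀ y, 0 < pd q v y := by
    intro y
    rw [hv, pd_coord_comp du b p0 q y, hbq]
    exact hdere _
  have hnorm : ∀ y : Fin n → ℝ, ‖coordMap b y‖ ^ 2 = ∑ i, y i ^ 2 := by
    intro y
    rw [coordMap_apply, ← real_inner_self_eq_norm_sq, sum_inner]
    apply Finset.sum_congr rfl
    intro i _
    have h1 : ⟪b i, ∑ j, y j • b j⟫_ℝ = y i := by
      rw [inner_sum, Finset.sum_eq_single i]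
      · rw [inner_smul_right, real_inner_self_eq_norm_sq, b.orthonormal.1 i]; ring
      · intro j _ hj
        rw [inner_smul_right, b.orthonormal.2 (Ne.symm hj)]; ring
      · simp only [Finset.mem_univ, not_true_eq_false, IsEmpty.forall_iff]
    rw [inner_smul_left, h1]
    simp only [conj_trivial]
    ring
  have hrot : RotInv S v := by
    intro j hj k hk y
    have hj' : j ≠ p ∧ j ≠ q := by simpa only [ne_eq, hS, Finset.mem_filter, Finset.mem_univ, true_and] using hj
    have hk' : k ≠ p ∧ k ≠ q := by simpa only [ne_eq, hS, Finset.mem_filter, Finset.mem_univ, true_and] using hk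
    by_cases hjk : j = k
    · subst hjk; ring
    -- rotation in the `(j,k)` plane
    set γ : ℝ → (Fin n → ℝ) := fun t =>
      y + ((Real.cos t - 1) * y j - Real.sin t * y k) • Pi.single j 1
        + ((Real.cos t - 1) * y k + Real.sin t * y j) • Pi.single k 1 with hγ
    have hγv : ∀ t, v (γ t) = v y := by
      intro t
      apply hsym
      · intro w hw
        have h1 : p0 + coordMap b (γ t) - (p0 + coordMap b y)
            = ((Real.cos t - 1) * y j - Real.sin t * y k) • b j
              + ((Real.cos t - 1) * y k + Real.sin t * y j) • b k := by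
          rw [hγ]
          simp only [map_add, map_smul, coordMap_single]
          abel
        have h2 : ⟪w, b j⟫_ℝ = 0 :=
          (Submodule.mem_orthogonal V _).mp (hbi j hj'.1 hj'.2) w hw
        have h3 : ⟪w, b k⟫_ℝ = 0 :=
          (Submodule.mem_orthogonal V _).mp (hbi k hk'.1 hk'.2) w hw
        rw [h1, inner_add_right, inner_smul_right, inner_smul_right, h2, h3]; ring
      · have h1 : p0 + coordMap b (γ t) - p0 = coordMap b (γ t) := by abel
        have h2 : p0 + coordMap b y - p0 = coordMap b y := by abel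
        rw [h1, h2]
        apply (sq_eq_sq₀ (norm_nonneg _) (norm_nonneg _)).mp
        rw [hnorm, hnorm]
        have hj1 : γ t j = Real.cos t * y j - Real.sin t * y k := by
          simp only [hγ, Pi.add_apply, Pi.smul_apply, Pi.single_eq_same, smul_eq_mul, mul_one, ne_eq, hjk, not_false_eq_true, Pi.single_eq_of_ne, mul_zero, add_zero]; ring
        have hk1 : γ t k = Real.cos t * y k + Real.sin t * y j := by
          simp only [hγ, Pi.add_apply, Pi.smul_apply, ne_eq, Ne.symm hjk, not_false_eq_true, Pi.single_eq_of_ne, smul_eq_mul, mul_zero, add_zero, Pi.single_eq_same, mul_one]; ring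
        have ho1 : ∀ i, i ≠ j → i ≠ k → γ t i = y i := by
          intro i h3 h4
          simp [hγ, h3, h4]
        have hsplit : ∀ z : Fin n → ℝ, ∑ i, z i ^ 2 = z j ^ 2 + (z k ^ 2
            + ∑ i ∈ (Finset.univ.erase j).erase k, z i ^ 2) := by
          intro z
          rw [← Finset.add_sum_erase _ _ (Finset.mem_univ j),
            ← Finset.add_sum_erase _ _ (Finset.mem_erase.mpr ⟨Ne.symm hjk, Finset.mem_univ k⟩)]
        rw [hsplit, hsplit, hj1, hk1]
        have hrest : ∑ i ∈ (Finset.univ.erase j).erase k, γ t i ^ 2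
            = ∑ i ∈ (Finset.univ.erase j).erase k, y i ^ 2 := by
          apply Finset.sum_congr rfl
          intro i hi
          rw [ho1 i (Finset.ne_of_mem_erase (Finset.mem_of_mem_erase hi))
            (Finset.ne_of_mem_erase hi)]
        rw [hrest]
        (clear * - t y j k n; nlinarith only [Real.sin_sq_add_cos_sq t])
    have hγd : HasDerivAt γ (-(y k) • Pi.single j 1 + y j • Pi.single k 1) 0 := by
      have hc : HasDerivAt (fun t : ℝ => (Real.cos t - 1) * y j - Real.sin t * y k) (-(y k)) 0 := by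
        have h1 := ((Real.hasDerivAt_cos 0).sub_const 1).mul_const (y j)
        have h2 := (Real.hasDerivAt_sin 0).mul_const (y k)
        have h3 := h1.fun_sub h2
        simpa only [Real.sin_zero, neg_zero, zero_mul, Real.cos_zero, one_mul, zero_sub] using h3
      have hs : HasDerivAt (fun t : ℝ => (Real.cos t - 1) * y k + Real.sin t * y j) (y j) 0 := by
        have h1 := ((Real.hasDerivAt_cos 0).sub_const 1).mul_const (y k)
        have h2 := (Real.hasDerivAt_sin 0).mul_const (y j)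
        have h3 := h1.fun_add h2
        simpa only [Real.sin_zero, neg_zero, zero_mul, Real.cos_zero, one_mul, zero_add] using h3
      have h4 := ((hc.smul_const (Pi.single j 1 : Fin n → ℝ)).const_add y).add
        (hs.smul_const (Pi.single k 1 : Fin n → ℝ))
      exact h4
    have hγ0 : γ 0 = y := by simp [hγ]
    have dv : Differentiable ℝ v := hsol.c2.differentiable (by norm_num)
    have h5 : HasDerivAt (fun t => v (γ t))
        (fderiv ℝ v (γ 0) (-(y k) • Pi.single j 1 + y j • Pi.single k 1)) 0 :=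
      (dv (γ 0)).hasFDerivAt.comp_hasDerivAt 0 hγd
    have h6 : (fun t => v (γ t)) = fun _ => v y := funext hγv
    rw [h6, hγ0] at h5
    have h7 := h5.unique (hasDerivAt_const _ _)
    rw [map_add, map_smul, map_smul, smul_eq_mul, smul_eq_mul] at h7
    change -(y k) * pd j v y + y j * pd k v y = 0 at h7
    (clear * - y j n k v h7; linarith only [h7])
  obtain ⟨κ, H, hH⟩ := coord_main (S := S) (p := p) (q := q) hcov hpq hpS hqS (by omega) (by omega)
    hsol hpos hrot
  -- conclusion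
  set f : EuclideanSpace ℝ (Fin n) := κ • b p + b q with hf
  have hf0 : f ≠ 0 := by
    intro h
    have h1 : ⟪b q, f⟫_ℝ = 1 := by
      rw [hf, inner_add_right, inner_smul_right, b.orthonormal.2 (Ne.symm hpq),
        real_inner_self_eq_norm_sq, b.orthonormal.1 q]; ring
    rw [h, inner_zero_right] at h1
    norm_num at h1
  have hnf : 0 < ‖f‖ := norm_pos_iff.mpr hf0
  refine ⟨(‖f‖)⁻¹ • f, fun t => H (‖f‖ * t - ⟪f, p0⟫_ℝ), ?_, fun x => ?_⟩
  · rw [norm_smul, norm_inv, norm_norm]; field_simp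
  · have h1 := hH (fun i => ⟪b i, x - p0⟫_ℝ)
    rw [hv] at h1
    simp only [coordMap_repr] at h1
    rw [h1]
    congr 1
    rw [inner_smul_left]
    simp only [conj_trivial]
    rw [← mul_assoc, mul_inv_cancel₀ hnf.ne', one_mul, ← inner_sub_right, hf, inner_add_left,
      inner_smul_left]
    simp only [Real.ringHom_apply]

end Vale.Agent.P134
end
end

section

section

open Module Filter Topology
open scoped InnerProductSpace Laplacian

namespace Vale.Agent.P134

section skew

variable {E : Type*} [NormedAddCommGroup E] [InnerProductSpace ℝ E] [FiniteDimensional ℝ E]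

omit [FiniteDimensional ℝ E] in
lemma skew_swap {B : E →L[ℝ] E} (hB : ∀ x, ⟪x, B x⟫_ℝ = 0) (x y : E) :
    ⟪x, B y⟫_ℝ = - ⟪B x, y⟫_ℝ := by
  have h1 := hB (x + y)
  rw [map_add, inner_add_left, inner_add_right, inner_add_right, hB x, hB y] at h1
  rw [real_inner_comm (B x) y] at h1
  linarith

/-- Normal form of a skew-symmetric map of a four dimensional space with non-trivial kernel. -/
lemma skew_normal (hE : finrank ℝ E = 4) {B : E →L[ℝ] E} (hB : ∀ x, ⟪x, B x⟫_ℝ = 0) (hB0 : B ≠ 0)
    {k : E} (hk : k ≠ 0) (hBk : B k = 0) :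
    ∃ (e1 e2 : E) (l : ℝ), 0 < l ∧ ‖e1‖ = 1 ∧ ‖e2‖ = 1 ∧ ⟪e1, e2⟫_ℝ = 0 ∧
      ∀ y, B y = l • (⟪e1, y⟫_ℝ • e2 - ⟪e2, y⟫_ℝ • e1) := by
  set T : E →ₗ[ℝ] E := (B : E →ₗ[ℝ] E) ∘ₗ (B : E →ₗ[ℝ] E) with hT
  have hTa : ∀ x, T x = B (B x) := fun x => rfl
  have hsym : T.IsSymmetric := by
    intro x y
    rw [hTa, hTa, skew_swap hB x, ← neg_neg ⟪B (B x), y⟫_ℝ, ← skew_swap hB (B x) y]
  -- an eigenvector with non-zero eigenvalue
  have hex : ∃ (i : Fin 4), hsym.eigenvalues hE i ≠ 0 := by
    by_contra hcon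
    push Not at hcon
    apply hB0
    have hT0 : ∀ x, T x = 0 := by
      intro x
      have h1 : x = ∑ i, ⟪hsym.eigenvectorBasis hE i, x⟫_ℝ • hsym.eigenvectorBasis hE i :=
        ((hsym.eigenvectorBasis hE).sum_repr' x).symm
      rw [h1, map_sum]
      apply Finset.sum_eq_zero
      intro i _
      rw [map_smul, hsym.apply_eigenvectorBasis, hcon i]
      simp
    ext x
    have h2 : ⟪x, B (B x)⟫_ℝ = - ⟪B x, B x⟫_ℝ := skew_swap hB x (B x)
    rw [← hTa, hT0, inner_zero_right, real_inner_self_eq_norm_sq] at h2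
    have h3 : ‖B x‖ = 0 := by
      have : ‖B x‖ ^ 2 = 0 := by linarith only [h2]
      exact pow_eq_zero_iff (two_ne_zero) |>.mp this
    simpa only [zero_apply, norm_eq_zero] using h3
  obtain ⟨i, hi⟩ := hex
  set e1 : E := hsym.eigenvectorBasis hE i with he1
  have hn1 : ‖e1‖ = 1 := (hsym.eigenvectorBasis hE).orthonormal.1 i
  set m : ℝ := hsym.eigenvalues hE i with hm
  have hTe : B (B e1) = m • e1 := by
    have := hsym.apply_eigenvectorBasis hE i
    exact this
  have hm2 : m = - ‖B e1‖ ^ 2 := by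
    have h1 := skew_swap hB e1 (B e1)
    rw [hTe, inner_smul_right, real_inner_self_eq_norm_sq, real_inner_self_eq_norm_sq, hn1] at h1
    linarith only [h1]
  set l : ℝ := ‖B e1‖ with hl
  have hl0 : 0 < l := by
    apply lt_of_le_of_ne (norm_nonneg _)
    intro h
    apply hi
    have h' : l = 0 := h.symm
    rw [hm2, h']; simp
  set e2 : E := l⁻¹ • B e1 with he2
  have hn2 : ‖e2‖ = 1 := by
    rw [he2, norm_smul, norm_inv, Real.norm_eq_abs, abs_of_pos hl0]
    exact inv_mul_cancel₀ hl0.ne'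
  have hBe1 : B e1 = l • e2 := by
    rw [he2, smul_smul, mul_inv_cancel₀ hl0.ne', one_smul]
  have hBe2 : B e2 = -(l • e1) := by
    rw [he2, map_smul, hTe, hm2, smul_smul, ← neg_smul]
    congr 1
    (clear * - hl0; field_simp)
  have h12 : ⟪e1, e2⟫_ℝ = 0 := by
    rw [he2, inner_smul_right, hB e1, mul_zero]
  have hk1 : ⟪k, e1⟫_ℝ = 0 := by
    have h1 := skew_swap hB k e2
    rw [hBk, inner_zero_left, neg_zero, hBe2, inner_neg_right, inner_smul_right, neg_eq_zero] at h1
    exact (mul_eq_zero.mp h1).resolve_left hl0.ne'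
  have hk2 : ⟪k, e2⟫_ℝ = 0 := by
    have h1 := skew_swap hB k e1
    rw [hBk, inner_zero_left, neg_zero, hBe1, inner_smul_right] at h1
    exact (mul_eq_zero.mp h1).resolve_left hl0.ne'
  -- `B` vanishes on the orthogonal complement of `e1, e2`
  have hker : ∀ y, ⟪e1, y⟫_ℝ = 0 → ⟪e2, y⟫_ℝ = 0 → B y = 0 := by
    intro y hy1 hy2
    by_contra hw
    have hkk : 0 < ⟪k, k⟫_ℝ := real_inner_self_pos.mpr hk
    set y' : E := y - (⟪k, y⟫_ℝ / ⟪k, k⟫_ℝ) • k with hy'
    have hBy' : B y' = B y := by rw [hy', map_sub, map_smul, hBk, smul_zero, sub_zero]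
    have hy'0 : y' ≠ 0 := by
      intro h
      rw [h, map_zero] at hBy'
      exact hw hBy'.symm
    have c1 : ⟪e1, k⟫_ℝ = 0 := by rw [real_inner_comm]; exact hk1
    have c2 : ⟪e2, k⟫_ℝ = 0 := by rw [real_inner_comm]; exact hk2
    have o1 : ⟪e1, y'⟫_ℝ = 0 := by
      rw [hy', inner_sub_right, inner_smul_right, hy1, c1]; ring
    have o2 : ⟪e2, y'⟫_ℝ = 0 := by
      rw [hy', inner_sub_right, inner_smul_right, hy2, c2]; ring
    have o3 : ⟪k, y'⟫_ℝ = 0 := by
      rw [hy', inner_sub_right, inner_smul_right]; field_simp; ring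
    have w1 : ⟪e1, B y⟫_ℝ = 0 := by
      rw [skew_swap hB, hBe1, inner_smul_left, hy2]; simp
    have w2 : ⟪e2, B y⟫_ℝ = 0 := by
      rw [skew_swap hB, hBe2, inner_neg_left, inner_smul_left, hy1]; simp
    have w3 : ⟪k, B y⟫_ℝ = 0 := by
      rw [skew_swap hB, hBk]; simp
    have w4 : ⟪y', B y⟫_ℝ = 0 := by
      rw [← hBy']; exact hB y'
    have he10 : e1 ≠ 0 := by
      intro h; rw [h, norm_zero] at hn1; norm_num at hn1
    have he20 : e2 ≠ 0 := by
      intro h; rw [h, norm_zero] at hn2; norm_num at hn2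
    have c3 : ⟪e2, e1⟫_ℝ = 0 := by rw [real_inner_comm]; exact h12
    have c4 : ⟪y', e1⟫_ℝ = 0 := by rw [real_inner_comm]; exact o1
    have c5 : ⟪y', e2⟫_ℝ = 0 := by rw [real_inner_comm]; exact o2
    have c6 : ⟪y', k⟫_ℝ = 0 := by rw [real_inner_comm]; exact o3
    have c7 : ⟪B y, e1⟫_ℝ = 0 := by rw [real_inner_comm]; exact w1
    have c8 : ⟪B y, e2⟫_ℝ = 0 := by rw [real_inner_comm]; exact w2
    have c9 : ⟪B y, k⟫_ℝ = 0 := by rw [real_inner_comm]; exact w3
    have c10 : ⟪B y, y'⟫_ℝ = 0 := by rw [real_inner_comm]; exact w4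
    have hli : LinearIndependent ℝ (![e1, e2, k, y', B y] : Fin 5 → E) := by
      apply linearIndependent_of_ne_zero_of_inner_eq_zero
      · intro j
        fin_cases j
        · exact he10
        · exact he20
        · exact hk
        · exact hy'0
        · exact hw
      · intro a b hab
        fin_cases a <;> fin_cases b <;> first | exact absurd rfl hab | assumption
    have := hli.fintype_card_le_finrank
    rw [hE] at this
    simp at this
  refine ⟨e1, e2, l, hl0, hn1, hn2, h12, fun y => ?_⟩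
  set z : E := y - ⟪e1, y⟫_ℝ • e1 - ⟪e2, y⟫_ℝ • e2 with hz
  have h21 : ⟪e2, e1⟫_ℝ = 0 := by rw [real_inner_comm]; exact h12
  have z1 : ⟪e1, z⟫_ℝ = 0 := by
    rw [hz, inner_sub_right, inner_sub_right, inner_smul_right, inner_smul_right,
      real_inner_self_eq_norm_sq, hn1, h12]; ring
  have z2 : ⟪e2, z⟫_ℝ = 0 := by
    rw [hz, inner_sub_right, inner_sub_right, inner_smul_right, inner_smul_right,
      real_inner_self_eq_norm_sq, hn2, h21]; ring
  have hzB := hker z z1 z2
  rw [hz, map_sub, map_sub, map_smul, map_smul, hBe1, hBe2] at hzB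
  have h3 : B y = ⟪e1, y⟫_ℝ • l • e2 + ⟪e2, y⟫_ℝ • -(l • e1) := by
    have : B y = (B y - ⟪e1, y⟫_ℝ • l • e2 - ⟪e2, y⟫_ℝ • -(l • e1))
        + (⟪e1, y⟫_ℝ • l • e2 + ⟪e2, y⟫_ℝ • -(l • e1)) := by abel
    rw [this, hzB, zero_add]
  rw [h3]
  clear_value e2
  module

/-- Rotation in the plane of `e1, e2`. -/
noncomputable def rotE (e1 e2 : E) (θ : ℝ) (y : E) : E :=
  y + (((Real.cos θ - 1) * ⟪e1, y⟫_ℝ - Real.sin θ * ⟪e2, y⟫_ℝ) • e1
    + (Real.sin θ * ⟪e1, y⟫_ℝ + (Real.cos θ - 1) * ⟪e2, y⟫_ℝ) • e2)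

omit [FiniteDimensional ℝ E] in
lemma inner_rotE1 {e1 e2 : E} (h1 : ‖e1‖ = 1) (h12 : ⟪e1, e2⟫_ℝ = 0) (θ : ℝ) (y : E) :
    ⟪e1, rotE e1 e2 θ y⟫_ℝ = Real.cos θ * ⟪e1, y⟫_ℝ - Real.sin θ * ⟪e2, y⟫_ℝ := by
  unfold rotE
  rw [inner_add_right, inner_add_right, inner_smul_right, inner_smul_right,
    real_inner_self_eq_norm_sq, h1, h12]; ring

omit [FiniteDimensional ℝ E] in
lemma inner_rotE2 {e1 e2 : E} (h2 : ‖e2‖ = 1) (h12 : ⟪e1, e2⟫_ℝ = 0) (θ : ℝ) (y : E) :
    ⟪e2, rotE e1 e2 θ y⟫_ℝ = Real.sin θ * ⟪e1, y⟫_ℝ + Real.cos θ * ⟪e2, y⟫_ℝ := by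
  have h21 : ⟪e2, e1⟫_ℝ = 0 := by rw [real_inner_comm]; exact h12
  unfold rotE
  rw [inner_add_right, inner_add_right, inner_smul_right, inner_smul_right,
    real_inner_self_eq_norm_sq, h2, h21]; ring

omit [FiniteDimensional ℝ E] in
/-- Invariance of `u` under the flow of the generator. -/
lemma flow_inv {u : E → ℝ} (hu : Differentiable ℝ u) {B : E →L[ℝ] E} {c c0 p e1 e2 : E} {l : ℝ}
    (hl : 0 < l) (h1 : ‖e1‖ = 1) (h2 : ‖e2‖ = 1) (h12 : ⟪e1, e2⟫_ℝ = 0)
    (hBf : ∀ y, B y = l • (⟪e1, y⟫_ℝ • e2 - ⟪e2, y⟫_ℝ • e1)) (hc0 : B c0 = 0)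
    (hc : ∀ x, B x + c = B (x - p) + c0) (hgen : ∀ x, fderiv ℝ u x (B x + c) = 0)
    (θ : ℝ) (x : E) : u (p + rotE e1 e2 θ (x - p) + (θ / l) • c0) = u x := by
  set y : E := x - p with hy
  set γ : ℝ → E := fun θ => p + rotE e1 e2 θ y + (θ / l) • c0 with hγ
  have hder : ∀ θ, HasDerivAt γ (l⁻¹ • (B (γ θ) + c)) θ := by
    intro θ
    have d1 : HasDerivAt (fun θ : ℝ => (Real.cos θ - 1) * ⟪e1, y⟫_ℝ - Real.sin θ * ⟪e2, y⟫_ℝ)
        (-Real.sin θ * ⟪e1, y⟫_ℝ - Real.cos θ * ⟪e2, y⟫_ℝ) θ :=
      (((Real.hasDerivAt_cos θ).sub_const 1).mul_const _).fun_sub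
        ((Real.hasDerivAt_sin θ).mul_const _)
    have d2 : HasDerivAt (fun θ : ℝ => Real.sin θ * ⟪e1, y⟫_ℝ + (Real.cos θ - 1) * ⟪e2, y⟫_ℝ)
        (Real.cos θ * ⟪e1, y⟫_ℝ + -Real.sin θ * ⟪e2, y⟫_ℝ) θ :=
      ((Real.hasDerivAt_sin θ).mul_const _).fun_add
        (((Real.hasDerivAt_cos θ).sub_const 1).mul_const _)
    have d3 : HasDerivAt (fun θ : ℝ => (θ / l) • c0) ((1 / l) • c0) θ :=
      ((hasDerivAt_id θ).div_const l).smul_const c0
    have d4 : HasDerivAt γ ((-Real.sin θ * ⟪e1, y⟫_ℝ - Real.cos θ * ⟪e2, y⟫_ℝ) • e1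
        + (Real.cos θ * ⟪e1, y⟫_ℝ + -Real.sin θ * ⟪e2, y⟫_ℝ) • e2 + (1 / l) • c0) θ := by
      have := (((d1.smul_const e1).add (d2.smul_const e2)).const_add y |>.const_add p).add d3
      exact this
    have e : (-Real.sin θ * ⟪e1, y⟫_ℝ - Real.cos θ * ⟪e2, y⟫_ℝ) • e1
        + (Real.cos θ * ⟪e1, y⟫_ℝ + -Real.sin θ * ⟪e2, y⟫_ℝ) • e2 + (1 / l) • c0
        = l⁻¹ • (B (γ θ) + c) := by
      rw [hc (γ θ)]
      have e3 : γ θ - p = rotE e1 e2 θ y + (θ / l) • c0 := by simp only [hγ]; abel
      rw [e3, map_add, map_smul, hc0, smul_zero, add_zero, smul_add, hBf, smul_smul,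
        inv_mul_cancel₀ hl.ne', one_smul, inner_rotE1 h1 h12, inner_rotE2 h2 h12, one_div]
      module
    rw [e] at d4
    exact d4
  have hconst : ∀ θ, HasDerivAt (fun θ => u (γ θ)) 0 θ := by
    intro θ
    have := (hu (γ θ)).hasFDerivAt.comp_hasDerivAt θ (hder θ)
    rw [map_smul, hgen, smul_zero] at this
    exact this
  have h3 := is_const_of_deriv_eq_zero (f := fun θ => u (γ θ))
    (fun θ => (hconst θ).differentiableAt) (fun θ => (hconst θ).deriv) θ 0
  have h4 : γ 0 = x := by
    simp [hγ, rotE, hy]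
  simp only [h4] at h3
  exact h3

/-- Two plane vectors of the same length differ by a rotation. -/
lemma angle_exists {x1 x2 y1 y2 : ℝ} (hsq : x1 ^ 2 + x2 ^ 2 = y1 ^ 2 + y2 ^ 2) :
    ∃ θ : ℝ, Real.cos θ * x1 - Real.sin θ * x2 = y1 ∧ Real.sin θ * x1 + Real.cos θ * x2 = y2 := by
  by_cases hρ : x1 ^ 2 + x2 ^ 2 = 0
  · have hx10 : x1 = 0 := by nlinarith only [hρ]
    have hx20 : x2 = 0 := by (clear * - x2 x1 hρ; nlinarith only [hρ])
    have hy10 : y1 = 0 := by nlinarith only [hsq, hρ]
    have hy20 : y2 = 0 := by nlinarith only [hsq, hρ]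
    exact ⟨0, by rw [hx10, hx20, hy10]; simp, by rw [hx10, hx20, hy20]; simp⟩
  · set z : ℂ := ⟨(x1 * y1 + x2 * y2) / (x1 ^ 2 + x2 ^ 2),
      (x1 * y2 - x2 * y1) / (x1 ^ 2 + x2 ^ 2)⟩ with hz
    have hzn : Complex.normSq z = 1 := by
      rw [Complex.normSq_apply, hz]
      have : (x1 * y1 + x2 * y2) ^ 2 + (x1 * y2 - x2 * y1) ^ 2
          = (x1 ^ 2 + x2 ^ 2) * (x1 ^ 2 + x2 ^ 2) := by
        have h : (x1 * y1 + x2 * y2) ^ 2 + (x1 * y2 - x2 * y1) ^ 2
          = (x1 ^ 2 + x2 ^ 2) * (y1 ^ 2 + y2 ^ 2) := by ring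
        rw [h, ← hsq]
      change (x1 * y1 + x2 * y2) / (x1 ^ 2 + x2 ^ 2) * ((x1 * y1 + x2 * y2) / (x1 ^ 2 + x2 ^ 2))
        + (x1 * y2 - x2 * y1) / (x1 ^ 2 + x2 ^ 2) * ((x1 * y2 - x2 * y1) / (x1 ^ 2 + x2 ^ 2)) = 1
      rw [div_mul_div_comm, div_mul_div_comm, ← add_div, ← sq, ← sq, this]
      exact div_self (mul_ne_zero hρ hρ)
    have hz1 : ‖z‖ = 1 := by
      rw [Complex.norm_def, hzn]; simp
    have hz0 : z ≠ 0 := by
      intro h; rw [h, norm_zero] at hz1; norm_num at hz1
    refine ⟨Complex.arg z, ?_, ?_⟩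
    · rw [Complex.cos_arg hz0, Complex.sin_arg, hz1, hz]
      simp only [div_one]
      field_simp
      ring
    · rw [Complex.cos_arg hz0, Complex.sin_arg, hz1, hz]
      simp only [div_one]
      field_simp
      ring

end skew

variable {u : EuclideanSpace ℝ (Fin 4) → ℝ}

lemma lip_euclid {n : ℕ} {u : EuclideanSpace ℝ (Fin n) → ℝ} (hu : ContDiff ℝ 2 u)
    (heq : ∀ x, Δ u x = u x ^ 3 - u x) (hb : ∀ x, |u x| ≤ 1) :
    ∃ L : ℝ, 0 ≤ L ∧ ∀ x y, |u x - u y| ≤ L * ‖x - y‖ := by
  set b : OrthonormalBasis (Fin n) ℝ (EuclideanSpace ℝ (Fin n)) :=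
    EuclideanSpace.basisFun (Fin n) ℝ with hbdef
  have hsol := sol_of_euclidean hu heq hb b 0
  refine ⟨n * (n + 1), by (clear * -; positivity), fun x y => ?_⟩
  have h1 := hsol.diff_le (fun i => ⟪b i, y⟫_ℝ) (fun i => ⟪b i, x - y⟫_ℝ)
  have e1 : (fun i => ⟪b i, y⟫_ℝ) + (fun i => ⟪b i, x - y⟫_ℝ) = fun i => ⟪b i, x⟫_ℝ := by
    ext i
    simp only [Pi.add_apply]
    rw [← inner_add_right]; congr 1; abel
  rw [e1, zero_add, zero_add, coordMap_inner, coordMap_inner] at h1
  refine h1.trans ?_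
  apply mul_le_mul_of_nonneg_left _ (by (clear * -; positivity))
  refine (norm_le_norm_coordMap b _).trans ?_
  rw [coordMap_inner]

/-- Invariance under a screw motion with non-trivial translation part, dimension four. -/
theorem screw_four (hu : ContDiff ℝ 2 u) (heq : ∀ x, Δ u x = u x ^ 3 - u x)
    (hb : ∀ x, |u x| ≤ 1) {a : EuclideanSpace ℝ (Fin 4)} (ha : ∀ x, 0 < fderiv ℝ u x a)
    (A : EuclideanSpace ℝ (Fin 4) ≃ₗᵢ[ℝ] EuclideanSpace ℝ (Fin 4))
    {p b : EuclideanSpace ℝ (Fin 4)} (hb0 : b ≠ 0)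
    (hAb : A b = b) (hinv : ∀ x, u (p + A (x - p) + b) = u x) :
    ∃ (e : EuclideanSpace ℝ (Fin 4)) (h : ℝ → ℝ), ‖e‖ = 1 ∧ ∀ x, u x = h ⟪e, x⟫_ℝ := by
  obtain ⟨L, hL0, hL⟩ := lip_euclid hu heq hb
  refine rec_euclid hu heq hb ha (V := Submodule.span ℝ {b}) ?_ (screw_rec hL0 hL A hAb hinv)
  rw [finrank_span_singleton hb0]

/-- Invariance under the rotations of a plane. -/
theorem rot_four (hu : ContDiff ℝ 2 u) (heq : ∀ x, Δ u x = u x ^ 3 - u x)
    (hb : ∀ x, |u x| ≤ 1) {a : EuclideanSpace ℝ (Fin 4)} (ha : ∀ x, 0 < fderiv ℝ u x a)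
    (hE : finrank ℝ (EuclideanSpace ℝ (Fin 4)) = 4) {e1 e2 p : EuclideanSpace ℝ (Fin 4)}
    (hn1 : ‖e1‖ = 1) (hn2 : ‖e2‖ = 1) (h12 : ⟪e1, e2⟫_ℝ = 0)
    (hflow : ∀ (θ : ℝ) (x : EuclideanSpace ℝ (Fin 4)), u (p + rotE e1 e2 θ (x - p)) = u x) :
    ∃ (e : EuclideanSpace ℝ (Fin 4)) (h : ℝ → ℝ), ‖e‖ = 1 ∧ ∀ x, u x = h ⟪e, x⟫_ℝ := by
  have h21 : ⟪e2, e1⟫_ℝ = 0 := by rw [real_inner_comm]; exact h12
  set W : Submodule ℝ (EuclideanSpace ℝ (Fin 4)) := Submodule.span ℝ {e1, e2} with hW
  have hWr : finrank ℝ W = 2 := by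
    have hli : LinearIndependent ℝ (![e1, e2] : Fin 2 → EuclideanSpace ℝ (Fin 4)) := by
      apply linearIndependent_of_ne_zero_of_inner_eq_zero
      · intro j
        fin_cases j
        · intro h
          have : e1 = 0 := h
          rw [this, norm_zero] at hn1; norm_num at hn1
        · intro h
          have : e2 = 0 := h
          rw [this, norm_zero] at hn2; norm_num at hn2
      · intro i j hij
        fin_cases i <;> fin_cases j <;> first | exact absurd rfl hij | assumption
    have h1 := finrank_span_eq_card hli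
    have h2 : Set.range (![e1, e2] : Fin 2 → EuclideanSpace ℝ (Fin 4)) = {e1, e2} := by
      rw [Set.pair_comm]
      simp [Matrix.range_cons, Matrix.range_empty]
    rw [h2] at h1
    simpa using h1
  have hVr : finrank ℝ Wᗮ = 2 := by
    have := W.finrank_add_finrank_orthogonal
    rw [hWr, hE] at this
    omega
  refine rot_main (n := 4) le_rfl (by norm_num) hu heq hb ha hVr (p0 := p) ?_
  intro x y hxy hnorm
  have hmem : x - y ∈ W := by
    rw [← W.orthogonal_orthogonal, Submodule.mem_orthogonal]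
    exact hxy
  obtain ⟨α, β, hαβ⟩ := Submodule.mem_span_pair.mp hmem
  set X : EuclideanSpace ℝ (Fin 4) := x - p with hX
  set Y : EuclideanSpace ℝ (Fin 4) := y - p with hY
  have hYX : Y = X - (α • e1 + β • e2) := by
    rw [hαβ, hX, hY]; abel
  set x1 : ℝ := ⟪e1, X⟫_ℝ with hx1
  set x2 : ℝ := ⟪e2, X⟫_ℝ with hx2
  have hnsq : ‖Y‖ ^ 2 = ‖X‖ ^ 2 - 2 * (α * x1 + β * x2) + (α ^ 2 + β ^ 2) := by
    have e5 : ‖α • e1 + β • e2‖ ^ 2 = α ^ 2 + β ^ 2 := by
      rw [@norm_add_sq_real, norm_smul, norm_smul, hn1, hn2, inner_smul_left, inner_smul_right,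
        h12]
      simp
    have e6 : ⟪X, α • e1 + β • e2⟫_ℝ = α * x1 + β * x2 := by
      rw [inner_add_right, inner_smul_right, inner_smul_right, real_inner_comm e1 X,
        real_inner_comm e2 X]
    rw [hYX, @norm_sub_sq_real, e5, e6]
  have hnorm' : ‖X‖ = ‖Y‖ := hnorm
  rw [← hnorm'] at hnsq
  -- coordinates of `Y`
  set y1 : ℝ := x1 - α with hy1
  set y2 : ℝ := x2 - β with hy2
  have hsq : x1 ^ 2 + x2 ^ 2 = y1 ^ 2 + y2 ^ 2 := by
    rw [hy1, hy2]; (clear * - x1 x2 α β X hnsq; (clear * - x1 x2 α β X hnsq; linarith))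
  have hang := angle_exists hsq
  obtain ⟨θ, hθ1, hθ2⟩ := hang
  have hfl := hflow θ x
  rw [← hfl]
  congr 1
  have h9 : rotE e1 e2 θ (x - p) = Y := by
    change rotE e1 e2 θ X = Y
    unfold rotE
    change X + (((Real.cos θ - 1) * x1 - Real.sin θ * x2) • e1
      + (Real.sin θ * x1 + (Real.cos θ - 1) * x2) • e2) = Y
    have f1 : (Real.cos θ - 1) * x1 - Real.sin θ * x2 = -α := by (clear * - θ x1 x2 α y1 hθ1; linarith)
    have f2 : Real.sin θ * x1 + (Real.cos θ - 1) * x2 = -β := by linarith only [hθ2]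
    rw [f1, f2, hYX, neg_smul, neg_smul]; abel
  rw [h9, hY]; abel

/-- The non-discrete case. -/
theorem gen_four (hu : ContDiff ℝ 2 u) (heq : ∀ x, Δ u x = u x ^ 3 - u x)
    (hb : ∀ x, |u x| ≤ 1) {a : EuclideanSpace ℝ (Fin 4)} (ha : ∀ x, 0 < fderiv ℝ u x a)
    {B : EuclideanSpace ℝ (Fin 4) →L[ℝ] EuclideanSpace ℝ (Fin 4)} {c : EuclideanSpace ℝ (Fin 4)}
    (hBc : B ≠ 0 ∨ c ≠ 0) (hB : ∀ x, ⟪x, B x⟫_ℝ = 0) (hgen : ∀ x, fderiv ℝ u x (B x + c) = 0) :
    ∃ (e : EuclideanSpace ℝ (Fin 4)) (h : ℝ → ℝ), ‖e‖ = 1 ∧ ∀ x, u x = h ⟪e, x⟫_ℝ := by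
  have du : Differentiable ℝ u := hu.differentiable (by norm_num)
  have hE : finrank ℝ (EuclideanSpace ℝ (Fin 4)) = 4 := by simp
  by_cases hB0 : B = 0
  · -- translation invariance
    have hc : c ≠ 0 := hBc.resolve_left (fun h => h hB0)
    have hgc : ∀ x, fderiv ℝ u x c = 0 := by
      intro x
      have := hgen x
      rw [hB0] at this
      simpa only [zero_apply, zero_add] using this
    refine screw_four hu heq hb ha (1 : EuclideanSpace ℝ (Fin 4) ≃ₗᵢ[ℝ] EuclideanSpace ℝ (Fin 4))
      (p := 0) hc (by simp only [LinearIsometryEquiv.coe_one, id_eq]) ?_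
    intro x
    have hder : ∀ t : ℝ, HasDerivAt (fun t : ℝ => u (x + t • c)) 0 t := by
      intro t
      have h1 : HasDerivAt (fun s : ℝ => x + s • c) c t := by
        have := ((hasDerivAt_id t).smul_const c).const_add x
        simpa using this
      have h2 := (du (x + t • c)).hasFDerivAt.comp_hasDerivAt t h1
      rwa [hgc] at h2
    have h3 := is_const_of_deriv_eq_zero (f := fun t : ℝ => u (x + t • c))
      (fun t => (hder t).differentiableAt) (fun t => (hder t).deriv) 1 0
    simpa only [sub_zero, LinearIsometryEquiv.coe_one, id_eq, zero_add, one_smul, zero_smul, add_zero] using h3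
  · -- the kernel of `B` is non-trivial
    have hker : ∃ k, k ≠ 0 ∧ B k = 0 := by
      by_contra hcon
      push Not at hcon
      have hinj : Function.Injective (B : EuclideanSpace ℝ (Fin 4) →ₗ[ℝ] EuclideanSpace ℝ (Fin 4)) := by
        rw [injective_iff_map_eq_zero]
        intro k hk
        by_contra hk0
        exact hcon k hk0 hk
      have hsurj : Function.Surjective
          (B : EuclideanSpace ℝ (Fin 4) →ₗ[ℝ] EuclideanSpace ℝ (Fin 4)) :=
        LinearMap.injective_iff_surjective.mp hinj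
      obtain ⟨p, hp⟩ := hsurj (-c)
      have hp' : B p = -c := hp
      obtain ⟨y, hy⟩ := hsurj a
      have hy' : B y = a := hy
      have h1 : ∀ s : ℝ, s ≠ 0 → fderiv ℝ u (p + s • y) a = 0 := by
        intro s hs
        have h2 := hgen (p + s • y)
        have h3 : B (p + s • y) + c = s • a := by
          rw [map_add, map_smul, hp', hy']; abel
        rw [h3, map_smul, smul_eq_mul] at h2
        exact (mul_eq_zero.mp h2).resolve_left hs
      have hcont : Continuous (fun s : ℝ => fderiv ℝ u (p + s • y) a) := by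
        have h4 : Continuous (fderiv ℝ u) := hu.continuous_fderiv (by norm_num)
        have h5 : Continuous (fun s : ℝ => p + s • y) := by (clear * -; fun_prop)
        exact (h4.comp h5).clm_apply continuous_const
      have h6 : Tendsto (fun s : ℝ => fderiv ℝ u (p + s • y) a) (𝓝[≠] 0)
          (𝓝 (fderiv ℝ u (p + (0:ℝ) • y) a)) := (hcont.tendsto 0).mono_left nhdsWithin_le_nhds
      have h7 : Tendsto (fun s : ℝ => fderiv ℝ u (p + s • y) a) (𝓝[≠] 0) (𝓝 0) := by
        apply tendsto_const_nhds.congr'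
        filter_upwards [self_mem_nhdsWithin] with s hs
        exact (h1 s hs).symm
      have h8 := tendsto_nhds_unique h6 h7
      exact absurd h8 (ha _).ne'
    obtain ⟨k, hk0, hBk⟩ := hker
    obtain ⟨e1, e2, l, hl, hn1, hn2, h12, hBf⟩ := skew_normal hE hB hB0 hk0 hBk
    have h21 : ⟪e2, e1⟫_ℝ = 0 := by rw [real_inner_comm]; exact h12
    set c0 : EuclideanSpace ℝ (Fin 4) := c - ⟪e1, c⟫_ℝ • e1 - ⟪e2, c⟫_ℝ • e2 with hc0
    set p : EuclideanSpace ℝ (Fin 4) := (-(l⁻¹ * ⟪e2, c⟫_ℝ)) • e1 + (l⁻¹ * ⟪e1, c⟫_ℝ) • e2 with hp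
    have i1 : ⟪e1, c0⟫_ℝ = 0 := by
      rw [hc0, inner_sub_right, inner_sub_right, inner_smul_right, inner_smul_right,
        real_inner_self_eq_norm_sq, hn1, h12]; ring
    have i2 : ⟪e2, c0⟫_ℝ = 0 := by
      rw [hc0, inner_sub_right, inner_sub_right, inner_smul_right, inner_smul_right,
        real_inner_self_eq_norm_sq, hn2, h21]; ring
    have hBc0 : B c0 = 0 := by rw [hBf, i1, i2]; simp
    have p1 : ⟪e1, p⟫_ℝ = -(l⁻¹ * ⟪e2, c⟫_ℝ) := by
      rw [hp, inner_add_right, inner_smul_right, inner_smul_right, real_inner_self_eq_norm_sq, hn1,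
        h12]; ring
    have p2 : ⟪e2, p⟫_ℝ = l⁻¹ * ⟪e1, c⟫_ℝ := by
      rw [hp, inner_add_right, inner_smul_right, inner_smul_right, real_inner_self_eq_norm_sq, hn2,
        h21]; ring
    have hBp : B p = c0 - c := by
      rw [hBf, p1, p2, smul_sub, smul_smul, smul_smul]
      have e3 : l * -(l⁻¹ * ⟪e2, c⟫_ℝ) = -⟪e2, c⟫_ℝ := by (clear * - hl; field_simp)
      have e4 : l * (l⁻¹ * ⟪e1, c⟫_ℝ) = ⟪e1, c⟫_ℝ := by (clear * - hl; field_simp)
      rw [e3, e4, hc0, neg_smul]; abel
    have hc' : ∀ x, B x + c = B (x - p) + c0 := by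
      intro x
      rw [map_sub, hBp]; abel
    have hflow := flow_inv du hl hn1 hn2 h12 hBf hBc0 hc' hgen
    by_cases hc00 : c0 = 0
    · -- rotational symmetry
      exact rot_four hu heq hb ha hE hn1 hn2 h12 (p := p) (by
        intro θ x
        have hfl := hflow θ x
        rwa [hc00, smul_zero, add_zero] at hfl)
    · -- a period
      refine screw_four hu heq hb ha
        (1 : EuclideanSpace ℝ (Fin 4) ≃ₗᵢ[ℝ] EuclideanSpace ℝ (Fin 4))
        (p := p) (b := (2 * Real.pi / l) • c0) ?_ (by simp only [map_smul, LinearIsometryEquiv.coe_one, id_eq]) ?_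
      · exact smul_ne_zero (by (clear * - hl; positivity)) hc00
      · intro x
        have h1 := hflow (2 * Real.pi) x
        unfold rotE at h1
        simp only [Real.cos_two_pi, Real.sin_two_pi, sub_self, zero_mul, zero_smul, add_zero] at h1
        simpa only [LinearIsometryEquiv.coe_one, id_eq, add_sub_cancel] using h1

/-- In dimension four, a solution with infinitely many symmetries is one-dimensional. -/
theorem sym_four (hu : ContDiff ℝ 2 u) (heq : ∀ x, Δ u x = u x ^ 3 - u x)
    (hb : ∀ x, |u x| ≤ 1) {a : EuclideanSpace ℝ (Fin 4)} (ha : ∀ x, 0 < fderiv ℝ u x a)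
    (hinf : {g : EuclideanSpace ℝ (Fin 4) ≃ᵢ EuclideanSpace ℝ (Fin 4) |
      ∀ x, u (g x) = u x}.Infinite) :
    ∃ (e : EuclideanSpace ℝ (Fin 4)) (h : ℝ → ℝ), ‖e‖ = 1 ∧ ∀ x, u x = h ⟪e, x⟫_ℝ := by
  have du : Differentiable ℝ u := hu.differentiable (by norm_num)
  set G : Subgroup (EuclideanSpace ℝ (Fin 4) ≃ᵢ EuclideanSpace ℝ (Fin 4)) :=
    { carrier := {g | ∀ x, u (g x) = u x}
      mul_mem' := by
        intro g h hg hh x
        change u (g (h x)) = u x
        rw [hg, hh]
      one_mem' := by intro x; rfl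
      inv_mem' := by
        intro g hg x
        have := hg (g⁻¹ x)
        rw [← this]
        change u ((g * g⁻¹) x) = u x
        simp only [mul_inv_cancel, IsometryEquiv.coe_one, id_eq] } with hG
  rcases group_dichotomy G hinf with h1 | ⟨g, hg, hfix⟩
  · obtain ⟨B, c, hBc, hB, hgen⟩ := exists_generator du (fun δ hδ => by
      obtain ⟨g, hg, h2, h3, h4⟩ := h1 δ hδ
      exact ⟨g, hg, h2, h3, h4⟩)
    exact gen_four hu heq hb ha hBc hB hgen
  · obtain ⟨p, b, hAb, hgx⟩ := iso_normal g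
    have hb0 : b ≠ 0 := by
      intro h
      apply hfix p
      rw [hgx p, h]; simp
    refine screw_four hu heq hb ha (lin g) (p := p) hb0 hAb fun x => ?_
    rw [← hgx]
    exact hg x

end Vale.Agent.P134
end
end
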